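import Vale.Agent.P366.R2.H318.Good

/-! The averaged tensor decays. -/

open MeasureTheory Metric Filter Topology Set
open scoped ContDiff Matrix

noncomputable section
namespace Vale.Agent.H318
open Vale.Agent.P366.Stmt Vale.Agent.P366.T2 Vale.Agent.T4

variable {n : ℕ} {H : Type} [TopologicalSpace H] [CompactSpace H] [MeasurableSpace H]
  [BorelSpace H] [SecondCountableTopology H] {μ : Measure H} [IsProbabilityMeasure μ]
  {b : H → Matrix (Fin n) (Fin n) ℝ} {Γ : Matrix (Fin n) (Fin n) ℝ → Prop}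

lemma entry_le {B : Matrix (Fin n) (Fin n) ℝ} (hB : Bᵀ * B = 1) (p i : Fin n) : |B p i| ≤ 1 := by
  have h1 := orth_rel hB p p
  rw [if_pos rfl] at h1
  have h2 : B p i * B p i ≤ ∑ i, B p i * B p i :=
    Finset.single_le_sum (f := fun i => B p i * B p i) (fun i _ => mul_self_nonneg _)
      (Finset.mem_univ i)
  rw [h1] at h2
  have h3 : |B p i| * |B p i| ≤ 1 := by rwa [abs_mul_abs_self]
  by_contra hcon
  push Not at hcon
  nlinarith

lemma R_le {B : Matrix (Fin n) (Fin n) ℝ} (hB : Bᵀ * B = 1) (f : Fin n → ℝ) (i : Fin n) :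
    |R B f i| ≤ ∑ p, |f p| := by
  unfold R
  refine (Finset.abs_sum_le_sum_abs _ _).trans (Finset.sum_le_sum fun p _ => ?_)
  rw [abs_mul]
  exact mul_le_of_le_one_left (abs_nonneg _) (entry_le hB p i)

lemma R2_le {B : Matrix (Fin n) (Fin n) ℝ} (hB : Bᵀ * B = 1) (f : Fin n → Fin n → ℝ)
    (i j : Fin n) : |R2 B f i j| ≤ ∑ p, ∑ q, |f p q| :=
  (R_le hB _ i).trans (Finset.sum_le_sum fun _ _ => R_le hB _ j)

lemma R3_le {B : Matrix (Fin n) (Fin n) ℝ} (hB : Bᵀ * B = 1) (f : Fin n → Fin n → Fin n → ℝ)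
    (i j k : Fin n) : |R3 B f i j k| ≤ ∑ p, ∑ q, ∑ r, |f p q r| :=
  (R_le hB _ i).trans (Finset.sum_le_sum fun _ _ => (R_le hB _ j).trans
    (Finset.sum_le_sum fun _ _ => R_le hB _ k))

omit [SecondCountableTopology H] in
lemma bigO_avg (G : Good Γ μ b) {ι : Type} [Fintype ι] {a : ℝ} {f : ι → E n → ℝ}
    (hf : ∀ i, BigO a (f i)) {w : H → E n → ℝ} {W : E n → ℝ}
    (hw : ∀ x, Av μ (fun h => w h x) (W x))
    (hle : ∀ h x, |w h x| ≤ ∑ i, |f i (act (b h) x)|) : BigO a W := by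
  choose C R hCR using hf
  refine ⟨∑ i, C i, ∑ i, |R i|, fun x hx => ?_⟩
  have hR : ∀ i, R i < len x := fun i =>
    ((le_abs_self _).trans (Finset.single_le_sum (f := fun i => |R i|) (fun i _ => abs_nonneg _)
      (Finset.mem_univ i))).trans_lt hx
  have h1 : ∀ h, |w h x| ≤ (∑ i, C i) * len x ^ (-a) := by
    intro h
    refine (hle h x).trans ?_
    rw [Finset.sum_mul]
    refine Finset.sum_le_sum fun i _ => ?_
    have := hCR i (act (b h) x) (by rw [G.len_b]; exact hR i)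
    rwa [G.len_b] at this
  have h2 := (hw x).le (Av.const (μ := μ) ((∑ i, C i) * len x ^ (-a))) fun h =>
    (le_abs_self _).trans (h1 h)
  have h3 := (Av.const (μ := μ) (-((∑ i, C i) * len x ^ (-a)))).le (hw x) fun h =>
    (abs_le.1 (h1 h)).1
  exact abs_le.2 ⟨h3, h2⟩

variable (G : Good Γ μ b) {K : Field n} (hK : ∀ i j, Smooth (fun x => K x i j))
include G hK

omit [SecondCountableTopology H] in
lemma bigO_K {a : ℝ} (h : ∀ p q, BigO a (fun x => K x p q)) (i j : Fin n) :
    BigO a (fun x => avg μ b K x i j) := by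
  refine bigO_avg G (ι := Fin n × Fin n) (f := fun s x => K x s.1 s.2) (fun s => h _ _)
    (fun x => Av_pull G.cont hK x i j) fun t x => ?_
  rw [Fintype.sum_prod_type]
  exact R2_le (G.orth t) _ i j

lemma bigO_dK {a : ℝ} (h : ∀ p q r, BigO a (pd r fun x => K x p q)) (i j k : Fin n) :
    BigO a (pd k fun x => avg μ b K x i j) := by
  refine bigO_avg G (ι := Fin n × Fin n × Fin n) (f := fun s => pd s.2.2 fun x => K x s.1 s.2.1)
    (fun s => h _ _ _) (fun x => Av_pd G.cont hK x i j k) fun t x => ?_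
  simp only [Fintype.sum_prod_type]
  rw [pd_pull (fun p q => (hK p q).differentiable (by simp) _)]
  exact R3_le (G.orth t) _ i j k

end Vale.Agent.H318
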