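import Mathlib.Analysis.Calculus.Deriv.Add
import Mathlib.Analysis.Calculus.Deriv.Mul
import Mathlib.Analysis.Calculus.Deriv.Inv
import Mathlib.Analysis.Calculus.Deriv.Pow
import Mathlib.Tactic

/-! Algebra of the monotone quantities. -/

open Filter Topology Set

noncomputable section
namespace Vale.Agent.H318

/-- the sign of the derivative of `M² - c V² u²` -/
lemma alg2 {N kp ρ V M u j S c : ℝ} (hk : 0 < kp) (hρ : 0 < ρ) (hV : 0 ≤ V) (hN : 2 ≤ N)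
    (hc : 0 ≤ c) (hMd : M = kp * (1 - V ^ 2) / 2) (hM : 0 ≤ M) (hG : c * V * |u| ≤ M)
    (hS : c * (N - 1) * u ^ 2 / (kp * ρ) ^ 2 + |j| / (kp * ρ) ≤ S) :
    0 ≤ 2 * M * (kp * ρ * V * S) -
      2 * c * V * u ^ 2 * ((N - 2) * (1 - V ^ 2) / (2 * ρ) - ρ * S) -
      2 * c * V ^ 2 * u * ((1 - V) / ρ * u + j) := by
  obtain ⟨T, hT⟩ : ∃ T, T = c * (N - 1) * u ^ 2 / (kp * ρ) ^ 2 + |j| / (kp * ρ) := ⟨_, rfl⟩
  rw [← hT] at hS
  have h1 : 0 ≤ (S - T) * (2 * M * (kp * ρ * V) + 2 * c * V * u ^ 2 * ρ) :=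
    mul_nonneg (by linarith) (by positivity)
  have hj : c * V * (u * j) ≤ M * |j| := by
    calc c * V * (u * j) ≤ c * V * |u * j| :=
          mul_le_mul_of_nonneg_left (le_abs_self _) (by positivity)
      _ = c * V * |u| * |j| := by rw [abs_mul]; ring
      _ ≤ M * |j| := mul_le_mul_of_nonneg_right hG (abs_nonneg _)
  have h2 : T * (2 * M * (kp * ρ * V) + 2 * c * V * u ^ 2 * ρ) =
      c * V * (N - 1) * (1 - V ^ 2) * u ^ 2 / ρ + 2 * c ^ 2 * V * (N - 1) * u ^ 4 / (kp ^ 2 * ρ) +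
      2 * M * V * |j| + 2 * c * V * u ^ 2 * |j| / kp := by
    rw [hT]
    have e : c * V * (N - 1) * (1 - V ^ 2) * u ^ 2 / ρ =
        2 * c * V * (N - 1) * u ^ 2 * M / (kp * ρ) := by
      rw [hMd]
      field_simp
    rw [e]
    field_simp
    ring
  have h3 : 0 ≤ 2 * c ^ 2 * V * (N - 1) * u ^ 4 / (kp ^ 2 * ρ) := by
    have : 0 ≤ N - 1 := by linarith
    positivity
  have h4 : 0 ≤ 2 * c * V * u ^ 2 * |j| / kp := by positivity
  have h5 : 0 ≤ c * V * (1 - V) ^ 2 * u ^ 2 / ρ := by positivity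
  have h6 : 0 ≤ 2 * V * (M * |j| - c * V * (u * j)) :=
    mul_nonneg (by positivity) (by linarith)
  have h7 : 2 * M * (kp * ρ * V * S) -
      2 * c * V * u ^ 2 * ((N - 2) * (1 - V ^ 2) / (2 * ρ) - ρ * S) -
      2 * c * V ^ 2 * u * ((1 - V) / ρ * u + j) =
      (S - T) * (2 * M * (kp * ρ * V) + 2 * c * V * u ^ 2 * ρ) +
      (T * (2 * M * (kp * ρ * V) + 2 * c * V * u ^ 2 * ρ) -
        (c * V * (N - 1) * (1 - V ^ 2) * u ^ 2 / ρ +
          2 * c ^ 2 * V * (N - 1) * u ^ 4 / (kp ^ 2 * ρ) +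
      2 * M * V * |j| + 2 * c * V * u ^ 2 * |j| / kp)) +
      2 * c ^ 2 * V * (N - 1) * u ^ 4 / (kp ^ 2 * ρ) + 2 * c * V * u ^ 2 * |j| / kp +
      c * V * (1 - V) ^ 2 * u ^ 2 / ρ + 2 * V * (M * |j| - c * V * (u * j)) := by
    field_simp
    ring
  rw [h7, h2]
  linarith

/-- the functional for `n = 3` -/
def Wf (ρ V u v : ℝ) : ℝ := (ρ * (1 - V ^ 2) / 2) ^ 2 + (1 / 8) * ((1 + V) * (1 - 5 * V) * u ^ 2 +
  2 * (1 - V ^ 2) * u * v + (1 - V) * (1 + 5 * V) * v ^ 2 -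
    ((1 - V) / (1 + V) * u + (1 + V) / (1 - V) * v) ^ 2)

/-- its derivative -/
def Wd (ρ V u v S : ℝ) : ℝ :=
  ρ * V * (1 - V ^ 2) * (ρ ^ 2 * S - 3 / (8 * ρ ^ 2) * (5 * u ^ 2 + 2 * u * v + 5 * v ^ 2)) +
  V * ((1 - V) / (1 + V) * u + (1 + V) / (1 - V) * v) ^ 2 / (4 * ρ) +
  ρ * S / 8 * ((4 + 10 * V - 4 * (1 - V) / (1 + V) ^ 3) * u ^ 2 + 4 * V * u * v +
    (-4 + 10 * V + 4 * (1 + V) / (1 - V) ^ 3) * v ^ 2)

lemma Wf_hd {ρ V u v : ℝ → ℝ} {q S r : ℝ} (hρ0 : 0 < ρ r) (hV0 : 0 ≤ V r) (hV1 : V r < 1)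
    (hρ : HasDerivAt ρ (q * V r) r)
    (hV : HasDerivAt V (q * ((1 - V r ^ 2) / (2 * ρ r) - ρ r * S)) r)
    (hu : HasDerivAt u (q * ((1 - V r) / ρ r * u r)) r)
    (hv : HasDerivAt v (q * ((-1 - V r) / ρ r * v r)) r) :
    HasDerivAt (fun r => Wf (ρ r) (V r) (u r) (v r)) (q * Wd (ρ r) (V r) (u r) (v r) S) r := by
  have h1 : 1 + V r ≠ 0 := by linarith
  have h2 : 1 - V r ≠ 0 := by linarith
  have c1 := hasDerivAt_const r (1 : ℝ)
  have hD0 := (((c1.fun_sub hV).fun_div (c1.fun_add hV) h1).fun_mul hu).fun_add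
    (((c1.fun_add hV).fun_div (c1.fun_sub hV) h2).fun_mul hv)
  have hD1 : HasDerivAt (fun i => (1 - V i) / (1 + V i) * u i + (1 + V i) / (1 - V i) * v i)
      (q * (-(V r * ((1 - V r) / (1 + V r) * u r + (1 + V r) / (1 - V r) * v r)) / ρ r +
        2 * ρ r * S * (u r / (1 + V r) ^ 2 - v r / (1 - V r) ^ 2))) r := by
    refine hD0.congr_deriv ?_
    clear hD0 hu hv hV hρ c1
    generalize V r = x at *
    generalize ρ r = w at *
    generalize u r = y at *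
    generalize v r = z at *
    have eX : (1 - x ^ 2) = (1 - x) * (1 + x) := by ring
    rw [eX]
    generalize hP : 1 + x = P at *
    generalize hQ : 1 - x = Q at *
    have hx : x = P - 1 := by linarith
    have hQ2 : Q = 2 - P := by linarith
    field_simp
    rw [hx, hQ2]
    ring
  have key : 4 * (((1 - V r) / (1 + V r) * u r + (1 + V r) / (1 - V r) * v r) *
      (u r / (1 + V r) ^ 2 - v r / (1 - V r) ^ 2)) =
      4 * (1 - V r) / (1 + V r) ^ 3 * u r ^ 2 - 4 * (1 + V r) / (1 - V r) ^ 3 * v r ^ 2 := by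
    clear hD0 hD1 hu hv hV hρ c1
    generalize 1 + V r = P at *
    generalize 1 - V r = Q at *
    field_simp
    ring
  have hM := ((hρ.fun_mul (c1.fun_sub (hV.fun_pow 2))).div_const 2).fun_pow 2
  have hA := ((c1.fun_add hV).fun_mul (c1.fun_sub (hV.const_mul 5))).fun_mul (hu.fun_pow 2)
  have hB := (((c1.fun_sub (hV.fun_pow 2)).const_mul 2).fun_mul hu).fun_mul hv
  have hC := ((c1.fun_sub hV).fun_mul (c1.fun_add (hV.const_mul 5))).fun_mul (hv.fun_pow 2)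
  have h := hM.fun_add ((((hA.fun_add hB).fun_add hC).fun_sub (hD1.fun_pow 2)).const_mul (1 / 8))
  refine h.congr_deriv ?_
  unfold Wd
  clear h hA hB hC hD0 hD1 hM hu hv hV hρ c1
  generalize (1 - V r) / (1 + V r) * u r + (1 + V r) / (1 - V r) * v r = W at *
  generalize u r / (1 + V r) ^ 2 - v r / (1 - V r) ^ 2 = t1 at *
  generalize 4 * (1 - V r) / (1 + V r) ^ 3 = t2 at *
  generalize 4 * (1 + V r) / (1 - V r) ^ 3 = t3 at *
  generalize V r = x at *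
  generalize ρ r = w at *
  generalize u r = y at *
  generalize v r = z at *
  have hw := hρ0.ne'
  norm_num
  field_simp
  linear_combination (-8 * q * w ^ 2 * S) * key

lemma Wd_nonneg {ρ V u v S : ℝ} (hρ : 0 < ρ) (hV0 : 0 ≤ V) (hV1 : V < 1)
    (hS : 3 / (8 * ρ ^ 2) * (5 * u ^ 2 + 2 * u * v + 5 * v ^ 2) ≤ ρ ^ 2 * S) :
    0 ≤ Wd ρ V u v S := by
  have h0 : 0 ≤ 3 / (8 * ρ ^ 2) * (5 * u ^ 2 + 2 * u * v + 5 * v ^ 2) := by
    have : 0 ≤ 5 * u ^ 2 + 2 * u * v + 5 * v ^ 2 := by nlinarith [sq_nonneg (u + v)]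
    positivity
  have hS0 : 0 ≤ S := by
    have h1 : 0 ≤ ρ ^ 2 * S := h0.trans hS
    exact nonneg_of_mul_nonneg_right h1 (by positivity)
  have h1V : 0 < 1 - V := by linarith
  have hV2 : 0 ≤ 1 - V ^ 2 := by nlinarith
  have t1 : 0 ≤ ρ * V * (1 - V ^ 2) *
      (ρ ^ 2 * S - 3 / (8 * ρ ^ 2) * (5 * u ^ 2 + 2 * u * v + 5 * v ^ 2)) :=
    mul_nonneg (by positivity) (by linarith)
  have t2 : 0 ≤ V * ((1 - V) / (1 + V) * u + (1 + V) / (1 - V) * v) ^ 2 / (4 * ρ) := by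
    positivity
  have a1 : 4 * (1 - V) / (1 + V) ^ 3 ≤ 4 * (1 - V) := by
    refine div_le_self (by linarith) ?_
    nlinarith [mul_nonneg hV0 hV0, mul_nonneg (mul_nonneg hV0 hV0) hV0]
  have a2 : 4 * (1 + V) ≤ 4 * (1 + V) / (1 - V) ^ 3 := by
    rw [le_div_iff₀ (by positivity)]
    have : (1 - V) ^ 3 ≤ 1 := pow_le_one₀ h1V.le (by linarith)
    calc 4 * (1 + V) * (1 - V) ^ 3 ≤ 4 * (1 + V) * 1 :=
          mul_le_mul_of_nonneg_left this (by linarith)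
      _ = _ := mul_one _
  have t3 : 0 ≤ (4 + 10 * V - 4 * (1 - V) / (1 + V) ^ 3) * u ^ 2 + 4 * V * u * v +
      (-4 + 10 * V + 4 * (1 + V) / (1 - V) ^ 3) * v ^ 2 := by
    have b1 : 14 * V * u ^ 2 ≤ (4 + 10 * V - 4 * (1 - V) / (1 + V) ^ 3) * u ^ 2 :=
      mul_le_mul_of_nonneg_right (by linarith) (sq_nonneg u)
    have b2 : 14 * V * v ^ 2 ≤ (-4 + 10 * V + 4 * (1 + V) / (1 - V) ^ 3) * v ^ 2 :=
      mul_le_mul_of_nonneg_right (by linarith) (sq_nonneg v)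
    have b3 : 0 ≤ V * (14 * u ^ 2 + 4 * u * v + 14 * v ^ 2) := by
      refine mul_nonneg hV0 ?_
      nlinarith [sq_nonneg (u + v), sq_nonneg u, sq_nonneg v]
    nlinarith
  unfold Wd
  have t4 : 0 ≤ ρ * S / 8 * ((4 + 10 * V - 4 * (1 - V) / (1 + V) ^ 3) * u ^ 2 + 4 * V * u * v +
    (-4 + 10 * V + 4 * (1 + V) / (1 - V) ^ 3) * v ^ 2) := mul_nonneg (by positivity) t3
  linarith

lemma Wf_zero (ρ u v : ℝ) : Wf ρ 0 u v = (ρ / 2) ^ 2 := by
  unfold Wf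
  ring

lemma Wf_le (ρ V u v : ℝ) : Wf ρ V u v ≤ (ρ * (1 - V ^ 2) / 2) ^ 2 +
    (1 / 8) * ((1 + V) * (1 - 5 * V) * u ^ 2 + 2 * (1 - V ^ 2) * u * v +
      (1 - V) * (1 + 5 * V) * v ^ 2) := by
  unfold Wf
  nlinarith [sq_nonneg ((1 - V) / (1 + V) * u + (1 + V) / (1 - V) * v)]

end Vale.Agent.H318
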