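import Vale.Agent.P366.R2.H318.Cert2
import Vale.Agent.P366.R2.H318.Alg

/-! The monotone quantity in dimension three. -/

open Filter Topology Set

noncomputable section
namespace Vale.Agent.H318

/-- coefficient of `X²` -/
def pA (V : ℝ) : ℝ :=
  -7 * V ^ 2 - 36 * V ^ 3 - 115 * V ^ 4 + 112 * V ^ 5 - 125 * V ^ 6 + 52 * V ^ 7 - 9 * V ^ 8

/-- coefficient of `2 X v` -/
def pB (V : ℝ) : ℝ := 5 * V ^ 2 + 14 * V ^ 3 - 44 * V ^ 4 + 34 * V ^ 5 - 9 * V ^ 6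

/-- coefficient of `v²` -/
def pG (V : ℝ) : ℝ := -7 * V ^ 2 + 16 * V ^ 3 - 9 * V ^ 4

/-- derivative of `pA` -/
def dA (V : ℝ) : ℝ := -14 * V - 108 * V ^ 2 - 460 * V ^ 3 + 560 * V ^ 4 - 750 * V ^ 5 +
  364 * V ^ 6 - 72 * V ^ 7

/-- derivative of `pB` -/
def dB (V : ℝ) : ℝ := 10 * V + 42 * V ^ 2 - 176 * V ^ 3 + 170 * V ^ 4 - 54 * V ^ 5

/-- derivative of `pG` -/
def dG (V : ℝ) : ℝ := -14 * V + 48 * V ^ 2 - 36 * V ^ 3

lemma pA_hd (V : ℝ) : HasDerivAt pA (dA V) V := by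
  have h := ((((((((hasDerivAt_pow 2 V).const_mul (-7)).fun_sub
    ((hasDerivAt_pow 3 V).const_mul 36)).fun_sub ((hasDerivAt_pow 4 V).const_mul 115)).fun_add
    ((hasDerivAt_pow 5 V).const_mul 112)).fun_sub ((hasDerivAt_pow 6 V).const_mul 125)).fun_add
    ((hasDerivAt_pow 7 V).const_mul 52)).fun_sub ((hasDerivAt_pow 8 V).const_mul 9))
  refine h.congr_deriv ?_
  unfold dA
  norm_num
  ring

lemma pB_hd (V : ℝ) : HasDerivAt pB (dB V) V := by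
  have h := ((((((hasDerivAt_pow 2 V).const_mul 5).fun_add
    ((hasDerivAt_pow 3 V).const_mul 14)).fun_sub ((hasDerivAt_pow 4 V).const_mul 44)).fun_add
    ((hasDerivAt_pow 5 V).const_mul 34)).fun_sub ((hasDerivAt_pow 6 V).const_mul 9))
  refine h.congr_deriv ?_
  unfold dB
  norm_num
  ring

lemma pG_hd (V : ℝ) : HasDerivAt pG (dG V) V := by
  have h := ((((hasDerivAt_pow 2 V).const_mul (-7)).fun_add
    ((hasDerivAt_pow 3 V).const_mul 16)).fun_sub ((hasDerivAt_pow 4 V).const_mul 9))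
  refine h.congr_deriv ?_
  unfold dG
  norm_num
  ring

/-- the monotone quantity -/
def W3 (ρ V X v : ℝ) : ℝ := (ρ * (1 - V ^ 2) / 2) ^ 2 +
  (1 / 8) * (pA V * X ^ 2 + 2 * pB V * X * v + pG V * v ^ 2)

/-- its derivative -/
def Wd3 (ρ V X v S j k : ℝ) : ℝ := ρ * (1 - V ^ 2) * V * (ρ ^ 2 * S) +
  (1 / 8) * (dA V * X ^ 2 + 2 * dB V * X * v + dG V * v ^ 2) *
    ((1 - V ^ 2) / (2 * ρ) - ρ * S) +
  (1 / 4) * (pA V * X + pB V * v) * (j / (1 + V) ^ 2 + 2 * X * ρ * S / (1 + V)) +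
  (1 / 4) * (pB V * X + pG V * v) * ((-1 - V) / ρ * v + k)

lemma W3_hd {ρ V u v : ℝ → ℝ} {q S j k r : ℝ} (hρ0 : 0 < ρ r) (hV0 : 0 ≤ V r)
    (hρ : HasDerivAt ρ (q * V r) r)
    (hV : HasDerivAt V (q * ((1 - V r ^ 2) / (2 * ρ r) - ρ r * S)) r)
    (hu : HasDerivAt u (q * ((1 - V r) / ρ r * u r + j)) r)
    (hv : HasDerivAt v (q * ((-1 - V r) / ρ r * v r + k)) r) :
    HasDerivAt (fun r => W3 (ρ r) (V r) (u r / (1 + V r) ^ 2) (v r))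
      (q * Wd3 (ρ r) (V r) (u r / (1 + V r) ^ 2) (v r) S j k) r := by
  have h1 : 1 + V r ≠ 0 := by linarith
  have c1 := hasDerivAt_const r (1 : ℝ)
  have hX0 := hu.fun_div ((c1.fun_add hV).fun_pow 2) (pow_ne_zero 2 h1)
  have hX : HasDerivAt (fun r => u r / (1 + V r) ^ 2)
      (q * (j / (1 + V r) ^ 2 + 2 * (u r / (1 + V r) ^ 2) * ρ r * S / (1 + V r))) r := by
    refine hX0.congr_deriv ?_
    have hw := hρ0.ne'
    field_simp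
    ring
  have hM := ((hρ.fun_mul (c1.fun_sub (hV.fun_pow 2))).div_const 2).fun_pow 2
  have hA : HasDerivAt (fun r => pA (V r)) _ r := (pA_hd (V r)).comp r hV
  have hB : HasDerivAt (fun r => pB (V r)) _ r := (pB_hd (V r)).comp r hV
  have hG : HasDerivAt (fun r => pG (V r)) _ r := (pG_hd (V r)).comp r hV
  have h := hM.fun_add ((((hA.fun_mul (hX.fun_pow 2)).fun_add
    (((hB.const_mul 2).fun_mul hX).fun_mul hv)).fun_add
      (hG.fun_mul (hv.fun_pow 2))).const_mul (1 / 8))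
  refine h.congr_deriv ?_
  clear h hA hB hG hM hX hX0 hu hv hV hρ c1
  unfold Wd3
  generalize hXd : u r / (1 + V r) ^ 2 = X at *
  generalize pA (V r) = A at *
  generalize pB (V r) = B at *
  generalize pG (V r) = G at *
  generalize dA (V r) = A' at *
  generalize dB (V r) = B' at *
  generalize dG (V r) = G' at *
  generalize V r = x at *
  generalize ρ r = w at *
  generalize v r = z at *
  have hw := hρ0.ne'
  norm_num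
  field_simp
  ring

/-- the bound for the coefficient of the scalar curvature -/
lemma C_ge {V m X v Y1 Y2 D q : ℝ} (h0 : 0 < V) (h1 : V < 1)
    (hY1 : Y1 = pA V * X + pB V * v) (hY2 : Y2 = (1 + V) ^ 2 * (pB V * X + pG V * v))
    (hD : D = -(1 + V) * (dA V * X ^ 2 + 2 * dB V * X * v + dG V * v ^ 2) +
      4 * (pA V * X + pB V * v) * X)
    (hq : q = pA V * X ^ 2 + 2 * pB V * X * v + pG V * v ^ 2)
    (hW : -2 * m ^ 2 ≤ q) (hv : 4 * (V * v) ^ 2 ≤ m ^ 2) :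
    2 * m * (Y1 + Y2) ≤ 8 * (1 + V) ^ 2 * V * m ^ 2 + (1 - V) * (1 + V) ^ 2 * D ∧
    2 * m * (Y1 - Y2) ≤ 8 * (1 + V) ^ 2 * V * m ^ 2 + (1 - V) * (1 + V) ^ 2 * D := by
  have hV1 : 0 < 1 - V := by linarith
  have k1 : 0 ≤ 2 * V ^ 2 * (1 + V) ^ 2 * (q + 2 * m ^ 2) :=
    mul_nonneg (by positivity) (by linarith)
  have k2 : 0 ≤ 4 * V * (1 - V) * (1 + V) ^ 2 * (m ^ 2 - 4 * (V * v) ^ 2) :=
    mul_nonneg (by positivity) (by linarith)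
  constructor
  · have c := mul_nonneg h0.le (cp h0 h1 m X v)
    have e : 8 * (1 + V) ^ 2 * V * m ^ 2 + (1 - V) * (1 + V) ^ 2 * D - 2 * m * (Y1 + Y2) =
        V * ((4 + 8 * V + 4 * V ^ 2) * m ^ 2 +
      2 * ((2 * V + 12 * V ^ 2 + 126 * V ^ 3 - 72 * V ^ 4 + 110 * V ^ 5 - 68 * V ^ 6 + 18 * V ^
        7) * X +
        (2 * V - 16 * V ^ 2 + 28 * V ^ 3 - 32 * V ^ 4 + 18 * V ^ 5) * v) * m +
      (14 + 108 * V + 504 * V ^ 2 - 230 * V ^ 3 - 340 * V ^ 4 + 1048 * V ^ 5 + 32 * V ^ 6 - 540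
        * V ^ 7 + 406 * V ^ 8 + 108 * V ^ 9 - 104 * V ^ 10 + 18 * V ^ 11) * X ^ 2 +
      2 * (-10 - 52 * V + 130 * V ^ 2 + 122 * V ^ 3 - 298 * V ^ 4 - 70 * V ^ 5 + 246 * V ^ 6 -
        18 * V ^ 7 - 68 * V ^ 8 + 18 * V ^ 9) * X * v +
      (14 - 20 * V - 44 * V ^ 2 + 74 * V ^ 3 + 62 * V ^ 4 - 72 * V ^ 5 - 32 * V ^ 6 + 18 * V ^
        7) * v ^ 2) + 2 * V ^ 2 * (1 + V) ^ 2 * (q + 2 * m ^ 2) +
        4 * V * (1 - V) * (1 + V) ^ 2 * (m ^ 2 - 4 * (V * v) ^ 2) := by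
      rw [hY1, hY2, hD, hq]
      unfold pA pB pG dA dB dG
      ring
    linarith
  · have c := mul_nonneg h0.le (cm h0 h1 m X v)
    have e : 8 * (1 + V) ^ 2 * V * m ^ 2 + (1 - V) * (1 + V) ^ 2 * D - 2 * m * (Y1 - Y2) =
        V * ((4 + 8 * V + 4 * V ^ 2) * m ^ 2 +
      2 * ((12 * V + 60 * V ^ 2 + 104 * V ^ 3 - 152 * V ^ 4 + 140 * V ^ 5 - 36 * V ^ 6) * X +
        (-12 * V - 12 * V ^ 2 + 60 * V ^ 3 - 36 * V ^ 4) * v) * m +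
      (14 + 108 * V + 504 * V ^ 2 - 230 * V ^ 3 - 340 * V ^ 4 + 1048 * V ^ 5 + 32 * V ^ 6 - 540
        * V ^ 7 + 406 * V ^ 8 + 108 * V ^ 9 - 104 * V ^ 10 + 18 * V ^ 11) * X ^ 2 +
      2 * (-10 - 52 * V + 130 * V ^ 2 + 122 * V ^ 3 - 298 * V ^ 4 - 70 * V ^ 5 + 246 * V ^ 6 -
        18 * V ^ 7 - 68 * V ^ 8 + 18 * V ^ 9) * X * v +
      (14 - 20 * V - 44 * V ^ 2 + 74 * V ^ 3 + 62 * V ^ 4 - 72 * V ^ 5 - 32 * V ^ 6 + 18 * V ^
        7) * v ^ 2) + 2 * V ^ 2 * (1 + V) ^ 2 * (q + 2 * m ^ 2) +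
        4 * V * (1 - V) * (1 + V) ^ 2 * (m ^ 2 - 4 * (V * v) ^ 2) := by
      rw [hY1, hY2, hD, hq]
      unfold pA pB pG dA dB dG
      ring
    linarith

lemma quad_nonneg (x y : ℝ) : 0 ≤ 5 * x ^ 2 + 2 * x * y + 5 * y ^ 2 := by
  nlinarith [sq_nonneg (x + y), sq_nonneg x, sq_nonneg y]

lemma quad_le (x y : ℝ) : 5 * x ^ 2 + 2 * x * y + 5 * y ^ 2 ≤ 6 * x ^ 2 + 6 * y ^ 2 := by
  nlinarith [sq_nonneg (x - y)]

lemma k1_pos {V : ℝ} (h0 : 0 < V) (h1 : V < 1) : 0 < 4 + 19 * V - 18 * V ^ 2 := by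
  nlinarith

/-- **the sign of the derivative** -/
theorem Wd3_nonneg {ρ V X v S j k : ℝ} (hρ : 0 < ρ) (h0 : 0 < V) (h1 : V < 1)
    (hj : 3 / (8 * ρ ^ 2) * (5 * ((1 + V) ^ 2 * X) ^ 2 + 2 * ((1 + V) ^ 2 * X) * v +
      5 * v ^ 2) + |j| ≤ ρ ^ 2 * S)
    (hk : 3 / (8 * ρ ^ 2) * (5 * ((1 + V) ^ 2 * X) ^ 2 + 2 * ((1 + V) ^ 2 * X) * v +
      5 * v ^ 2) + |k| ≤ ρ ^ 2 * S)
    (hW : 0 ≤ W3 ρ V X v) (hv : (V * v) ^ 2 ≤ (ρ * (1 - V ^ 2) / 2) ^ 2)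
    (hu : 9 / 10 * (V * ((1 + V) ^ 2 * X)) ^ 2 ≤ (ρ * (1 - V ^ 2) / 2) ^ 2) :
    0 ≤ Wd3 ρ V X v S j k := by
  have hV1 : 0 < 1 - V := by linarith
  have hVp : 0 < 1 + V := by linarith
  obtain ⟨m, hm⟩ : ∃ m, m = ρ * (1 - V ^ 2) := ⟨_, rfl⟩
  have hVV : 0 < 1 - V ^ 2 := by nlinarith
  have hm0 : 0 < m := by rw [hm]; positivity
  obtain ⟨ε, hε⟩ : ∃ ε, ε = 3 / (8 * ρ ^ 2) * (5 * ((1 + V) ^ 2 * X) ^ 2 +
    2 * ((1 + V) ^ 2 * X) * v + 5 * v ^ 2) := ⟨_, rfl⟩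
  rw [← hε] at hj hk
  obtain ⟨Y1, hY1⟩ : ∃ Y, Y = pA V * X + pB V * v := ⟨_, rfl⟩
  obtain ⟨Y2, hY2⟩ : ∃ Y, Y = (1 + V) ^ 2 * (pB V * X + pG V * v) := ⟨_, rfl⟩
  obtain ⟨D, hD⟩ : ∃ D, D = -(1 + V) * (dA V * X ^ 2 + 2 * dB V * X * v + dG V * v ^ 2) +
      4 * (pA V * X + pB V * v) * X := ⟨_, rfl⟩
  obtain ⟨q, hq⟩ : ∃ q, q = pA V * X ^ 2 + 2 * pB V * X * v + pG V * v ^ 2 := ⟨_, rfl⟩
  have hm2 : (ρ * (1 - V ^ 2) / 2) ^ 2 = m ^ 2 / 4 := by rw [hm]; ring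
  rw [hm2] at hv hu
  have hW' : -2 * m ^ 2 ≤ q := by
    unfold W3 at hW
    rw [hm2, ← hq] at hW
    linarith
  have hv' : 4 * (V * v) ^ 2 ≤ m ^ 2 := by linarith
  obtain ⟨b1, b2⟩ := C_ge (m := m) h0 h1 hY1 hY2 hD hq hW' hv'
  obtain ⟨b3, b4⟩ := C_ge (m := -m) h0 h1 hY1 hY2 hD hq (by simpa using hW') (by simpa using hv')
  obtain ⟨C, hC⟩ : ∃ C, C = ρ * V * (1 - V ^ 2) + D / (8 * ρ * (1 + V)) := ⟨_, rfl⟩
  -- `C` in terms of `m`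
  have hCm : 8 * (1 + V) ^ 2 * V * m ^ 2 + (1 - V) * (1 + V) ^ 2 * D =
      8 * m * ((1 + V) ^ 2 * C) := by
    rw [hC, hm]
    field_simp
    ring
  have hCm' : 8 * (1 + V) ^ 2 * V * (-m) ^ 2 + (1 - V) * (1 + V) ^ 2 * D =
      8 * m * ((1 + V) ^ 2 * C) := by
    rw [← hCm]; ring
  rw [hCm] at b1 b2
  rw [hCm'] at b3 b4
  have hY : |Y1| + |Y2| ≤ 4 * ((1 + V) ^ 2 * C) := by
    have c1 : Y1 + Y2 ≤ 4 * ((1 + V) ^ 2 * C) := by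
      have : 2 * m * (Y1 + Y2) ≤ 2 * m * (4 * ((1 + V) ^ 2 * C)) := by linarith
      exact le_of_mul_le_mul_left this (by positivity)
    have c2 : Y1 - Y2 ≤ 4 * ((1 + V) ^ 2 * C) := by
      have : 2 * m * (Y1 - Y2) ≤ 2 * m * (4 * ((1 + V) ^ 2 * C)) := by linarith
      exact le_of_mul_le_mul_left this (by positivity)
    have c3 : -(Y1 + Y2) ≤ 4 * ((1 + V) ^ 2 * C) := by
      have : 2 * m * (-(Y1 + Y2)) ≤ 2 * m * (4 * ((1 + V) ^ 2 * C)) := by linarith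
      exact le_of_mul_le_mul_left this (by positivity)
    have c4 : -(Y1 - Y2) ≤ 4 * ((1 + V) ^ 2 * C) := by
      have : 2 * m * (-(Y1 - Y2)) ≤ 2 * m * (4 * ((1 + V) ^ 2 * C)) := by linarith
      exact le_of_mul_le_mul_left this (by positivity)
    rcases abs_cases Y1 with ⟨e1, -⟩ | ⟨e1, -⟩ <;> rcases abs_cases Y2 with ⟨e2, -⟩ | ⟨e2, -⟩ <;>
      rw [e1, e2] <;> linarith
  have hC0 : 0 ≤ C := by
    have h2 : 0 ≤ 4 * ((1 + V) ^ 2 * C) := le_trans (by positivity) hY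
    have h3 : 0 ≤ (1 + V) ^ 2 * C := by linarith
    exact nonneg_of_mul_nonneg_right h3 (by positivity)
  -- the maximum of the currents
  obtain ⟨μ, hμ⟩ : ∃ μ, μ = max |j| |k| := ⟨_, rfl⟩
  have hμ0 : 0 ≤ μ := by rw [hμ]; exact (abs_nonneg j).trans (le_max_left _ _)
  have hμS : ε + μ ≤ ρ ^ 2 * S := by
    rw [hμ]
    rcases max_cases |j| |k| with ⟨e1, -⟩ | ⟨e1, -⟩ <;> rw [e1] <;> assumption
  have hJ : -(4 * μ * ((1 + V) ^ 2 * C)) ≤ Y1 * j + Y2 * k := by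
    have d1 : -(μ * |Y1|) ≤ Y1 * j := by
      have : |Y1 * j| ≤ μ * |Y1| := by
        rw [abs_mul, mul_comm]
        exact mul_le_mul_of_nonneg_right (by rw [hμ]; exact le_max_left _ _) (abs_nonneg _)
      linarith [neg_abs_le (Y1 * j)]
    have d2 : -(μ * |Y2|) ≤ Y2 * k := by
      have : |Y2 * k| ≤ μ * |Y2| := by
        rw [abs_mul, mul_comm]
        exact mul_le_mul_of_nonneg_right (by rw [hμ]; exact le_max_right _ _) (abs_nonneg _)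
      linarith [neg_abs_le (Y2 * k)]
    have d3 : μ * (|Y1| + |Y2|) ≤ μ * (4 * ((1 + V) ^ 2 * C)) :=
      mul_le_mul_of_nonneg_left hY hμ0
    linarith
  have hε0 : 0 ≤ ε := by
    rw [hε]
    have := quad_nonneg ((1 + V) ^ 2 * X) v
    exact mul_nonneg (by positivity) this
  have hk1 := k1_pos h0 h1
  obtain ⟨T, hT⟩ : ∃ T, T = V * (1 - V ^ 2) * (4 + 19 * V - 18 * V ^ 2) / (4 * ρ) *
    ((1 - V) ^ 2 * X + v) ^ 2 := ⟨_, rfl⟩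
  have hT0 : 0 ≤ T := by rw [hT]; positivity
  -- the identity
  have key : Wd3 ρ V X v S j k = ρ ^ 2 * S * C - ρ * V * (1 - V ^ 2) * ε + T +
      (1 / 4) * (Y1 * j + Y2 * k) / (1 + V) ^ 2 := by
    rw [hC, hD, hT, hε, hY1, hY2]
    unfold Wd3 pA pB pG dA dB dG
    field_simp
    ring
  rw [key]
  have e1 : (ε + μ) * C ≤ ρ ^ 2 * S * C := mul_le_mul_of_nonneg_right hμS hC0
  have e2 : -(μ * C) ≤ (1 / 4) * (Y1 * j + Y2 * k) / (1 + V) ^ 2 := by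
    rw [le_div_iff₀ (by positivity)]
    linarith
  have e3 : 0 ≤ ε * D / (8 * ρ * (1 + V)) + T := by
    rcases le_total 0 D with hD0 | hD0
    · have : 0 ≤ ε * D / (8 * ρ * (1 + V)) := by positivity
      linarith
    · have f1 : V ^ 2 * ε ≤ 19 / 16 * (1 - V ^ 2) ^ 2 := by
        have f2 := quad_le ((1 + V) ^ 2 * X) v
        have f3 : V ^ 2 * (6 * ((1 + V) ^ 2 * X) ^ 2 + 6 * v ^ 2) ≤ 19 / 6 * m ^ 2 := by
          have g1 : V ^ 2 * (6 * ((1 + V) ^ 2 * X) ^ 2 + 6 * v ^ 2) =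
            6 * (V * ((1 + V) ^ 2 * X)) ^ 2 + 6 * (V * v) ^ 2 := by ring
          rw [g1]
          linarith
        have f4 : V ^ 2 * ε ≤ 3 / (8 * ρ ^ 2) * (19 / 6 * m ^ 2) := by
          rw [hε]
          have g2 : V ^ 2 * (3 / (8 * ρ ^ 2) * (5 * ((1 + V) ^ 2 * X) ^ 2 +
            2 * ((1 + V) ^ 2 * X) * v + 5 * v ^ 2)) = 3 / (8 * ρ ^ 2) * (V ^ 2 *
              (5 * ((1 + V) ^ 2 * X) ^ 2 + 2 * ((1 + V) ^ 2 * X) * v + 5 * v ^ 2)) := by ring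
          rw [g2]
          refine mul_le_mul_of_nonneg_left ?_ (by positivity)
          exact (mul_le_mul_of_nonneg_left f2 (sq_nonneg V)).trans f3
        refine f4.trans (le_of_eq ?_)
        rw [hm]
        field_simp
        ring
      have f5 : 0 ≤ V ^ 2 * (ε * D / (8 * ρ * (1 + V)) + T) := by
        have g3 : 19 / 16 * (1 - V ^ 2) ^ 2 * D ≤ V ^ 2 * ε * D :=
          mul_le_mul_of_nonpos_right f1 hD0
        have g4 := mul_nonneg h0.le (cg h0 h1 X v)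
        have g5 : V * ((266 + 1786 * V + 7918 * V ^ 2 - 12202 * V ^ 3 + 1922 * V ^ 4 +
          11674 * V ^ 5 - 14038 *
            V ^ 6 + 2 * V ^ 7 + 3932 * V ^ 8 - 1260 * V ^ 9) * X ^ 2 +
            2 * (-190 - 798 * V + 3396 * V ^ 2 - 280 * V ^ 3 - 5302 * V ^ 4 + 2338 * V ^ 5 +
              2096 * V ^ 6 - 1260 * V ^ 7) * X * v +
            (266 - 646 * V - 366 * V ^ 2 + 2066 * V ^ 3 + 260 * V ^ 4 - 1260 * V ^ 5) *
              v ^ 2) = 19 * (1 - V ^ 2) * D + 32 * V ^ 3 * (1 + V) *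
                (4 + 19 * V - 18 * V ^ 2) * ((1 - V) ^ 2 * X + v) ^ 2 := by
          rw [hD]
          unfold pA pB dA dB dG
          ring
        rw [g5] at g4
        have g6 : V ^ 2 * (ε * D / (8 * ρ * (1 + V)) + T) =
            (V ^ 2 * ε * D - 19 / 16 * (1 - V ^ 2) ^ 2 * D) / (8 * ρ * (1 + V)) +
            (1 - V ^ 2) / (128 * ρ * (1 + V)) * (19 * (1 - V ^ 2) * D + 32 * V ^ 3 * (1 + V) *
                (4 + 19 * V - 18 * V ^ 2) * ((1 - V) ^ 2 * X + v) ^ 2) := by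
          rw [hT]
          field_simp
          ring
        rw [g6]
        have g7 : 0 ≤ (V ^ 2 * ε * D - 19 / 16 * (1 - V ^ 2) ^ 2 * D) / (8 * ρ * (1 + V)) :=
          div_nonneg (by linarith) (by positivity)
        have g8 : 0 ≤ (1 - V ^ 2) / (128 * ρ * (1 + V)) * (19 * (1 - V ^ 2) * D +
            32 * V ^ 3 * (1 + V) * (4 + 19 * V - 18 * V ^ 2) * ((1 - V) ^ 2 * X + v) ^ 2) :=
          mul_nonneg (by positivity) g4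
        linarith
      exact nonneg_of_mul_nonneg_right f5 (by positivity)
  have e4 : ε * C = ρ * V * (1 - V ^ 2) * ε + ε * D / (8 * ρ * (1 + V)) := by
    rw [hC]; ring
  have e5 : (ε + μ) * C = ε * C + μ * C := by ring
  linarith

lemma W3_zero (ρ X v : ℝ) : W3 ρ 0 X v = (ρ / 2) ^ 2 := by
  unfold W3 pA pB pG
  ring

/-- the sign of the derivative of `M² - V² v²` -/
lemma algv {N kp ρ V M v k S : ℝ} (hk : 0 < kp) (hρ : 0 < ρ) (hV : 0 ≤ V) (hN : 2 ≤ N)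
    (hMd : M = kp * (1 - V ^ 2) / 2) (hM : 0 ≤ M) (hG : V * |v| ≤ M)
    (hS : N ^ 2 / (N + 2) * v ^ 2 / (kp * ρ) ^ 2 + |k| / (kp * ρ) ≤ S) :
    0 ≤ 2 * M * (kp * ρ * V * S) -
      2 * V * v ^ 2 * ((N - 2) * (1 - V ^ 2) / (2 * ρ) - ρ * S) -
      2 * V ^ 2 * v * ((-1 - V) / ρ * v + k) := by
  obtain ⟨T, hT⟩ : ∃ T, T = N ^ 2 / (N + 2) * v ^ 2 / (kp * ρ) ^ 2 + |k| / (kp * ρ) := ⟨_, rfl⟩
  rw [← hT] at hS
  have hN2 : 0 < N + 2 := by linarith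
  have h1 : 0 ≤ (S - T) * (2 * M * (kp * ρ * V) + 2 * V * v ^ 2 * ρ) :=
    mul_nonneg (by linarith) (by positivity)
  have hVV : 0 ≤ 1 - V ^ 2 := by
    have h2 : 0 ≤ kp * (1 - V ^ 2) := by linarith
    exact nonneg_of_mul_nonneg_right h2 hk
  have hj : V * (v * k) ≤ M * |k| := by
    calc V * (v * k) ≤ V * |v * k| := mul_le_mul_of_nonneg_left (le_abs_self _) hV
      _ = V * |v| * |k| := by rw [abs_mul]; ring
      _ ≤ M * |k| := mul_le_mul_of_nonneg_right hG (abs_nonneg _)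
  have h2 : T * (2 * M * (kp * ρ * V) + 2 * V * v ^ 2 * ρ) =
      V * (N ^ 2 / (N + 2)) * (1 - V ^ 2) * v ^ 2 / ρ +
      2 * V * (N ^ 2 / (N + 2)) * v ^ 4 / (kp ^ 2 * ρ) +
      2 * M * V * |k| + 2 * V * v ^ 2 * |k| / kp := by
    rw [hT, hMd]
    field_simp
    ring
  have h3 : 0 ≤ 2 * V * (N ^ 2 / (N + 2)) * v ^ 4 / (kp ^ 2 * ρ) := by positivity
  have h4 : 0 ≤ 2 * V * v ^ 2 * |k| / kp := by positivity
  have h5 : 0 ≤ V * (4 / (N + 2)) * (1 - V ^ 2) * v ^ 2 / ρ := by positivity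
  have h6 : 0 ≤ 2 * V * (M * |k| - V * (v * k)) := mul_nonneg (by positivity) (by linarith)
  have h8 : 0 ≤ 2 * V ^ 2 * (1 + V) * v ^ 2 / ρ := by positivity
  have h7 : 2 * M * (kp * ρ * V * S) -
      2 * V * v ^ 2 * ((N - 2) * (1 - V ^ 2) / (2 * ρ) - ρ * S) -
      2 * V ^ 2 * v * ((-1 - V) / ρ * v + k) =
      (S - T) * (2 * M * (kp * ρ * V) + 2 * V * v ^ 2 * ρ) +
      (T * (2 * M * (kp * ρ * V) + 2 * V * v ^ 2 * ρ) -
        (V * (N ^ 2 / (N + 2)) * (1 - V ^ 2) * v ^ 2 / ρ +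
          2 * V * (N ^ 2 / (N + 2)) * v ^ 4 / (kp ^ 2 * ρ) +
      2 * M * V * |k| + 2 * V * v ^ 2 * |k| / kp)) +
      2 * V * (N ^ 2 / (N + 2)) * v ^ 4 / (kp ^ 2 * ρ) + 2 * V * v ^ 2 * |k| / kp +
      V * (4 / (N + 2)) * (1 - V ^ 2) * v ^ 2 / ρ + 2 * V ^ 2 * (1 + V) * v ^ 2 / ρ +
      2 * V * (M * |k| - V * (v * k)) := by
    field_simp
    ring
  rw [h7, h2]
  linarith

end Vale.Agent.H318
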