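import Vale.Agent.P366.R2.H318.Alg3

/-! Strict forms of the algebraic inequalities. -/

open Filter Topology Set

noncomputable section
namespace Vale.Agent.H318

/-- a positive quadratic form in two variables -/
lemma form2_pos {p r s : ℝ} (hp : 0 < p) (hD : 0 < p * s - r ^ 2) {X v : ℝ}
    (h : X ≠ 0 ∨ v ≠ 0) : 0 < p * X ^ 2 + 2 * r * X * v + s * v ^ 2 := by
  have h1 : 0 < p * (p * X ^ 2 + 2 * r * X * v + s * v ^ 2) := by
    have e1 : p * (p * X ^ 2 + 2 * r * X * v + s * v ^ 2) =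
        (p * X + r * v) ^ 2 + (p * s - r ^ 2) * v ^ 2 := by ring
    rw [e1]
    rcases eq_or_ne v 0 with hv | hv
    · have hX : X ≠ 0 := by
        rcases h with h | h
        · exact h
        · exact absurd hv h
      rw [hv]
      have : 0 < (p * X + r * 0) ^ 2 := by
        rw [mul_zero, add_zero]
        positivity
      simpa using this
    · have : 0 < (p * s - r ^ 2) * v ^ 2 := by positivity
      exact add_pos_of_nonneg_of_pos (sq_nonneg _) this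
  exact pos_of_mul_pos_right h1 hp.le

/-- third certificate, strict form -/
lemma cg_pos {V : ℝ} (h0 : 0 < V) (h1 : V < 1) {X v : ℝ} (h : X ≠ 0 ∨ v ≠ 0) :
    0 < (266 + 1786 * V + 7918 * V ^ 2 - 12202 * V ^ 3 + 1922 * V ^ 4 + 11674 * V ^ 5 - 14038 *
      V ^ 6 + 2 * V ^ 7 + 3932 * V ^ 8 - 1260 * V ^ 9) * X ^ 2 +
      2 * (-190 - 798 * V + 3396 * V ^ 2 - 280 * V ^ 3 - 5302 * V ^ 4 + 2338 * V ^ 5 + 2096 * V
        ^ 6 - 1260 * V ^ 7) * X * v +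
      (266 - 646 * V - 366 * V ^ 2 + 2066 * V ^ 3 + 260 * V ^ 4 - 1260 * V ^ 5) * v ^ 2 := by
  obtain ⟨w, hw⟩ : ∃ w, w = 1 - V := ⟨_, rfl⟩
  have hw0 : 0 < w := by rw [hw]; linarith
  refine form2_pos ?_ ?_ h
  · have e1 : 266 + 1786 * V + 7918 * V ^ 2 - 12202 * V ^ 3 + 1922 * V ^ 4 + 11674 * V ^ 5 -
    14038 * V ^ 6 + 2 * V ^ 7 + 3932 * V ^ 8 - 1260 * V ^ 9 =
      w * (266 * w ^ 8 + 4180 * V * w ^ 7 + 31782 * V ^ 2 * w ^ 6 + 115576 * V ^ 3 * w ^ 5 +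
        228520 * V ^ 4 * w ^ 4 + 273920 * V ^ 5 * w ^ 3 + 207328 * V ^ 6 * w ^ 2 + 89984 * V ^ 7
        * w + 17024 * V ^ 8) := by
      rw [hw]; ring
    rw [e1]
    positivity
  · have e1 : (266 + 1786 * V + 7918 * V ^ 2 - 12202 * V ^ 3 + 1922 * V ^ 4 + 11674 * V ^ 5 -
    14038 * V ^ 6 + 2 * V ^ 7 + 3932 * V ^ 8 - 1260 * V ^ 9) *
        (266 - 646 * V - 366 * V ^ 2 + 2066 * V ^ 3 + 260 * V ^ 4 - 1260 * V ^ 5) -
        (-190 - 798 * V + 3396 * V ^ 2 - 280 * V ^ 3 - 5302 * V ^ 4 + 2338 * V ^ 5 + 2096 * V ^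
          6 - 1260 * V ^ 7) ^ 2 =
      w * (34656 * w ^ 11 + 415872 * V * w ^ 10 + 3796048 * V ^ 2 * w ^ 9 + 19560576 * V ^ 3 * w
        ^ 8 + 51947520 * V ^ 4 * w ^ 7 + 74280576 * V ^ 5 * w ^ 6 + 74543232 * V ^ 6 * w ^ 5 +
        103350272 * V ^ 7 * w ^ 4 + 152768512 * V ^ 8 * w ^ 3 + 132378624 * V ^ 9 * w ^ 2 +
        52258816 * V ^ 10 * w + 5447680 * V ^ 11) := by
      rw [hw]; ring
    rw [e1]
    positivity

/-- **strict sign of the derivative** -/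
theorem Wd3_pos {ρ V X v S j k : ℝ} (hρ : 0 < ρ) (h0 : 0 < V) (h1 : V < 1)
    (hj : 3 / (8 * ρ ^ 2) * (5 * ((1 + V) ^ 2 * X) ^ 2 + 2 * ((1 + V) ^ 2 * X) * v +
      5 * v ^ 2) + |j| ≤ ρ ^ 2 * S)
    (hk : 3 / (8 * ρ ^ 2) * (5 * ((1 + V) ^ 2 * X) ^ 2 + 2 * ((1 + V) ^ 2 * X) * v +
      5 * v ^ 2) + |k| ≤ ρ ^ 2 * S)
    (hW : 0 ≤ W3 ρ V X v) (hv : (V * v) ^ 2 ≤ (ρ * (1 - V ^ 2) / 2) ^ 2)
    (hu : 9 / 10 * (V * ((1 + V) ^ 2 * X)) ^ 2 ≤ (ρ * (1 - V ^ 2) / 2) ^ 2) (hXv : X ≠ 0 ∨ v ≠ 0) :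
    0 < Wd3 ρ V X v S j k := by
  have hV1 : 0 < 1 - V := by linarith
  have hVp : 0 < 1 + V := by linarith
  obtain ⟨m, hm⟩ : ∃ m, m = ρ * (1 - V ^ 2) := ⟨_, rfl⟩
  have hVV : 0 < 1 - V ^ 2 := by nlinarith
  have hm0 : 0 < m := by rw [hm]; positivity
  obtain ⟨ε, hε⟩ : ∃ ε, ε = 3 / (8 * ρ ^ 2) * (5 * ((1 + V) ^ 2 * X) ^ 2 +
    2 * ((1 + V) ^ 2 * X) * v + 5 * v ^ 2) := ⟨_, rfl⟩
  rw [← hε] at hj hk
  obtain ⟨Y1, hY1⟩ : ∃ Y, Y = pA V * X + pB V * v := ⟨_, rfl⟩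
  obtain ⟨Y2, hY2⟩ : ∃ Y, Y = (1 + V) ^ 2 * (pB V * X + pG V * v) := ⟨_, rfl⟩
  obtain ⟨D, hD⟩ : ∃ D, D = -(1 + V) * (dA V * X ^ 2 + 2 * dB V * X * v + dG V * v ^ 2) +
      4 * (pA V * X + pB V * v) * X := ⟨_, rfl⟩
  obtain ⟨q, hq⟩ : ∃ q, q = pA V * X ^ 2 + 2 * pB V * X * v + pG V * v ^ 2 := ⟨_, rfl⟩
  have hm2 : (ρ * (1 - V ^ 2) / 2) ^ 2 = m ^ 2 / 4 := by rw [hm]; ring
  rw [hm2] at hv hu
  have hW' : -2 * m ^ 2 ≤ q := by
    unfold W3 at hW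
    rw [hm2, ← hq] at hW
    linarith
  have hv' : 4 * (V * v) ^ 2 ≤ m ^ 2 := by linarith
  obtain ⟨b1, b2⟩ := C_ge (m := m) h0 h1 hY1 hY2 hD hq hW' hv'
  obtain ⟨b3, b4⟩ := C_ge (m := -m) h0 h1 hY1 hY2 hD hq (by simpa using hW') (by simpa using hv')
  obtain ⟨C, hC⟩ : ∃ C, C = ρ * V * (1 - V ^ 2) + D / (8 * ρ * (1 + V)) := ⟨_, rfl⟩
  -- `C` in terms of `m`
  have hCm : 8 * (1 + V) ^ 2 * V * m ^ 2 + (1 - V) * (1 + V) ^ 2 * D =
      8 * m * ((1 + V) ^ 2 * C) := by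
    rw [hC, hm]
    field_simp
    ring
  have hCm' : 8 * (1 + V) ^ 2 * V * (-m) ^ 2 + (1 - V) * (1 + V) ^ 2 * D =
      8 * m * ((1 + V) ^ 2 * C) := by
    rw [← hCm]; ring
  rw [hCm] at b1 b2
  rw [hCm'] at b3 b4
  have hY : |Y1| + |Y2| ≤ 4 * ((1 + V) ^ 2 * C) := by
    have c1 : Y1 + Y2 ≤ 4 * ((1 + V) ^ 2 * C) := by
      have : 2 * m * (Y1 + Y2) ≤ 2 * m * (4 * ((1 + V) ^ 2 * C)) := by linarith
      exact le_of_mul_le_mul_left this (by positivity)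
    have c2 : Y1 - Y2 ≤ 4 * ((1 + V) ^ 2 * C) := by
      have : 2 * m * (Y1 - Y2) ≤ 2 * m * (4 * ((1 + V) ^ 2 * C)) := by linarith
      exact le_of_mul_le_mul_left this (by positivity)
    have c3 : -(Y1 + Y2) ≤ 4 * ((1 + V) ^ 2 * C) := by
      have : 2 * m * (-(Y1 + Y2)) ≤ 2 * m * (4 * ((1 + V) ^ 2 * C)) := by linarith
      exact le_of_mul_le_mul_left this (by positivity)
    have c4 : -(Y1 - Y2) ≤ 4 * ((1 + V) ^ 2 * C) := by
      have : 2 * m * (-(Y1 - Y2)) ≤ 2 * m * (4 * ((1 + V) ^ 2 * C)) := by linarith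
      exact le_of_mul_le_mul_left this (by positivity)
    rcases abs_cases Y1 with ⟨e1, -⟩ | ⟨e1, -⟩ <;> rcases abs_cases Y2 with ⟨e2, -⟩ | ⟨e2, -⟩ <;>
      rw [e1, e2] <;> linarith
  have hC0 : 0 ≤ C := by
    have h2 : 0 ≤ 4 * ((1 + V) ^ 2 * C) := le_trans (by positivity) hY
    have h3 : 0 ≤ (1 + V) ^ 2 * C := by linarith
    exact nonneg_of_mul_nonneg_right h3 (by positivity)
  -- the maximum of the currents
  obtain ⟨μ, hμ⟩ : ∃ μ, μ = max |j| |k| := ⟨_, rfl⟩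
  have hμ0 : 0 ≤ μ := by rw [hμ]; exact (abs_nonneg j).trans (le_max_left _ _)
  have hμS : ε + μ ≤ ρ ^ 2 * S := by
    rw [hμ]
    rcases max_cases |j| |k| with ⟨e1, -⟩ | ⟨e1, -⟩ <;> rw [e1] <;> assumption
  have hJ : -(4 * μ * ((1 + V) ^ 2 * C)) ≤ Y1 * j + Y2 * k := by
    have d1 : -(μ * |Y1|) ≤ Y1 * j := by
      have : |Y1 * j| ≤ μ * |Y1| := by
        rw [abs_mul, mul_comm]
        exact mul_le_mul_of_nonneg_right (by rw [hμ]; exact le_max_left _ _) (abs_nonneg _)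
      linarith [neg_abs_le (Y1 * j)]
    have d2 : -(μ * |Y2|) ≤ Y2 * k := by
      have : |Y2 * k| ≤ μ * |Y2| := by
        rw [abs_mul, mul_comm]
        exact mul_le_mul_of_nonneg_right (by rw [hμ]; exact le_max_right _ _) (abs_nonneg _)
      linarith [neg_abs_le (Y2 * k)]
    have d3 : μ * (|Y1| + |Y2|) ≤ μ * (4 * ((1 + V) ^ 2 * C)) :=
      mul_le_mul_of_nonneg_left hY hμ0
    linarith
  have hε0 : 0 ≤ ε := by
    rw [hε]
    have := quad_nonneg ((1 + V) ^ 2 * X) v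
    exact mul_nonneg (by positivity) this
  have hk1 := k1_pos h0 h1
  obtain ⟨T, hT⟩ : ∃ T, T = V * (1 - V ^ 2) * (4 + 19 * V - 18 * V ^ 2) / (4 * ρ) *
    ((1 - V) ^ 2 * X + v) ^ 2 := ⟨_, rfl⟩
  have hT0 : 0 ≤ T := by rw [hT]; positivity
  -- the identity
  have key : Wd3 ρ V X v S j k = ρ ^ 2 * S * C - ρ * V * (1 - V ^ 2) * ε + T +
      (1 / 4) * (Y1 * j + Y2 * k) / (1 + V) ^ 2 := by
    rw [hC, hD, hT, hε, hY1, hY2]
    unfold Wd3 pA pB pG dA dB dG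
    field_simp
    ring
  rw [key]
  have e1 : (ε + μ) * C ≤ ρ ^ 2 * S * C := mul_le_mul_of_nonneg_right hμS hC0
  have e2 : -(μ * C) ≤ (1 / 4) * (Y1 * j + Y2 * k) / (1 + V) ^ 2 := by
    rw [le_div_iff₀ (by positivity)]
    linarith
  have hg5 : V * ((266 + 1786 * V + 7918 * V ^ 2 - 12202 * V ^ 3 + 1922 * V ^ 4 +
          11674 * V ^ 5 - 14038 *
            V ^ 6 + 2 * V ^ 7 + 3932 * V ^ 8 - 1260 * V ^ 9) * X ^ 2 +
            2 * (-190 - 798 * V + 3396 * V ^ 2 - 280 * V ^ 3 - 5302 * V ^ 4 + 2338 * V ^ 5 +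
              2096 * V ^ 6 - 1260 * V ^ 7) * X * v +
            (266 - 646 * V - 366 * V ^ 2 + 2066 * V ^ 3 + 260 * V ^ 4 - 1260 * V ^ 5) *
              v ^ 2) = 19 * (1 - V ^ 2) * D + 32 * V ^ 3 * (1 + V) *
                (4 + 19 * V - 18 * V ^ 2) * ((1 - V) ^ 2 * X + v) ^ 2 := by
    rw [hD]
    unfold pA pB dA dB dG
    ring
  have g4 := mul_pos h0 (cg_pos h0 h1 hXv)
  rw [hg5] at g4
  have e3 : 0 < ε * D / (8 * ρ * (1 + V)) + T := by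
    rcases lt_or_ge 0 D with hD0 | hD0
    · have hεp : 0 < ε := by
        rw [hε]
        have hq2 : 0 < 5 * ((1 + V) ^ 2 * X) ^ 2 + 2 * 1 * ((1 + V) ^ 2 * X) * v + 5 * v ^ 2 := by
          refine form2_pos (by norm_num) (by norm_num) ?_
          rcases hXv with h | h
          · exact Or.inl (mul_ne_zero (by positivity) h)
          · exact Or.inr h
        have hq3 : 0 < 5 * ((1 + V) ^ 2 * X) ^ 2 + 2 * ((1 + V) ^ 2 * X) * v + 5 * v ^ 2 := by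
          linarith
        positivity
      have : 0 < ε * D / (8 * ρ * (1 + V)) := by positivity
      linarith
    · have f1 : V ^ 2 * ε ≤ 19 / 16 * (1 - V ^ 2) ^ 2 := by
        have f2 := quad_le ((1 + V) ^ 2 * X) v
        have f3 : V ^ 2 * (6 * ((1 + V) ^ 2 * X) ^ 2 + 6 * v ^ 2) ≤ 19 / 6 * m ^ 2 := by
          have g1 : V ^ 2 * (6 * ((1 + V) ^ 2 * X) ^ 2 + 6 * v ^ 2) =
            6 * (V * ((1 + V) ^ 2 * X)) ^ 2 + 6 * (V * v) ^ 2 := by ring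
          rw [g1]
          linarith
        have f4 : V ^ 2 * ε ≤ 3 / (8 * ρ ^ 2) * (19 / 6 * m ^ 2) := by
          rw [hε]
          have g2 : V ^ 2 * (3 / (8 * ρ ^ 2) * (5 * ((1 + V) ^ 2 * X) ^ 2 +
            2 * ((1 + V) ^ 2 * X) * v + 5 * v ^ 2)) = 3 / (8 * ρ ^ 2) * (V ^ 2 *
              (5 * ((1 + V) ^ 2 * X) ^ 2 + 2 * ((1 + V) ^ 2 * X) * v + 5 * v ^ 2)) := by ring
          rw [g2]
          refine mul_le_mul_of_nonneg_left ?_ (by positivity)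
          exact (mul_le_mul_of_nonneg_left f2 (sq_nonneg V)).trans f3
        refine f4.trans (le_of_eq ?_)
        rw [hm]
        field_simp
        ring
      have f5 : 0 < V ^ 2 * (ε * D / (8 * ρ * (1 + V)) + T) := by
        have g3 : 19 / 16 * (1 - V ^ 2) ^ 2 * D ≤ V ^ 2 * ε * D :=
          mul_le_mul_of_nonpos_right f1 hD0
        have g6 : V ^ 2 * (ε * D / (8 * ρ * (1 + V)) + T) =
            (V ^ 2 * ε * D - 19 / 16 * (1 - V ^ 2) ^ 2 * D) / (8 * ρ * (1 + V)) +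
            (1 - V ^ 2) / (128 * ρ * (1 + V)) * (19 * (1 - V ^ 2) * D + 32 * V ^ 3 * (1 + V) *
                (4 + 19 * V - 18 * V ^ 2) * ((1 - V) ^ 2 * X + v) ^ 2) := by
          rw [hT]
          field_simp
          ring
        rw [g6]
        have g7 : 0 ≤ (V ^ 2 * ε * D - 19 / 16 * (1 - V ^ 2) ^ 2 * D) / (8 * ρ * (1 + V)) :=
          div_nonneg (by linarith) (by positivity)
        have g8 : 0 < (1 - V ^ 2) / (128 * ρ * (1 + V)) * (19 * (1 - V ^ 2) * D +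
            32 * V ^ 3 * (1 + V) * (4 + 19 * V - 18 * V ^ 2) * ((1 - V) ^ 2 * X + v) ^ 2) :=
          mul_pos (by positivity) g4
        linarith
      exact pos_of_mul_pos_right f5 (by positivity)
  have e4 : ε * C = ρ * V * (1 - V ^ 2) * ε + ε * D / (8 * ρ * (1 + V)) := by
    rw [hC]; ring
  have e5 : (ε + μ) * C = ε * C + μ * C := by ring
  linarith

/-- the strict sign of the derivative of `M² - c V² u²` -/
lemma alg2_pos {N kp ρ V M u j S c : ℝ} (hk : 0 < kp) (hρ : 0 < ρ) (hV0 : 0 < V) (hV1 : V < 1)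
    (hN : 2 ≤ N) (hc0 : 0 < c) (hu : u ≠ 0) (hMd : M = kp * (1 - V ^ 2) / 2) (hM : 0 ≤ M) (hG : c * V * |u| ≤ M)
    (hS : c * (N - 1) * u ^ 2 / (kp * ρ) ^ 2 + |j| / (kp * ρ) ≤ S) :
    0 < 2 * M * (kp * ρ * V * S) -
      2 * c * V * u ^ 2 * ((N - 2) * (1 - V ^ 2) / (2 * ρ) - ρ * S) -
      2 * c * V ^ 2 * u * ((1 - V) / ρ * u + j) := by
  have hV := hV0.le
  have hc := hc0.le
  have hV2 : 0 < 1 - V := by linarith
  obtain ⟨T, hT⟩ : ∃ T, T = c * (N - 1) * u ^ 2 / (kp * ρ) ^ 2 + |j| / (kp * ρ) := ⟨_, rfl⟩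
  rw [← hT] at hS
  have h1 : 0 ≤ (S - T) * (2 * M * (kp * ρ * V) + 2 * c * V * u ^ 2 * ρ) :=
    mul_nonneg (by linarith) (by positivity)
  have hj : c * V * (u * j) ≤ M * |j| := by
    calc c * V * (u * j) ≤ c * V * |u * j| :=
          mul_le_mul_of_nonneg_left (le_abs_self _) (by positivity)
      _ = c * V * |u| * |j| := by rw [abs_mul]; ring
      _ ≤ M * |j| := mul_le_mul_of_nonneg_right hG (abs_nonneg _)
  have h2 : T * (2 * M * (kp * ρ * V) + 2 * c * V * u ^ 2 * ρ) =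
      c * V * (N - 1) * (1 - V ^ 2) * u ^ 2 / ρ + 2 * c ^ 2 * V * (N - 1) * u ^ 4 / (kp ^ 2 * ρ) +
      2 * M * V * |j| + 2 * c * V * u ^ 2 * |j| / kp := by
    rw [hT]
    have e : c * V * (N - 1) * (1 - V ^ 2) * u ^ 2 / ρ =
        2 * c * V * (N - 1) * u ^ 2 * M / (kp * ρ) := by
      rw [hMd]
      field_simp
    rw [e]
    field_simp
    ring
  have h3 : 0 ≤ 2 * c ^ 2 * V * (N - 1) * u ^ 4 / (kp ^ 2 * ρ) := by
    have : 0 ≤ N - 1 := by linarith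
    positivity
  have h4 : 0 ≤ 2 * c * V * u ^ 2 * |j| / kp := by positivity
  have h5 : 0 < c * V * (1 - V) ^ 2 * u ^ 2 / ρ := by positivity
  have h6 : 0 ≤ 2 * V * (M * |j| - c * V * (u * j)) :=
    mul_nonneg (by positivity) (by linarith)
  have h7 : 2 * M * (kp * ρ * V * S) -
      2 * c * V * u ^ 2 * ((N - 2) * (1 - V ^ 2) / (2 * ρ) - ρ * S) -
      2 * c * V ^ 2 * u * ((1 - V) / ρ * u + j) =
      (S - T) * (2 * M * (kp * ρ * V) + 2 * c * V * u ^ 2 * ρ) +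
      (T * (2 * M * (kp * ρ * V) + 2 * c * V * u ^ 2 * ρ) -
        (c * V * (N - 1) * (1 - V ^ 2) * u ^ 2 / ρ +
          2 * c ^ 2 * V * (N - 1) * u ^ 4 / (kp ^ 2 * ρ) +
      2 * M * V * |j| + 2 * c * V * u ^ 2 * |j| / kp)) +
      2 * c ^ 2 * V * (N - 1) * u ^ 4 / (kp ^ 2 * ρ) + 2 * c * V * u ^ 2 * |j| / kp +
      c * V * (1 - V) ^ 2 * u ^ 2 / ρ + 2 * V * (M * |j| - c * V * (u * j)) := by
    field_simp
    ring
  rw [h7, h2]
  linarith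

end Vale.Agent.H318
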