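import Vale.Agent.P366.R2.H318.Nat2

/-! Covariance of the momentum density and the scalar curvature. -/

open MeasureTheory Metric Filter Topology Set
open scoped ContDiff Matrix

noncomputable section
namespace Vale.Agent.H318
open Vale.Agent.P366.Stmt Vale.Agent.P366.T2 Vale.Agent.T4

variable {n : ℕ} {B : Matrix (Fin n) (Fin n) ℝ}

lemma R2_comm (T : Fin n → Fin n → ℝ) (i j : Fin n) :
    R2 B T i j = R B (fun q => R B (fun p => T p q) i) j := R_comm B _ _ _

/-- contraction over the last indices -/
lemma ctr2 (hB : Bᵀ * B = 1) (U T : Fin n → Fin n → ℝ) (i k : Fin n) :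
    ∑ j, R2 B U i j * R2 B T k j = R2 B (fun p p' => ∑ q, U p q * T p' q) i k := by
  unfold R2
  have h : ∀ p p', ∑ q, U p q * T p' q = ∑ j, R B (U p) j * R B (T p') j :=
    fun p p' => (R_dot hB _ _).symm
  simp only [h]
  simp only [R_sum, R_cmul, R_mulc]

lemma dot2 (hB : Bᵀ * B = 1) (U T : Fin n → Fin n → ℝ) :
    ∑ i, ∑ j, R2 B U i j * R2 B T i j = ∑ p, ∑ q, U p q * T p q := by
  simp only [ctr2 hB U T]
  exact R_tr hB _

lemma dot2' (hB : Bᵀ * B = 1) (U T : Fin n → Fin n → ℝ) :
    ∑ i, ∑ j, R2 B U i j * R2 B T j i = ∑ p, ∑ q, U p q * T q p := by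
  have h : ∀ i j, R2 B T j i = R2 B (fun p q => T q p) i j := fun i j => R2_comm T j i
  simp only [h]
  exact dot2 hB U _

lemma tr_pull (hB : Bᵀ * B = 1) (g K : Field n) (x : E n) :
    tr (pull B g) (pull B K) x = tr g K (act B x) := by
  unfold tr
  simp only [up_pull hB]
  exact dot2 hB _ _

lemma momT_pull (hB : Bᵀ * B = 1) (g K : Field n) (x : E n) :
    momT (pull B g) (pull B K) x = pull B (momT g K) x := by
  funext i j
  unfold momT
  rw [tr_pull hB]
  unfold pull R2
  simp only [R_sub, R_cmul]

lemma normSq_pull (hB : Bᵀ * B = 1) (g K : Field n) (x : E n) :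
    normSq (pull B g) (pull B K) x = normSq g K (act B x) := by
  have e : ∀ (g K : Field n) (x : E n), normSq g K x =
      ∑ i, ∑ j, K x i j * ∑ k, up g i k x * ∑ l, up g j l x * K x k l := by
    intro g K x
    unfold normSq
    refine Finset.sum_congr rfl fun i _ => Finset.sum_congr rfl fun j _ => ?_
    simp only [Finset.mul_sum]
    exact Finset.sum_congr rfl fun k _ => Finset.sum_congr rfl fun l _ => by ring
  rw [e, e]
  simp only [up_pull hB]
  have e1 : ∀ j k, ∑ l, R2 B (fun p q => up g p q (act B x)) j l * pull B K x k l =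
      R2 B (fun p p' => ∑ q, up g p q (act B x) * K (act B x) p' q) j k := fun j k => ctr2 hB _ _ _ _
  simp only [e1]
  simp only [ctr2 hB]
  exact dot2 hB _ _

lemma covNorm_pull (hB : Bᵀ * B = 1) (g : Field n) (w w' : Fin n → E n → ℝ) (x : E n)
    (hw : ∀ i, w' i x = R B (fun p => w p (act B x)) i) :
    covNorm (pull B g) w' x = covNorm g w (act B x) := by
  have e : ∀ (g : Field n) (w : Fin n → E n → ℝ) (x : E n), covNorm g w x =
      √(∑ i, w i x * ∑ j, up g i j x * w j x) := by
    intro g w x
    unfold covNorm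
    congr 1
    refine Finset.sum_congr rfl fun i _ => ?_
    rw [Finset.mul_sum]
    exact Finset.sum_congr rfl fun j _ => by ring
  rw [e, e]
  simp only [up_pull hB, hw, ctr1 hB]
  rw [R_dot hB]

/-! ### the momentum density -/

/-- the covariant derivative of a symmetric tensor -/
def cd (g T : Field n) (x : E n) (i j k : Fin n) : ℝ :=
  pd k (fun y => T y i j) x - ∑ l, (chr g l k i x * T x l j + chr g l k j x * T x i l)

lemma R3_rot (F : Fin n → Fin n → Fin n → ℝ) (i j k : Fin n) :
    R3 B F k i j = R3 B (fun i' j' k' => F k' i' j') i j k := by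
  unfold R3
  rw [R_comm]
  refine R_congr (fun p => ?_) i
  rw [R_comm]

lemma R3_rev (F : Fin n → Fin n → Fin n → ℝ) (i j k : Fin n) :
    R3 B F k j i = R3 B (fun i' j' k' => F k' j' i') i j k := by
  rw [R3_rot]
  unfold R3
  rw [R_comm]

lemma c3 (hB : Bᵀ * B = 1) (Γ : Fin n → Fin n → Fin n → ℝ) (π : Fin n → Fin n → ℝ)
    (k i j : Fin n) : ∑ l, R3 B Γ l k i * R2 B π l j =
      R3 B (fun q r s => ∑ p, Γ p q r * π p s) k i j := by
  unfold R3 R2
  rw [R_dot hB]
  simp only [R_sum, R_cmul, R_mulc]

lemma cd_pull (hB : Bᵀ * B = 1) {g T : Field n} (hg : ∀ i j, Smooth (fun x => g x i j)) {x : E n}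
    (hT : ∀ i j, DifferentiableAt ℝ (fun y => T y i j) (act B x)) (i j k : Fin n) :
    cd (pull B g) (pull B T) x i j k = R3 B (fun p q r => cd g T (act B x) p q r) i j k := by
  unfold cd
  rw [pd_pull hT]
  simp only [chr_pull hB hg, Finset.sum_add_distrib]
  have h1 : ∑ l, R3 B (fun p q r => chr g p q r (act B x)) l k i * pull B T x l j =
      R3 B (fun p q r => ∑ l, chr g l r p (act B x) * T (act B x) l q) i j k := by
    rw [← R3_rot (fun r p q => ∑ l, chr g l r p (act B x) * T (act B x) l q)]
    exact c3 hB _ _ _ _ _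
  have h2 : ∑ l, R3 B (fun p q r => chr g p q r (act B x)) l k j * pull B T x i l =
      R3 B (fun p q r => ∑ l, chr g l r q (act B x) * T (act B x) p l) i j k := by
    rw [← R3_rev (fun r q p => ∑ l, chr g l r q (act B x) * T (act B x) p l)]
    have h3 : ∀ l, pull B T x i l = R2 B (fun p q => T (act B x) q p) l i := fun l => R2_comm _ _ _
    simp only [h3]
    exact c3 hB _ _ _ _ _
  rw [h1, h2]
  unfold R3
  simp only [R_sub, R_add]

lemma c23 (hB : Bᵀ * B = 1) (U : Fin n → Fin n → ℝ) (N : Fin n → Fin n → Fin n → ℝ) (j : Fin n) :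
    ∑ i, ∑ k, R2 B U i k * R3 B N i j k = R B (fun q => ∑ p, ∑ r, U p r * N p q r) j := by
  have h : ∀ i k, R3 B N i j k = R B (fun q => R2 B (fun p r => N p q r) i k) j := by
    intro i k
    unfold R3 R2
    rw [R_comm]
  simp only [h]
  simp only [← dot2 hB U, R_sum, R_cmul]

lemma mom_pull (hB : Bᵀ * B = 1) {g K : Field n} (hg : ∀ i j, Smooth (fun x => g x i j))
    {x : E n} (hπ : ∀ i j, DifferentiableAt ℝ (fun y => momT g K y i j) (act B x)) (j : Fin n) :
    mom (pull B g) (pull B K) j x = R B (fun p => mom g K p (act B x)) j := by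
  have e : ∀ (g K : Field n) (j : Fin n) (x : E n), mom g K j x =
      ∑ i, ∑ k, up g i k x * cd g (momT g K) x i j k := fun g K j x => rfl
  rw [e]
  have h1 : momT (pull B g) (pull B K) = pull B (momT g K) := funext fun y => momT_pull hB g K y
  rw [h1]
  simp only [up_pull hB, cd_pull hB hg hπ]
  rw [c23 hB]
  rfl

/-! ### the scalar curvature -/

lemma HP_chr_pull (hB : Bᵀ * B = 1) {g : Field n} (hg : ∀ i j, Smooth (fun x => g x i j))
    {x : E n} (hd : (mat g (act B x)).det ≠ 0) (m k i j : Fin n) :
    pd m (chr (pull B g) k i j) x =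
      R3 B (fun p q r => R B (fun l => pd l (chr g p q r) (act B x)) m) k i j := by
  have h1 : chr (pull B g) k i j = fun y => R3 B (fun p q r => chr g p q r (act B y)) k i j :=
    funext fun y => chr_pull hB hg k i j y
  rw [h1]
  have h2 : HP m (fun y => R3 B (fun p q r => chr g p q r (act B y)) k i j)
      (R3 B (fun p q r => R B (fun l => pd l (chr g p q r) (act B x)) m) k i j) x :=
    HP_R fun p => HP_R fun q => HP_R fun r =>
      HP_act ((contDiffAt_chr hg hd p q r).differentiableAt (by norm_num)) m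
  exact h2.pd

lemma scal_pull (hB : Bᵀ * B = 1) {g : Field n} (hg : ∀ i j, Smooth (fun x => g x i j))
    {x : E n} (hd : (mat g (act B x)).det ≠ 0) :
    scal (pull B g) x = scal g (act B x) := by
  set Γ : Fin n → Fin n → Fin n → ℝ := fun p q r => chr g p q r (act B x) with hΓ
  set D : Fin n → Fin n → Fin n → Fin n → ℝ := fun p q r l => pd l (chr g p q r) (act B x) with hD
  have t1 : ∀ i j, ∑ k, pd k (chr (pull B g) k i j) x = R2 B (fun q r => ∑ p, D p q r p) i j := by
    intro i j
    simp only [HP_chr_pull hB hg hd]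
    have e : ∀ k, R3 B (fun p q r => R B (fun l => D p q r l) k) k i j =
        R2 B (fun q r => R B (fun p => R B (fun l => D p q r l) k) k) i j := by
      intro k
      unfold R3 R2
      rw [R_comm]
      exact R_congr (fun q => R_comm B _ _ _) i
    simp only [hD] at e ⊢
    simp only [e]
    unfold R2
    simp only [← R_sum]
    refine R_congr (fun q => R_congr (fun r => ?_) j) i
    exact R_tr hB (fun p l => pd l (chr g p q r) (act B x))
  have t2 : ∀ i j, ∑ k, pd j (chr (pull B g) k i k) x = R2 B (fun q r => ∑ p, D p q p r) i j := by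
    intro i j
    simp only [HP_chr_pull hB hg hd]
    have e : ∀ k, R3 B (fun p q r => R B (fun l => D p q r l) j) k i k =
        R2 B (fun q l => R B (fun p => R B (fun r => D p q r l) k) k) i j := by
      intro k
      unfold R3 R2
      rw [R_comm]
      refine R_congr (fun q => ?_) i
      have e1 : ∀ p, R B (fun r => R B (fun l => D p q r l) j) k =
        R B (fun l => R B (fun r => D p q r l) k) j := fun p => R_comm B _ _ _
      rw [R_congr e1]
      exact R_comm B _ _ _
    simp only [hD] at e ⊢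
    simp only [e]
    unfold R2
    simp only [← R_sum]
    refine R_congr (fun q => R_congr (fun l => ?_) j) i
    exact R_tr hB (fun p r => pd l (chr g p q r) (act B x))
  have t3 : ∀ i j, ∑ k, ∑ l, chr (pull B g) k k l x * chr (pull B g) l i j x =
      R2 B (fun q r => ∑ k, ∑ l, Γ k k l * Γ l q r) i j := by
    intro i j
    simp only [chr_pull hB hg]
    rw [Finset.sum_comm]
    simp only [← Finset.sum_mul]
    have e : ∀ l, ∑ k, R3 B Γ k k l = R B (fun r => ∑ p, Γ p p r) l := by
      intro l
      have e1 : ∀ k, R3 B Γ k k l = R B (fun r => R B (fun p => R B (fun q => Γ p q r) k) k) l := by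
        intro k
        unfold R3
        have e2 : ∀ p, R B (fun q => R B (fun r => Γ p q r) l) k =
          R B (fun r => R B (fun q => Γ p q r) k) l := fun p => R_comm B _ _ _
        rw [R_congr e2]
        exact R_comm B _ _ _
      simp only [e1, ← R_sum]
      exact R_congr (fun r => R_tr hB _) l
    simp only [hΓ] at e ⊢
    simp only [e]
    have e3 : ∀ l, R3 B (fun p q r => chr g p q r (act B x)) l i j =
        R B (fun p => R2 B (fun q r => chr g p q r (act B x)) i j) l := fun l => rfl
    simp only [e3]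
    rw [R_dot hB]
    unfold R2
    simp only [← R_cmul, ← R_sum]
    refine R_congr (fun q => R_congr (fun r => ?_) j) i
    rw [Finset.sum_comm]
    simp only [← Finset.sum_mul]
  have t4 : ∀ i j, ∑ k, ∑ l, chr (pull B g) k j l x * chr (pull B g) l i k x =
      R2 B (fun q r => ∑ k, ∑ l, Γ k r l * Γ l q k) i j := by
    intro i j
    simp only [chr_pull hB hg]
    have e1 : ∀ k l, R3 B Γ k j l = R2 B (fun p r => R B (fun q => Γ p q r) j) k l := by
      intro k l
      unfold R3 R2
      exact R_congr (fun p => R_comm B _ _ _) k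
    have e2 : ∀ k l, R3 B Γ l i k = R2 B (fun p r => R B (fun q => Γ p q r) i) l k := by
      intro k l
      unfold R3 R2
      exact R_congr (fun p => R_comm B _ _ _) l
    simp only [hΓ] at e1 e2 ⊢
    simp only [e1, e2]
    rw [dot2' hB]
    unfold R2
    simp only [R_sum, R_cmul, R_mulc]
  have key : ∀ (g : Field n) (x : E n), scal g x = ∑ i, ∑ j, up g i j x *
      ((∑ k, pd k (chr g k i j) x - ∑ k, pd j (chr g k i k) x) +
        (∑ k, ∑ l, chr g k k l x * chr g l i j x - ∑ k, ∑ l, chr g k j l x * chr g l i k x)) := by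
    intro g x
    unfold scal
    refine Finset.sum_congr rfl fun i _ => Finset.sum_congr rfl fun j _ => ?_
    rw [← Finset.sum_sub_distrib, ← Finset.sum_sub_distrib, ← Finset.sum_add_distrib]
    congr 1
    refine Finset.sum_congr rfl fun k _ => ?_
    rw [← Finset.sum_sub_distrib]
  rw [key, key]
  simp only [t1, t2, t3, t4, up_pull hB]
  have e : ∀ i j, (R2 B (fun q r => ∑ p, D p q r p) i j - R2 B (fun q r => ∑ p, D p q p r) i j) +
      (R2 B (fun q r => ∑ k, ∑ l, Γ k k l * Γ l q r) i j -
        R2 B (fun q r => ∑ k, ∑ l, Γ k r l * Γ l q k) i j) =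
      R2 B (fun q r => (∑ p, D p q r p - ∑ p, D p q p r) +
        (∑ k, ∑ l, Γ k k l * Γ l q r - ∑ k, ∑ l, Γ k r l * Γ l q k)) i j := by
    intro i j
    unfold R2
    simp only [R_add, R_sub]
  simp only [e]
  exact dot2 hB _ _

end Vale.Agent.H318
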