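import Vale.Agent.P366.R2.H318.Param
import Vale.Agent.P366.R2.H318.Nat3

/-! Averages of tensor fields over a family of orthogonal matrices. -/

open MeasureTheory Metric Filter Topology Set
open scoped ContDiff Matrix

noncomputable section
namespace Vale.Agent.H318
open Vale.Agent.P366.Stmt Vale.Agent.P366.T2 Vale.Agent.T4

variable {n : ℕ} {H : Type} [TopologicalSpace H] [CompactSpace H] [MeasurableSpace H]
  [BorelSpace H] [SecondCountableTopology H] {μ : Measure H} [IsProbabilityMeasure μ]
  {b : H → Matrix (Fin n) (Fin n) ℝ}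

/-- `F` is the mean of the continuous function `f`. -/
structure Av (μ : Measure H) (f : H → ℝ) (F : ℝ) : Prop where
  cont : Continuous f
  eq : F = ∫ h, f h ∂μ

omit [SecondCountableTopology H] in
lemma Av.int {f : H → ℝ} {F : ℝ} (hf : Av μ f F) : Integrable f μ := by
  exact hf.cont.integrable_of_hasCompactSupport (HasCompactSupport.of_compactSpace f)

omit [SecondCountableTopology H] in
lemma Av.add {f g : H → ℝ} {F G : ℝ} (hf : Av μ f F) (hg : Av μ g G) :
    Av μ (fun h => f h + g h) (F + G) :=
  ⟨hf.cont.add hg.cont, by rw [hf.eq, hg.eq, integral_add hf.int hg.int]⟩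

omit [SecondCountableTopology H] in
lemma Av.sub {f g : H → ℝ} {F G : ℝ} (hf : Av μ f F) (hg : Av μ g G) :
    Av μ (fun h => f h - g h) (F - G) :=
  ⟨hf.cont.sub hg.cont, by rw [hf.eq, hg.eq, integral_sub hf.int hg.int]⟩

omit [SecondCountableTopology H] [CompactSpace H] [BorelSpace H] in
lemma Av.const (c : ℝ) : Av μ (fun _ => c) c :=
  ⟨continuous_const, by rw [integral_const]; simp⟩

omit [SecondCountableTopology H] [CompactSpace H] [BorelSpace H] [IsProbabilityMeasure μ] in
lemma Av.cmul {f : H → ℝ} {F : ℝ} (c : ℝ) (hf : Av μ f F) : Av μ (fun h => c * f h) (c * F) :=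
  ⟨continuous_const.mul hf.cont, by rw [hf.eq, integral_const_mul]⟩

omit [SecondCountableTopology H] [CompactSpace H] [BorelSpace H] [IsProbabilityMeasure μ] in
lemma Av.mulc {f : H → ℝ} {F : ℝ} (c : ℝ) (hf : Av μ f F) : Av μ (fun h => f h * c) (F * c) :=
  ⟨hf.cont.mul continuous_const, by rw [hf.eq, integral_mul_const]⟩

omit [SecondCountableTopology H] in
lemma Av.sum {ι : Type} (s : Finset ι) {f : ι → H → ℝ} {F : ι → ℝ} (hf : ∀ i, Av μ (f i) (F i)) :
    Av μ (fun h => ∑ i ∈ s, f i h) (∑ i ∈ s, F i) :=
  ⟨continuous_finsetSum _ fun i _ => (hf i).cont, by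
    rw [integral_finsetSum _ fun i _ => (hf i).int]
    exact Finset.sum_congr rfl fun i _ => (hf i).eq⟩

omit [SecondCountableTopology H] in
lemma Av.le {f g : H → ℝ} {F G : ℝ} (hf : Av μ f F) (hg : Av μ g G) (h : ∀ a, f a ≤ g a) :
    F ≤ G := by
  rw [hf.eq, hg.eq]
  exact integral_mono hf.int hg.int h

omit [SecondCountableTopology H] in
/-- the variance -/
lemma Av.var {f : H → ℝ} {F : ℝ} (hf : Av μ f F) :
    ∃ G, Av μ (fun h => f h ^ 2) (F ^ 2 + G) ∧ Av μ (fun h => (f h - F) ^ 2) G := by
  have h1 : Av μ (fun h => (f h - F) ^ 2) (∫ h, (f h - F) ^ 2 ∂μ) :=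
    ⟨(hf.cont.sub continuous_const).pow 2, rfl⟩
  refine ⟨_, ⟨hf.cont.pow 2, ?_⟩, h1⟩
  have h2 := (h1.add (hf.cmul (2 * F))).sub (Av.const (μ := μ) (F ^ 2))
  have h3 : (fun h => (f h - F) ^ 2 + 2 * F * f h - F ^ 2) = fun h => f h ^ 2 := by
    funext h; ring
  rw [h3] at h2
  rw [← h2.eq]
  ring

/-- The average of the pull-backs of `K`. -/
def avg (μ : Measure H) (b : H → Matrix (Fin n) (Fin n) ℝ) (K : Field n) : Field n :=
  fun x i j => ∫ h, pull (b h) K x i j ∂μ

section
variable (hb : Continuous b)
include hb

omit [CompactSpace H] [MeasurableSpace H] [BorelSpace H] [SecondCountableTopology H] in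
lemma cont_entry (i j : Fin n) : Continuous fun h => b h i j :=
  (continuous_apply_apply i j).comp hb

omit [CompactSpace H] [MeasurableSpace H] [BorelSpace H] [SecondCountableTopology H] in
lemma cont_actb (x : E n) : Continuous fun h => act (b h) x := by
  have h1 : Continuous fun h => fun i => ∑ j, b h i j * x j :=
    continuous_pi fun i => continuous_finsetSum _ fun j _ =>
      (cont_entry hb i j).mul continuous_const
  exact (PiLp.continuous_toLp 2 _).comp h1

omit [CompactSpace H] [MeasurableSpace H] [BorelSpace H] [SecondCountableTopology H] in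
lemma cont_Rb {f : H → Fin n → ℝ} (hf : ∀ p, Continuous fun h => f h p) (i : Fin n) :
    Continuous fun h => R (b h) (f h) i :=
  continuous_finsetSum _ fun p _ => (cont_entry hb p i).mul (hf p)

variable {K : Field n} (hK : ∀ i j, Smooth (fun x => K x i j))
include hK

omit [SecondCountableTopology H] [IsProbabilityMeasure μ] [CompactSpace H] [BorelSpace H] in
lemma Av_pull (x : E n) (i j : Fin n) :
    Av μ (fun h => pull (b h) K x i j) (avg μ b K x i j) := by
  refine ⟨?_, rfl⟩
  exact cont_Rb hb (fun p => cont_Rb hb (fun q => (hK p q).continuous.comp (cont_actb hb x)) j) i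

/-- the linear map `act` -/
def actL (B : Matrix (Fin n) (Fin n) ℝ) : E n →L[ℝ] E n := Matrix.toEuclideanCLM (𝕜 := ℝ) B

omit [CompactSpace H] [MeasurableSpace H] [BorelSpace H] [SecondCountableTopology H] hb hK in
lemma actL_apply (B : Matrix (Fin n) (Fin n) ℝ) (x : E n) : actL B x = act B x := rfl

omit [CompactSpace H] [MeasurableSpace H] [BorelSpace H] [SecondCountableTopology H] hK in
lemma cont_actL : Continuous fun h => actL (b h) := by
  have h1 : Continuous (fun B : Matrix (Fin n) (Fin n) ℝ => actL B) :=
    (Matrix.toEuclideanCLM (𝕜 := ℝ) (n := Fin n)).toAlgEquiv.toLinearMap.continuous_of_finiteDimensional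
  exact h1.comp hb

lemma smooth_avg (i j : Fin n) : Smooth (fun x => avg μ b K x i j) := by
  have h1 : ∀ p q, ContDiff ℝ ∞ fun x : E n => ∫ h, b h p i * (b h q j * K (act (b h) x) p q) ∂μ := by
    intro p q
    have hc : Continuous fun h => (b h p i * b h q j) • (ContinuousLinearMap.id ℝ ℝ) :=
      ((cont_entry hb p i).mul (cont_entry hb q j)).smul continuous_const
    rw [contDiff_infty]
    intro k
    have h2 := contDiff_param μ (cont_actL hb) k hc (hK p q)
    have h3 : (fun x : E n => ∫ h, b h p i * (b h q j * K (act (b h) x) p q) ∂μ) = fun x : E n =>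
        ∫ h, ((b h p i * b h q j) • (ContinuousLinearMap.id ℝ ℝ)) (K (actL (b h) x) p q) ∂μ := by
      funext x
      refine integral_congr_ae (Eventually.of_forall fun h => ?_)
      simp only [smul_apply, ContinuousLinearMap.id_apply, smul_eq_mul,
        actL_apply]
      ring
    rw [h3]
    exact h2
  have e : (fun x => avg μ b K x i j) = fun x : E n => ∑ p, ∑ q,
      ∫ h, b h p i * (b h q j * K (act (b h) x) p q) ∂μ := by
    funext x
    have hAv : ∀ p q, Av μ (fun h => b h p i * (b h q j * K (act (b h) x) p q))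
        (∫ h, b h p i * (b h q j * K (act (b h) x) p q) ∂μ) := fun p q =>
      ⟨(cont_entry hb p i).mul ((cont_entry hb q j).mul
        ((hK p q).continuous.comp (cont_actb hb x))), rfl⟩
    rw [(Av.sum (μ := μ) Finset.univ fun p => Av.sum Finset.univ fun q => hAv p q).eq]
    refine integral_congr_ae (Eventually.of_forall fun h => ?_)
    show pull (b h) K x i j = _
    unfold pull R2 R
    simp only [Finset.mul_sum]
  rw [e]
  exact ContDiff.sum fun p _ => ContDiff.sum fun q _ => h1 p q

omit [IsProbabilityMeasure μ] in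
/-- derivatives of averages -/
lemma Av_pd [IsFiniteMeasure μ] (x : E n) (i j k : Fin n) :
    Av μ (fun h => pd k (fun y => pull (b h) K y i j) x) (pd k (fun y => avg μ b K y i j) x) := by
  let f : E n → H → ℝ := fun y h => pull (b h) K y i j
  let f' : E n → H → E n →L[ℝ] ℝ := fun y h => ∑ p, ∑ q, (b h p i * b h q j) •
    ((fderiv ℝ (fun z => K z p q) (actL (b h) y)) ∘L actL (b h))
  have hL := cont_actL hb
  have hact : Continuous fun p : E n × H => actL (b p.2) p.1 :=
    (hL.comp continuous_snd).clm_apply continuous_fst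
  have hent : ∀ p i, Continuous fun z : E n × H => b z.2 p i := fun p i =>
    (cont_entry hb p i).comp continuous_snd
  have hf : Continuous (Function.uncurry f) := by
    show Continuous fun z : E n × H => ∑ p, b z.2 p i * ∑ q, b z.2 q j * K (actL (b z.2) z.1) p q
    exact continuous_finsetSum _ fun p _ => (hent p i).mul
      (continuous_finsetSum _ fun q _ => (hent q j).mul ((hK p q).continuous.comp hact))
  have hf' : Continuous (Function.uncurry f') := by
    refine continuous_finsetSum _ fun p _ => continuous_finsetSum _ fun q _ => ?_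
    refine ((hent p i).mul (hent q j)).smul ?_
    have h1 : Continuous (fderiv ℝ (fun z => K z p q)) :=
      (hK p q).continuous_fderiv (by simp)
    exact (h1.comp hact).clm_comp (hL.comp continuous_snd)
  have hd : ∀ y h, HasFDerivAt (fun z => f z h) (f' y h) y := by
    intro y h
    have h1 : ∀ p q, HasFDerivAt (fun z => (b h p i * b h q j) • K (actL (b h) z) p q)
        ((b h p i * b h q j) • ((fderiv ℝ (fun z => K z p q) (actL (b h) y)) ∘L actL (b h))) y := by
      intro p q
      have h2 : HasFDerivAt (fun z => K z p q) (fderiv ℝ (fun z => K z p q) (actL (b h) y))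
          (actL (b h) y) := ((hK p q).differentiable (by simp) _).hasFDerivAt
      have h3 : HasFDerivAt (fun z => K (actL (b h) z) p q)
          ((fderiv ℝ (fun z => K z p q) (actL (b h) y)) ∘L actL (b h)) y :=
        h2.comp y (actL (b h)).hasFDerivAt
      exact h3.fun_const_smul _
    have h3 := HasFDerivAt.fun_sum (u := Finset.univ) fun p (_ : p ∈ Finset.univ) =>
      HasFDerivAt.fun_sum (u := Finset.univ) fun q (_ : q ∈ Finset.univ) => h1 p q
    have h4 : (fun z => f z h) = fun z => ∑ p, ∑ q, (b h p i * b h q j) • K (actL (b h) z) p q := by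
      funext z
      show pull (b h) K z i j = _
      unfold pull R2 R
      simp only [Finset.mul_sum, smul_eq_mul, actL_apply]
      exact Finset.sum_congr rfl fun p _ => Finset.sum_congr rfl fun q _ => by ring
    rw [h4]
    exact h3
  have key := hasFDerivAt_param μ hf hf' hd x
  have hcont' : Continuous fun h => f' x h := hf'.comp (Continuous.prodMk_right x)
  have h5 : ∀ h, pd k (fun y => pull (b h) K y i j) x = f' x h (EuclideanSpace.single k 1) := by
    intro h
    exact ((hd x h).hasLineDerivAt (EuclideanSpace.single k (1 : ℝ))).lineDeriv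
  refine ⟨?_, ?_⟩
  · simp only [h5]
    exact hcont'.clm_apply continuous_const
  · have h6 : pd k (fun y => avg μ b K y i j) x =
        (∫ h, f' x h ∂μ) (EuclideanSpace.single k 1) :=
      (key.hasLineDerivAt (EuclideanSpace.single k (1 : ℝ))).lineDeriv
    rw [h6, ContinuousLinearMap.integral_apply (integrable_of_cont μ hcont')]
    exact integral_congr_ae (Eventually.of_forall fun h => (h5 h).symm)

end

end Vale.Agent.H318
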