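import Vale.Agent.P366.R2.H318.Nat3
import Vale.Agent.P366.T2.C92c

/-! The geometric quantities depend only on the fields outside the ball. -/

open MeasureTheory Metric Filter Topology Set
open scoped ContDiff Matrix

noncomputable section
namespace Vale.Agent.H318
open Vale.Agent.P366.Stmt Vale.Agent.P366.T2 Vale.Agent.T4
open Vale.Agent.C92 (pd_congr_outside)

variable {n : ℕ} {g g' K K' : Field n} {R₀ : ℝ}

lemma contDiffAt_momT (hg : ∀ i j, Smooth (fun x => g x i j)) (hK : ∀ i j, Smooth (fun x => K x i j))
    {x : E n} (hd : (mat g x).det ≠ 0) (i j : Fin n) :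
    ContDiffAt ℝ ∞ (fun y => momT g K y i j) x := by
  unfold momT tr
  exact (hK i j).contDiffAt.sub ((ContDiffAt.sum fun a _ => ContDiffAt.sum fun b _ =>
    (contDiffAt_up hg hd a b).mul (hK a b).contDiffAt).mul (hg i j).contDiffAt)

lemma up_congr {x : E n} (h : g x = g' x) (i j : Fin n) : up g i j x = up g' i j x := by
  have : mat g x = mat g' x := h
  unfold up
  rw [this]

lemma tr_congr {x : E n} (h : g x = g' x) (hK : K x = K' x) : tr g K x = tr g' K' x := by
  unfold tr
  simp only [up_congr h, hK]

lemma normSq_congr {x : E n} (h : g x = g' x) (hK : K x = K' x) :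
    normSq g K x = normSq g' K' x := by
  unfold normSq
  simp only [up_congr h, hK]

lemma momT_congr {x : E n} (h : g x = g' x) (hK : K x = K' x) (i j : Fin n) :
    momT g K x i j = momT g' K' x i j := by
  unfold momT
  rw [tr_congr h hK, h, hK]

lemma chr_congr (hg : ∀ i j, Smooth (fun x => g x i j)) (hg' : ∀ i j, Smooth (fun x => g' x i j))
    (h : ∀ y, R₀ ≤ len y → g y = g' y) {x : E n} (hx : R₀ ≤ len x) (k i j : Fin n) :
    chr g k i j x = chr g' k i j x := by
  have h1 : ∀ a b c : Fin n, pd a (fun y => g y b c) x = pd a (fun y => g' y b c) x :=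
    fun a b c => pd_congr_outside hx ((hg b c).differentiable (by norm_num) _)
      ((hg' b c).differentiable (by norm_num) _) (fun y hy => by rw [h y hy]) a
  unfold chr
  simp only [up_congr (h x hx), h1]

lemma mom_congr (hg : ∀ i j, Smooth (fun x => g x i j)) (hg' : ∀ i j, Smooth (fun x => g' x i j))
    (hK : ∀ i j, Smooth (fun x => K x i j)) (hK' : ∀ i j, Smooth (fun x => K' x i j))
    (h : ∀ y, R₀ ≤ len y → g y = g' y) (hKK : ∀ y, R₀ ≤ len y → K y = K' y)
    {x : E n} (hx : R₀ ≤ len x) (hd : (mat g x).det ≠ 0) (j : Fin n) :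
    mom g K j x = mom g' K' j x := by
  have hd' : (mat g' x).det ≠ 0 := by
    have : mat g' x = mat g x := (h x hx).symm
    rwa [this]
  have h1 : ∀ a b c : Fin n, pd a (fun y => momT g K y b c) x =
      pd a (fun y => momT g' K' y b c) x :=
    fun a b c => pd_congr_outside hx
      ((contDiffAt_momT hg hK hd b c).differentiableAt (by norm_num))
      ((contDiffAt_momT hg' hK' hd' b c).differentiableAt (by norm_num))
      (fun y hy => momT_congr (h y hy) (hKK y hy) b c) a
  unfold mom
  simp only [up_congr (h x hx), h1, chr_congr hg hg' h hx, momT_congr (h x hx) (hKK x hx)]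

lemma scal_congr (hg : ∀ i j, Smooth (fun x => g x i j)) (hg' : ∀ i j, Smooth (fun x => g' x i j))
    (h : ∀ y, R₀ ≤ len y → g y = g' y) {x : E n} (hx : R₀ ≤ len x) (hd : (mat g x).det ≠ 0) :
    scal g x = scal g' x := by
  have hd' : (mat g' x).det ≠ 0 := by
    have : mat g' x = mat g x := (h x hx).symm
    rwa [this]
  have h1 : ∀ a k i j : Fin n, pd a (chr g k i j) x = pd a (chr g' k i j) x :=
    fun a k i j => pd_congr_outside hx
      ((contDiffAt_chr hg hd k i j).differentiableAt (by norm_num))
      ((contDiffAt_chr hg' hd' k i j).differentiableAt (by norm_num))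
      (fun y hy => chr_congr hg hg' h hy k i j) a
  unfold scal
  simp only [up_congr (h x hx), h1, chr_congr hg hg' h hx]

lemma covNorm_congr {x : E n} (h : g x = g' x) {w w' : Fin n → E n → ℝ}
    (hw : ∀ i, w i x = w' i x) : covNorm g w x = covNorm g' w' x := by
  unfold covNorm
  simp only [up_congr h, hw]

lemma smooth_pull {B : Matrix (Fin n) (Fin n) ℝ} (hK : ∀ i j, Smooth (fun x => K x i j))
    (i j : Fin n) : Smooth (fun x => pull B K x i j) := by
  unfold pull R2 R
  exact ContDiff.sum fun p _ => contDiff_const.mul (ContDiff.sum fun q _ =>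
    contDiff_const.mul ((hK p q).comp (smooth_act B)))

lemma det_pull {B : Matrix (Fin n) (Fin n) ℝ} (hB : Bᵀ * B = 1) {x : E n}
    (hd : (mat g (act B x)).det ≠ 0) : (mat (pull B g) x).det ≠ 0 := by
  rw [mat_pull, Matrix.det_mul, Matrix.det_mul, Matrix.det_transpose]
  have h1 : B.det ≠ 0 := by
    intro h0
    have := congrArg Matrix.det hB
    rw [Matrix.det_mul, h0, mul_zero, Matrix.det_one] at this
    exact zero_ne_one this
  exact mul_ne_zero (mul_ne_zero h1 hd) h1

end Vale.Agent.H318
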