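import Vale.Agent.P366.R2.H318.Av
import Vale.Agent.P366.R2.H318.Congr

/-! Averages of the geometric quantities. -/

open MeasureTheory Metric Filter Topology Set
open scoped ContDiff Matrix

noncomputable section
namespace Vale.Agent.H318
open Vale.Agent.P366.Stmt Vale.Agent.P366.T2 Vale.Agent.T4

variable {n : ℕ} {H : Type} [TopologicalSpace H] [CompactSpace H] [MeasurableSpace H]
  [BorelSpace H] [SecondCountableTopology H] {μ : Measure H} [IsProbabilityMeasure μ]
  {b : H → Matrix (Fin n) (Fin n) ℝ} (hb : Continuous b)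
  {g K : Field n} (hg : ∀ i j, Smooth (fun x => g x i j)) (hK : ∀ i j, Smooth (fun x => K x i j))

include hb hK

omit [SecondCountableTopology H] in
lemma Av_tr (x : E n) : Av μ (fun h => tr g (pull (b h) K) x) (tr g (avg μ b K) x) := by
  unfold tr
  exact Av.sum _ fun i => Av.sum _ fun j => (Av_pull hb hK x i j).cmul _

omit [SecondCountableTopology H] in
lemma Av_momT (x : E n) (i j : Fin n) :
    Av μ (fun h => momT g (pull (b h) K) x i j) (momT g (avg μ b K) x i j) := by
  unfold momT
  exact (Av_pull hb hK x i j).sub ((Av_tr hb hK x).mulc _)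

omit [SecondCountableTopology H] in
lemma Av_trS (F : E n → ℝ) (x : E n) :
    Av μ (fun h => trS g (pull (b h) K) F x) (trS g (avg μ b K) F x) := by
  unfold trS
  exact (Av_tr hb hK x).sub (Av.sum _ fun i => Av.sum _ fun j =>
    ((Av_pull hb hK x i j).mulc _).mulc _)

omit [SecondCountableTopology H] in
lemma Av_theta (F : E n → ℝ) (x : E n) :
    Av μ (fun h => thetaPlus g (pull (b h) K) F x) (thetaPlus g (avg μ b K) F x) := by
  unfold thetaPlus
  exact (Av.const _).add (Av_trS hb hK F x)

include hg

omit hb [TopologicalSpace H] [CompactSpace H] [MeasurableSpace H]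
  [BorelSpace H] [SecondCountableTopology H] in
lemma pd_momT {x : E n} (hd : (mat g x).det ≠ 0) (k i j : Fin n) :
    pd k (fun y => momT g K y i j) x = pd k (fun y => K y i j) x -
      ((∑ a, ∑ c, (pd k (up g a c) x * K x a c + up g a c x * pd k (fun y => K y a c) x)) *
        g x i j + tr g K x * pd k (fun y => g y i j) x) := by
  have hKd : ∀ a c, HP k (fun y => K y a c) (pd k (fun y => K y a c) x) x := fun a c =>
    HP.of_diff ((hK a c).differentiable (by norm_num) _)
  have hgd : HP k (fun y => g y i j) (pd k (fun y => g y i j) x) x :=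
    HP.of_diff ((hg i j).differentiable (by norm_num) _)
  have hud : ∀ a c, HP k (up g a c) (pd k (up g a c) x) x := fun a c =>
    HP.of_diff ((contDiffAt_up hg hd a c).differentiableAt (by norm_num))
  have htr : HP k (fun y => tr g K y)
      (∑ a, ∑ c, (pd k (up g a c) x * K x a c + up g a c x * pd k (fun y => K y a c) x)) x :=
    HP.sum _ fun a _ => HP.sum _ fun c _ => (hud a c).mul (hKd a c)
  exact ((hKd i j).sub (htr.mul hgd)).pd

lemma Av_pd_momT {x : E n} (hd : (mat g x).det ≠ 0) (k i j : Fin n) :
    Av μ (fun h => pd k (fun y => momT g (pull (b h) K) y i j) x)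
      (pd k (fun y => momT g (avg μ b K) y i j) x) := by
  rw [pd_momT hg (smooth_avg hb hK) hd]
  have e : (fun h => pd k (fun y => momT g (pull (b h) K) y i j) x) = fun h =>
      pd k (fun y => pull (b h) K y i j) x -
      ((∑ a, ∑ c, (pd k (up g a c) x * pull (b h) K x a c +
        up g a c x * pd k (fun y => pull (b h) K y a c) x)) *
        g x i j + tr g (pull (b h) K) x * pd k (fun y => g y i j) x) :=
    funext fun h => pd_momT hg (smooth_pull hK) hd k i j
  rw [e]
  exact (Av_pd hb hK x i j k).sub (((Av.sum _ fun a => Av.sum _ fun c =>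
    ((Av_pull hb hK x a c).cmul _).add ((Av_pd hb hK x a c k).cmul _)).mulc _).add
      ((Av_tr hb hK x).mulc _))

lemma Av_mom {x : E n} (hd : (mat g x).det ≠ 0) (j : Fin n) :
    Av μ (fun h => mom g (pull (b h) K) j x) (mom g (avg μ b K) j x) := by
  unfold mom
  exact Av.sum _ fun i => Av.sum _ fun k => ((Av_pd_momT hb hg hK hd k i j).sub
    (Av.sum _ fun l => ((Av_momT hb hK x l j).cmul _).add ((Av_momT hb hK x i l).cmul _))).cmul _

end Vale.Agent.H318
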