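import Vale.Agent.P366.R2.H318.AvGeo

/-! Averages of the norms. -/

open MeasureTheory Metric Filter Topology Set
open scoped ContDiff Matrix MatrixOrder ComplexOrder

noncomputable section
namespace Vale.Agent.H318
open Vale.Agent.P366.Stmt Vale.Agent.P366.T2 Vale.Agent.T4

variable {n : ℕ} {g : Field n} {x : E n}

lemma gram (hpd : (mat g x).PosDef) :
    ∃ V : Matrix (Fin n) (Fin n) ℝ, ∀ i j, up g i j x = ∑ a, V a i * V a j := by
  have h0 : (0 : Matrix (Fin n) (Fin n) ℝ) ≤ (mat g x)⁻¹ :=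
    Matrix.nonneg_iff_posSemidef.2 hpd.inv.posSemidef
  obtain ⟨V, hV⟩ := CStarAlgebra.nonneg_iff_eq_star_mul_self.1 h0
  refine ⟨V, fun i j => ?_⟩
  have := congrFun (congrFun hV i) j
  rw [Matrix.mul_apply] at this
  exact this

lemma cov_gram {V : Matrix (Fin n) (Fin n) ℝ} (hV : ∀ i j, up g i j x = ∑ a, V a i * V a j)
    (w : Fin n → E n → ℝ) :
    covNorm g w x = ‖(WithLp.toLp 2 (fun a => ∑ i, V a i * w i x) : E n)‖ := by
  unfold covNorm
  rw [EuclideanSpace.norm_eq]
  congr 1
  simp only [Real.norm_eq_abs, sq_abs, hV]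
  have e : ∀ a, (∑ i, V a i * w i x) ^ 2 = ∑ i, ∑ j, V a i * V a j * w i x * w j x := by
    intro a
    rw [sq, Finset.sum_mul_sum]
    exact Finset.sum_congr rfl fun i _ => Finset.sum_congr rfl fun j _ => by ring
  simp only [e, Finset.sum_mul]
  conv_rhs => rw [Finset.sum_comm]
  refine Finset.sum_congr rfl fun i _ => ?_
  rw [Finset.sum_comm]

/-- the component `(a, c)` of `T` in the frame `V` -/
def fr (V : Matrix (Fin n) (Fin n) ℝ) (T : Fin n → Fin n → ℝ) (a c : Fin n) : ℝ :=
  ∑ i, ∑ j, T i j * (V a i * V c j)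

lemma normSq_gram {V : Matrix (Fin n) (Fin n) ℝ} (hV : ∀ i j, up g i j x = ∑ a, V a i * V a j)
    (K : Field n) : normSq g K x = ∑ a, ∑ c, fr V (K x) a c ^ 2 := by
  unfold normSq fr
  simp only [hV]
  have e : ∀ a c, (∑ i, ∑ j, K x i j * (V a i * V c j)) ^ 2 = ∑ i, ∑ j, ∑ k, ∑ l,
      (V a i * V a k) * (V c j * V c l) * K x i j * K x k l := by
    intro a c
    rw [sq, Finset.sum_mul]
    refine Finset.sum_congr rfl fun i _ => ?_
    rw [Finset.sum_mul]
    refine Finset.sum_congr rfl fun j _ => ?_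
    rw [Finset.mul_sum]
    refine Finset.sum_congr rfl fun k _ => ?_
    rw [Finset.mul_sum]
    exact Finset.sum_congr rfl fun l _ => by ring
  simp only [e]
  -- move the sums over `a`, `c` inside
  have s1 : ∀ (F : Fin n → Fin n → Fin n → Fin n → Fin n → Fin n → ℝ),
      ∑ a, ∑ c, ∑ i, ∑ j, ∑ k, ∑ l, F a c i j k l = ∑ i, ∑ j, ∑ k, ∑ l, ∑ a, ∑ c, F a c i j k l := by
    intro F
    have h2 : ∀ (G : Fin n → Fin n → Fin n → ℝ), ∑ a, ∑ c, ∑ i, G a c i = ∑ i, ∑ a, ∑ c, G a c i := by
      intro G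
      rw [Finset.sum_comm' (s := Finset.univ) (t := fun _ => Finset.univ) (t' := Finset.univ)
        (s' := fun _ => Finset.univ) (by simp)]
      have h3 : ∀ c, ∑ a, ∑ i, G a c i = ∑ i, ∑ a, G a c i := fun c => Finset.sum_comm
      simp only [h3]
      rw [Finset.sum_comm]
      exact Finset.sum_congr rfl fun i _ => Finset.sum_comm
    rw [h2]
    refine Finset.sum_congr rfl fun i _ => ?_
    rw [h2]
    refine Finset.sum_congr rfl fun j _ => ?_
    rw [h2]
    refine Finset.sum_congr rfl fun k _ => ?_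
    rw [h2]
  rw [s1]
  refine Finset.sum_congr rfl fun i _ => Finset.sum_congr rfl fun j _ =>
    Finset.sum_congr rfl fun k _ => Finset.sum_congr rfl fun l _ => ?_
  rw [Finset.sum_mul_sum]
  simp only [Finset.sum_mul]

lemma normSq_nonneg' (hpd : (mat g x).PosDef) (K : Field n) : 0 ≤ normSq g K x := by
  obtain ⟨V, hV⟩ := gram hpd
  rw [normSq_gram hV]
  positivity

variable {H : Type} [TopologicalSpace H] [CompactSpace H] [MeasurableSpace H]
  [BorelSpace H] {μ : Measure H} [IsProbabilityMeasure μ]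

/-- Jensen's inequality for the norm of a covector -/
lemma cov_jensen (hpd : (mat g x).PosDef) {w : H → Fin n → ℝ} {W : Fin n → ℝ}
    (hw : ∀ i, Av μ (fun h => w h i) (W i)) :
    ∃ C, Av μ (fun h => covNorm g (fun i _ => w h i) x) C ∧ covNorm g (fun i _ => W i) x ≤ C := by
  obtain ⟨V, hV⟩ := gram hpd
  have hc : ∀ a, Av μ (fun h => ∑ i, V a i * w h i) (∑ i, V a i * W i) := fun a =>
    Av.sum _ fun i => (hw i).cmul _
  let v : H → E n := fun h => WithLp.toLp 2 (fun a => ∑ i, V a i * w h i)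
  have hv : Continuous v := (PiLp.continuous_toLp 2 _).comp (continuous_pi fun a => (hc a).cont)
  have hvi : Integrable v μ :=
    hv.integrable_of_hasCompactSupport (HasCompactSupport.of_compactSpace v)
  have h1 : (∫ h, v h ∂μ) = WithLp.toLp 2 (fun a => ∑ i, V a i * W i) := by
    ext a
    have h2 := (EuclideanSpace.proj a : E n →L[ℝ] ℝ).integral_comp_comm hvi
    have h3 : (∫ h, v h ∂μ) a = ∫ h, (v h) a ∂μ := h2.symm
    rw [h3]
    exact (hc a).eq.symm
  refine ⟨∫ h, ‖v h‖ ∂μ, ⟨?_, ?_⟩, ?_⟩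
  · simp only [cov_gram hV]
    exact hv.norm
  · simp only [cov_gram hV]
    rfl
  · rw [cov_gram hV, ← h1]
    exact norm_integral_le_integral_norm _

/-- the variance of a tensor -/
lemma normSq_var (hpd : (mat g x).PosDef) {T : H → Field n} {W : Field n}
    (hw : ∀ i j, Av μ (fun h => T h x i j) (W x i j)) :
    ∃ G, Av μ (fun h => normSq g (T h) x) (normSq g W x + G) ∧
      Av μ (fun h => normSq g (fun y i j => T h y i j - W y i j) x) G := by
  obtain ⟨V, hV⟩ := gram hpd
  have hc : ∀ a c, Av μ (fun h => fr V (T h x) a c) (fr V (W x) a c) := fun a c =>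
    Av.sum _ fun i => Av.sum _ fun j => (hw i j).mulc _
  choose G hG1 hG2 using fun a c => (hc a c).var
  refine ⟨∑ a, ∑ c, G a c, ?_, ?_⟩
  · simp only [normSq_gram hV]
    have h1 := Av.sum (μ := μ) Finset.univ fun a => Av.sum Finset.univ fun c => hG1 a c
    simp only [Finset.sum_add_distrib] at h1
    exact h1
  · simp only [normSq_gram hV]
    have h1 := Av.sum (μ := μ) Finset.univ fun a => Av.sum Finset.univ fun c => hG2 a c
    have e : ∀ h a c, fr V (fun i j => T h x i j - W x i j) a c = fr V (T h x) a c - fr V (W x) a c := by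
      intro h a c
      unfold fr
      simp only [sub_mul, Finset.sum_sub_distrib]
    simp only [e]
    exact h1

end Vale.Agent.H318
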