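import Mathlib.Tactic

/-! Certificates for the quadratic forms in dimension three. -/

namespace Vale.Agent.H318

/-- a quadratic form in three variables -/
lemma form3 {a b d c e f : ℝ} (ha : 0 < a) (hp : 0 < a * c - b ^ 2)
    (hD : 0 ≤ (a * c - b ^ 2) * (a * f - d ^ 2) - (a * e - b * d) ^ 2) (m X v : ℝ) :
    0 ≤ a * m ^ 2 + 2 * (b * X + d * v) * m + c * X ^ 2 + 2 * e * X * v + f * v ^ 2 := by
  have h1 : 0 ≤ (a * c - b ^ 2) *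
      ((a * c - b ^ 2) * X ^ 2 + 2 * (a * e - b * d) * X * v + (a * f - d ^ 2) * v ^ 2) := by
    have e1 : (a * c - b ^ 2) *
        ((a * c - b ^ 2) * X ^ 2 + 2 * (a * e - b * d) * X * v + (a * f - d ^ 2) * v ^ 2) =
        ((a * c - b ^ 2) * X + (a * e - b * d) * v) ^ 2 +
        ((a * c - b ^ 2) * (a * f - d ^ 2) - (a * e - b * d) ^ 2) * v ^ 2 := by ring
    rw [e1]
    exact add_nonneg (sq_nonneg _) (mul_nonneg hD (sq_nonneg _))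
  have h2 := nonneg_of_mul_nonneg_right h1 hp
  have h3 : 0 ≤ a * (a * m ^ 2 + 2 * (b * X + d * v) * m + c * X ^ 2 + 2 * e * X * v +
      f * v ^ 2) := by
    have e2 : a * (a * m ^ 2 + 2 * (b * X + d * v) * m + c * X ^ 2 + 2 * e * X * v +
      f * v ^ 2) = (a * m + b * X + d * v) ^ 2 +
        ((a * c - b ^ 2) * X ^ 2 + 2 * (a * e - b * d) * X * v + (a * f - d ^ 2) * v ^ 2) := by
      ring
    rw [e2]
    exact add_nonneg (sq_nonneg _) h2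
  exact nonneg_of_mul_nonneg_right h3 ha

/-- a quadratic form in two variables -/
lemma form2 {p r s : ℝ} (hp : 0 < p) (hD : 0 ≤ p * s - r ^ 2) (X v : ℝ) :
    0 ≤ p * X ^ 2 + 2 * r * X * v + s * v ^ 2 := by
  have h1 : 0 ≤ p * (p * X ^ 2 + 2 * r * X * v + s * v ^ 2) := by
    have e1 : p * (p * X ^ 2 + 2 * r * X * v + s * v ^ 2) =
        (p * X + r * v) ^ 2 + (p * s - r ^ 2) * v ^ 2 := by ring
    rw [e1]
    exact add_nonneg (sq_nonneg _) (mul_nonneg hD (sq_nonneg _))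
  exact nonneg_of_mul_nonneg_right h1 hp

/-- first certificate -/
lemma cp {V : ℝ} (h0 : 0 < V) (h1 : V < 1) (m X v : ℝ) :
    0 ≤ (4 + 8 * V + 4 * V ^ 2) * m ^ 2 +
      2 * ((2 * V + 12 * V ^ 2 + 126 * V ^ 3 - 72 * V ^ 4 + 110 * V ^ 5 - 68 * V ^ 6 + 18 * V ^
        7) * X +
        (2 * V - 16 * V ^ 2 + 28 * V ^ 3 - 32 * V ^ 4 + 18 * V ^ 5) * v) * m +
      (14 + 108 * V + 504 * V ^ 2 - 230 * V ^ 3 - 340 * V ^ 4 + 1048 * V ^ 5 + 32 * V ^ 6 - 540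
        * V ^ 7 + 406 * V ^ 8 + 108 * V ^ 9 - 104 * V ^ 10 + 18 * V ^ 11) * X ^ 2 +
      2 * (-10 - 52 * V + 130 * V ^ 2 + 122 * V ^ 3 - 298 * V ^ 4 - 70 * V ^ 5 + 246 * V ^ 6 -
        18 * V ^ 7 - 68 * V ^ 8 + 18 * V ^ 9) * X * v +
      (14 - 20 * V - 44 * V ^ 2 + 74 * V ^ 3 + 62 * V ^ 4 - 72 * V ^ 5 - 32 * V ^ 6 + 18 * V ^
        7) * v ^ 2 := by
  obtain ⟨w, hw⟩ : ∃ w, w = 1 - V := ⟨_, rfl⟩
  have hw0 : 0 < w := by rw [hw]; linarith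
  refine form3 (by positivity) ?_ ?_ m X v
  · have e1 : (4 + 8 * V + 4 * V ^ 2) * (14 + 108 * V + 504 * V ^ 2 - 230 * V ^ 3 - 340 * V ^ 4
    + 1048 * V ^ 5 + 32 * V ^ 6 - 540 * V ^ 7 + 406 * V ^ 8 + 108 * V ^ 9 - 104 * V ^ 10 + 18 *
    V ^ 11) -
        (2 * V + 12 * V ^ 2 + 126 * V ^ 3 - 72 * V ^ 4 + 110 * V ^ 5 - 68 * V ^ 6 + 18 * V ^ 7)
          ^ 2 =
      w * (56 * w ^ 13 + 1328 * V * w ^ 12 + 15100 * V ^ 2 * w ^ 11 + 101496 * V ^ 3 * w ^ 10 +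
        441776 * V ^ 4 * w ^ 9 + 1317888 * V ^ 5 * w ^ 8 + 2786944 * V ^ 6 * w ^ 7 + 4261632 * V
        ^ 7 * w ^ 6 + 4742144 * V ^ 8 * w ^ 5 + 3806208 * V ^ 9 * w ^ 4 + 2139136 * V ^ 10 * w ^
        3 + 792576 * V ^ 11 * w ^ 2 + 172032 * V ^ 12 * w + 16384 * V ^ 13) := by
      rw [hw]; ring
    rw [e1]
    positivity
  · have e1 : ((4 + 8 * V + 4 * V ^ 2) * (14 + 108 * V + 504 * V ^ 2 - 230 * V ^ 3 - 340 * V ^ 4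
    + 1048 * V ^ 5 + 32 * V ^ 6 - 540 * V ^ 7 + 406 * V ^ 8 + 108 * V ^ 9 - 104 * V ^ 10 + 18 *
    V ^ 11) -
        (2 * V + 12 * V ^ 2 + 126 * V ^ 3 - 72 * V ^ 4 + 110 * V ^ 5 - 68 * V ^ 6 + 18 * V ^ 7)
          ^ 2) *
        ((4 + 8 * V + 4 * V ^ 2) * (14 - 20 * V - 44 * V ^ 2 + 74 * V ^ 3 + 62 * V ^ 4 - 72 * V
          ^ 5 - 32 * V ^ 6 + 18 * V ^ 7) -
        (2 * V - 16 * V ^ 2 + 28 * V ^ 3 - 32 * V ^ 4 + 18 * V ^ 5) ^ 2) -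
        ((4 + 8 * V + 4 * V ^ 2) * (-10 - 52 * V + 130 * V ^ 2 + 122 * V ^ 3 - 298 * V ^ 4 - 70
          * V ^ 5 + 246 * V ^ 6 - 18 * V ^ 7 - 68 * V ^ 8 + 18 * V ^ 9) -
        (2 * V + 12 * V ^ 2 + 126 * V ^ 3 - 72 * V ^ 4 + 110 * V ^ 5 - 68 * V ^ 6 + 18 * V ^ 7) *
        (2 * V - 16 * V ^ 2 + 28 * V ^ 3 - 32 * V ^ 4 + 18 * V ^ 5)) ^ 2 =
      w ^ 2 * (1536 * w ^ 18 + 39936 * V * w ^ 17 + 554496 * V ^ 2 * w ^ 16 + 5174784 * V ^ 3 *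
        w ^ 15 + 34319872 * V ^ 4 * w ^ 14 + 165625856 * V ^ 5 * w ^ 13 + 591911936 * V ^ 6 * w
        ^ 12 + 1588738048 * V ^ 7 * w ^ 11 + 3239821312 * V ^ 8 * w ^ 10 + 5082890240 * V ^ 9 *
        w ^ 9 + 6270304256 * V ^ 10 * w ^ 8 + 6352830464 * V ^ 11 * w ^ 7 + 5644353536 * V ^ 12
        * w ^ 6 + 4576509952 * V ^ 13 * w ^ 5 + 3226730496 * V ^ 14 * w ^ 4 + 1764753408 * V ^
        15 * w ^ 3 + 658505728 * V ^ 16 * w ^ 2 + 142606336 * V ^ 17 * w + 12582912 * V ^ 18) :=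
        by
      rw [hw]; ring
    rw [e1]
    positivity

end Vale.Agent.H318
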