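import Vale.Agent.P366.R2.H318.Cert

/-! Certificates for the quadratic forms in dimension three. -/

namespace Vale.Agent.H318

/-- second certificate -/
lemma cm {V : ℝ} (h0 : 0 < V) (h1 : V < 1) (m X v : ℝ) :
    0 ≤ (4 + 8 * V + 4 * V ^ 2) * m ^ 2 +
      2 * ((12 * V + 60 * V ^ 2 + 104 * V ^ 3 - 152 * V ^ 4 + 140 * V ^ 5 - 36 * V ^ 6) * X +
        (-12 * V - 12 * V ^ 2 + 60 * V ^ 3 - 36 * V ^ 4) * v) * m +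
      (14 + 108 * V + 504 * V ^ 2 - 230 * V ^ 3 - 340 * V ^ 4 + 1048 * V ^ 5 + 32 * V ^ 6 - 540
        * V ^ 7 + 406 * V ^ 8 + 108 * V ^ 9 - 104 * V ^ 10 + 18 * V ^ 11) * X ^ 2 +
      2 * (-10 - 52 * V + 130 * V ^ 2 + 122 * V ^ 3 - 298 * V ^ 4 - 70 * V ^ 5 + 246 * V ^ 6 -
        18 * V ^ 7 - 68 * V ^ 8 + 18 * V ^ 9) * X * v +
      (14 - 20 * V - 44 * V ^ 2 + 74 * V ^ 3 + 62 * V ^ 4 - 72 * V ^ 5 - 32 * V ^ 6 + 18 * V ^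
        7) * v ^ 2 := by
  obtain ⟨w, hw⟩ : ∃ w, w = 1 - V := ⟨_, rfl⟩
  have hw0 : 0 < w := by rw [hw]; linarith
  refine form3 (by positivity) ?_ ?_ m X v
  · have e1 : (4 + 8 * V + 4 * V ^ 2) * (14 + 108 * V + 504 * V ^ 2 - 230 * V ^ 3 - 340 * V ^ 4
    + 1048 * V ^ 5 + 32 * V ^ 6 - 540 * V ^ 7 + 406 * V ^ 8 + 108 * V ^ 9 - 104 * V ^ 10 + 18 *
    V ^ 11) -
        (12 * V + 60 * V ^ 2 + 104 * V ^ 3 - 152 * V ^ 4 + 140 * V ^ 5 - 36 * V ^ 6) ^ 2 =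
      w ^ 2 * (56 * w ^ 11 + 1272 * V * w ^ 10 + 13688 * V ^ 2 * w ^ 9 + 84736 * V ^ 3 * w ^ 8 +
        327040 * V ^ 4 * w ^ 7 + 822912 * V ^ 5 * w ^ 6 + 1383680 * V ^ 6 * w ^ 5 + 1583616 * V
        ^ 7 * w ^ 4 + 1234944 * V ^ 8 * w ^ 3 + 636928 * V ^ 9 * w ^ 2 + 198656 * V ^ 10 * w +
        28672 * V ^ 11) := by
      rw [hw]; ring
    rw [e1]
    positivity
  · have e1 : ((4 + 8 * V + 4 * V ^ 2) * (14 + 108 * V + 504 * V ^ 2 - 230 * V ^ 3 - 340 * V ^ 4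
    + 1048 * V ^ 5 + 32 * V ^ 6 - 540 * V ^ 7 + 406 * V ^ 8 + 108 * V ^ 9 - 104 * V ^ 10 + 18 *
    V ^ 11) -
        (12 * V + 60 * V ^ 2 + 104 * V ^ 3 - 152 * V ^ 4 + 140 * V ^ 5 - 36 * V ^ 6) ^ 2) *
        ((4 + 8 * V + 4 * V ^ 2) * (14 - 20 * V - 44 * V ^ 2 + 74 * V ^ 3 + 62 * V ^ 4 - 72 * V
          ^ 5 - 32 * V ^ 6 + 18 * V ^ 7) -
        (-12 * V - 12 * V ^ 2 + 60 * V ^ 3 - 36 * V ^ 4) ^ 2) -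
        ((4 + 8 * V + 4 * V ^ 2) * (-10 - 52 * V + 130 * V ^ 2 + 122 * V ^ 3 - 298 * V ^ 4 - 70
          * V ^ 5 + 246 * V ^ 6 - 18 * V ^ 7 - 68 * V ^ 8 + 18 * V ^ 9) -
        (12 * V + 60 * V ^ 2 + 104 * V ^ 3 - 152 * V ^ 4 + 140 * V ^ 5 - 36 * V ^ 6) *
        (-12 * V - 12 * V ^ 2 + 60 * V ^ 3 - 36 * V ^ 4)) ^ 2 =
      w ^ 3 * (1536 * w ^ 18 + 41472 * V * w ^ 17 + 590592 * V ^ 2 * w ^ 16 + 5631744 * V ^ 3 *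
        w ^ 15 + 38159104 * V ^ 4 * w ^ 14 + 187521792 * V ^ 5 * w ^ 13 + 675828736 * V ^ 6 * w
        ^ 12 + 1795132416 * V ^ 7 * w ^ 11 + 3500840960 * V ^ 8 * w ^ 10 + 4923899904 * V ^ 9 *
        w ^ 9 + 4780097536 * V ^ 10 * w ^ 8 + 2882732032 * V ^ 11 * w ^ 7 + 793083904 * V ^ 12 *
        w ^ 6 + 92209152 * V ^ 13 * w ^ 5 + 535035904 * V ^ 14 * w ^ 4 + 848560128 * V ^ 15 * w
        ^ 3 + 586153984 * V ^ 16 * w ^ 2 + 203423744 * V ^ 17 * w + 29360128 * V ^ 18) := by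
      rw [hw]; ring
    rw [e1]
    positivity

/-- third certificate -/
lemma cg {V : ℝ} (h0 : 0 < V) (h1 : V < 1) (X v : ℝ) :
    0 ≤ (266 + 1786 * V + 7918 * V ^ 2 - 12202 * V ^ 3 + 1922 * V ^ 4 + 11674 * V ^ 5 - 14038 *
      V ^ 6 + 2 * V ^ 7 + 3932 * V ^ 8 - 1260 * V ^ 9) * X ^ 2 +
      2 * (-190 - 798 * V + 3396 * V ^ 2 - 280 * V ^ 3 - 5302 * V ^ 4 + 2338 * V ^ 5 + 2096 * V
        ^ 6 - 1260 * V ^ 7) * X * v +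
      (266 - 646 * V - 366 * V ^ 2 + 2066 * V ^ 3 + 260 * V ^ 4 - 1260 * V ^ 5) * v ^ 2 := by
  obtain ⟨w, hw⟩ : ∃ w, w = 1 - V := ⟨_, rfl⟩
  have hw0 : 0 < w := by rw [hw]; linarith
  refine form2 ?_ ?_ X v
  · have e1 : 266 + 1786 * V + 7918 * V ^ 2 - 12202 * V ^ 3 + 1922 * V ^ 4 + 11674 * V ^ 5 -
    14038 * V ^ 6 + 2 * V ^ 7 + 3932 * V ^ 8 - 1260 * V ^ 9 =
      w * (266 * w ^ 8 + 4180 * V * w ^ 7 + 31782 * V ^ 2 * w ^ 6 + 115576 * V ^ 3 * w ^ 5 +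
        228520 * V ^ 4 * w ^ 4 + 273920 * V ^ 5 * w ^ 3 + 207328 * V ^ 6 * w ^ 2 + 89984 * V ^ 7
        * w + 17024 * V ^ 8) := by
      rw [hw]; ring
    rw [e1]
    positivity
  · have e1 : (266 + 1786 * V + 7918 * V ^ 2 - 12202 * V ^ 3 + 1922 * V ^ 4 + 11674 * V ^ 5 -
    14038 * V ^ 6 + 2 * V ^ 7 + 3932 * V ^ 8 - 1260 * V ^ 9) *
        (266 - 646 * V - 366 * V ^ 2 + 2066 * V ^ 3 + 260 * V ^ 4 - 1260 * V ^ 5) -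
        (-190 - 798 * V + 3396 * V ^ 2 - 280 * V ^ 3 - 5302 * V ^ 4 + 2338 * V ^ 5 + 2096 * V ^
          6 - 1260 * V ^ 7) ^ 2 =
      w * (34656 * w ^ 11 + 415872 * V * w ^ 10 + 3796048 * V ^ 2 * w ^ 9 + 19560576 * V ^ 3 * w
        ^ 8 + 51947520 * V ^ 4 * w ^ 7 + 74280576 * V ^ 5 * w ^ 6 + 74543232 * V ^ 6 * w ^ 5 +
        103350272 * V ^ 7 * w ^ 4 + 152768512 * V ^ 8 * w ^ 3 + 132378624 * V ^ 9 * w ^ 2 +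
        52258816 * V ^ 10 * w + 5447680 * V ^ 11) := by
      rw [hw]; ring
    rw [e1]
    positivity

end Vale.Agent.H318
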