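import Vale.Agent.P366.R2.H318.Theta

/-! Regularity of the normal of the centred spheres. -/

open MeasureTheory Metric Filter Topology Set
open scoped ContDiff Matrix

noncomputable section
namespace Vale.Agent.H318
open Vale.Agent.P366.Stmt Vale.Agent.P366.T2 Vale.Agent.T4
open Vale.Agent.C92 (pd_congr_outside pd_len trS_def covNorm_pos)

variable {n : ℕ} {g K : Field n} {x : E n}

lemma contDiffAt_pd_len (hx : x ≠ 0) (l : Fin n) : ContDiffAt ℝ ∞ (pd l (len : E n → ℝ)) x := by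
  have h1 : pd l len =ᶠ[𝓝 x] fun y => Vale.Agent.P366.Nc l y := by
    filter_upwards [isOpen_ne.mem_nhds hx] with y hy
    rw [pd_len hy]; rfl
  exact (Vale.Agent.P366.contDiffAt_Nc l hx).congr_of_eventuallyEq h1

lemma pd_len_ne (hx : x ≠ 0) : ∃ i, pd i (len : E n → ℝ) x ≠ 0 := by
  by_contra hcon
  push Not at hcon
  apply hx
  ext i
  have h1 := hcon i
  rw [pd_len hx, div_eq_zero_iff] at h1
  exact h1.resolve_right (norm_ne_zero_iff.2 hx)

lemma cov_len_pos (hx : x ≠ 0) (hpd : (mat g x).PosDef) :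
    0 < covNorm g (fun j => pd j len) x := covNorm_pos hpd (pd_len_ne hx)

lemma contDiffAt_cov_len (hg : ∀ i j, Smooth (fun x => g x i j)) (hx : x ≠ 0)
    (hpd : (mat g x).PosDef) : ContDiffAt ℝ ∞ (covNorm g (fun j => pd j len)) x := by
  unfold covNorm
  refine ContDiffAt.sqrt (ContDiffAt.sum fun i _ => ContDiffAt.sum fun j _ =>
    ((contDiffAt_up hg hpd.det_pos.ne' i j).mul (contDiffAt_pd_len hx i)).mul
      (contDiffAt_pd_len hx j)) ?_
  have h1 := cov_len_pos (g := g) hx hpd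
  intro h0
  unfold covNorm at h1
  rw [h0, Real.sqrt_zero] at h1
  exact lt_irrefl _ h1

lemma contDiffAt_nrm (hg : ∀ i j, Smooth (fun x => g x i j)) (hx : x ≠ 0)
    (hpd : (mat g x).PosDef) (i : Fin n) : ContDiffAt ℝ ∞ (nrm g len i) x := by
  unfold nrm
  exact (ContDiffAt.sum fun j _ => (contDiffAt_up hg hpd.det_pos.ne' i j).mul
    (contDiffAt_pd_len hx j)).div (contDiffAt_cov_len hg hx hpd) (cov_len_pos hx hpd).ne'

lemma contDiffAt_trK (hg : ∀ i j, Smooth (fun x => g x i j)) (hK : ∀ i j, Smooth (fun x => K x i j))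
    (hpd : (mat g x).PosDef) : ContDiffAt ℝ ∞ (tr g K) x := by
  unfold tr
  exact ContDiffAt.sum fun i _ => ContDiffAt.sum fun j _ =>
    (contDiffAt_up hg hpd.det_pos.ne' i j).mul (hK i j).contDiffAt

lemma contDiffAt_Knn (hg : ∀ i j, Smooth (fun x => g x i j))
    (hK : ∀ i j, Smooth (fun x => K x i j)) (hx : x ≠ 0) (hpd : (mat g x).PosDef) :
    ContDiffAt ℝ ∞ (fun x => ∑ i, ∑ j, K x i j * nrm g len i x * nrm g len j x) x :=
  ContDiffAt.sum fun i _ => ContDiffAt.sum fun j _ =>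
    (((hK i j).contDiffAt).mul (contDiffAt_nrm hg hx hpd i)).mul (contDiffAt_nrm hg hx hpd j)

lemma contDiffAt_trS (hg : ∀ i j, Smooth (fun x => g x i j))
    (hK : ∀ i j, Smooth (fun x => K x i j)) (hx : x ≠ 0) (hpd : (mat g x).PosDef) :
    ContDiffAt ℝ ∞ (trS g K len) x := by
  unfold trS
  exact (contDiffAt_trK hg hK hpd).sub (contDiffAt_Knn hg hK hx hpd)

lemma contDiffAt_normSq (hg : ∀ i j, Smooth (fun x => g x i j))
    (hK : ∀ i j, Smooth (fun x => K x i j)) (hpd : (mat g x).PosDef) :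
    ContDiffAt ℝ ∞ (normSq g K) x := by
  unfold normSq
  exact ContDiffAt.sum fun i _ => ContDiffAt.sum fun j _ => ContDiffAt.sum fun k _ =>
    ContDiffAt.sum fun l _ => (((contDiffAt_up hg hpd.det_pos.ne' i k).mul
      (contDiffAt_up hg hpd.det_pos.ne' j l)).mul (hK i j).contDiffAt).mul (hK k l).contDiffAt

end Vale.Agent.H318
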