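import Vale.Agent.P366.Stmt

/-! Definitions for the statement. -/

noncomputable section
namespace Vale.Agent.H318
open Vale.Agent.P366.Stmt

variable {n : ℕ}

/-- The mean of `f` over the centred coordinate sphere of radius `r`. -/
def mean (r : ℝ) (f : E n → ℝ) : ℝ := sphInt r f / sphInt r (fun _ : E n => 1)

/-- At some point of the boundary `{F = 0}` with `|x| = R`, the trace of `K` over the centred
sphere of radius `R` is at least its mean over this sphere. -/
def Touch (X : Exterior n) (R : ℝ) : Prop :=
  ∃ x, X.F x = 0 ∧ len x = R ∧ mean R (trS X.g X.K len) ≤ trS X.g X.K len x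

/-- `(tr K)² - |K|²`, so that `2 μ = R_g + sig`. -/
def sig (g K : Field n) (x : E n) : ℝ := tr g K x ^ 2 - normSq g K x

end Vale.Agent.H318
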