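import Vale.Agent.P366.R2.H318.Inv
import Vale.Agent.P366.T4.OutGen

/-! Covariance of the null expansion of the centred spheres. -/

open MeasureTheory Metric Filter Topology Set
open scoped ContDiff Matrix

noncomputable section
namespace Vale.Agent.H318
open Vale.Agent.P366.Stmt Vale.Agent.P366.T2 Vale.Agent.T4
open Vale.Agent.C92 (pd_congr_outside pd_len trS_def)

variable {n : ℕ} {B : Matrix (Fin n) (Fin n) ℝ}

lemma act_ne (hB : Bᵀ * B = 1) {x : E n} (hx : x ≠ 0) : act B x ≠ 0 := by
  have h1 : len (act B x) = len x := len_act hB x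
  intro h0
  have h2 : len x = 0 := by rw [← h1, h0]; exact norm_zero
  exact hx (norm_eq_zero.1 h2)

lemma diff_len {x : E n} (hx : x ≠ 0) : DifferentiableAt ℝ (len : E n → ℝ) x :=
  (contDiffAt_norm ℝ hx (n := 1)).differentiableAt (by norm_num)

lemma pd_len_act (hB : Bᵀ * B = 1) {x : E n} (hx : x ≠ 0) (k : Fin n) :
    pd k len x = R B (fun l => pd l len (act B x)) k := by
  have h1 := HP_act (B := B) (diff_len (act_ne hB hx)) k
  have h2 : (fun y : E n => len (act B y)) = len := funext fun y => len_act hB y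
  rw [h2] at h1
  exact h1.pd

lemma cov_len_pull (hB : Bᵀ * B = 1) (g : Field n) {x : E n} (hx : x ≠ 0) :
    covNorm (pull B g) (fun j => pd j len) x = covNorm g (fun j => pd j len) (act B x) :=
  covNorm_pull hB g _ _ x fun i => pd_len_act hB hx i

lemma nrm_len_pull (hB : Bᵀ * B = 1) (g : Field n) {x : E n} (hx : x ≠ 0) (i : Fin n) :
    nrm (pull B g) len i x = R B (fun p => nrm g len p (act B x)) i := by
  unfold nrm
  rw [cov_len_pull hB g hx]
  simp only [up_pull hB, pd_len_act hB hx]
  rw [ctr1 hB (fun p q => up g p q (act B x))]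
  rw [← R_divc]

lemma pd_pd_len_act (hB : Bᵀ * B = 1) {x : E n} (hx : x ≠ 0) (i j : Fin n) :
    pd i (pd j len) x = R2 B (fun p q => pd p (pd q len) (act B x)) i j := by
  have hd : ∀ l, DifferentiableAt ℝ (pd l len) (act B x) := by
    intro l
    have hx' := act_ne hB hx
    have h1 : pd l len =ᶠ[𝓝 (act B x)] fun y => Vale.Agent.P366.Nc l y := by
      filter_upwards [isOpen_ne.mem_nhds hx'] with y hy
      rw [pd_len hy]; rfl
    have h2 : DifferentiableAt ℝ (Vale.Agent.P366.Nc l) (act B x) :=
      (Vale.Agent.P366.contDiffAt_Nc (m := 1) l hx').differentiableAt (by norm_num)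
    exact h2.congr_of_eventuallyEq h1
  have h3 : HP i (fun y => R B (fun l => pd l len (act B y)) j)
      (R B (fun l => R B (fun m => pd m (pd l len) (act B x)) i) j) x :=
    HP_R fun l => HP_act (hd l) i
  have h4 : (fun y => R B (fun l => pd l len (act B y)) j) =ᶠ[𝓝 x] pd j len := by
    filter_upwards [isOpen_ne.mem_nhds hx] with y hy
    exact (pd_len_act hB hy j).symm
  rw [(h3.congr h4.symm).pd]
  exact R_comm B _ _ _

lemma hess_len_pull (hB : Bᵀ * B = 1) {g : Field n} (hg : ∀ i j, Smooth (fun x => g x i j))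
    {x : E n} (hx : x ≠ 0) (i j : Fin n) :
    hess (pull B g) len x i j = R2 B (hess g len (act B x)) i j := by
  unfold hess
  rw [pd_pd_len_act hB hx]
  have h1 : ∑ k, chr (pull B g) k i j x * pd k len x =
      R2 B (fun p q => ∑ k, chr g k p q (act B x) * pd k len (act B x)) i j := by
    simp only [chr_pull hB hg, pd_len_act hB hx]
    unfold R3
    rw [R_dot hB (fun p => R B (fun q => R B (fun r => chr g p q r (act B x)) j) i)]
    unfold R2
    simp only [R_sum, R_mulc]
  rw [h1]
  unfold R2
  simp only [R_sub]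

lemma Knn_pull (hB : Bᵀ * B = 1) (g : Field n) {T T' : Fin n → Fin n → ℝ} {x : E n} (hx : x ≠ 0)
    (hT : ∀ i j, T' i j = R2 B T i j) :
    ∑ i, ∑ j, T' i j * nrm (pull B g) len i x * nrm (pull B g) len j x =
      ∑ i, ∑ j, T i j * nrm g len i (act B x) * nrm g len j (act B x) := by
  have e : ∀ (T : Fin n → Fin n → ℝ) (v : Fin n → ℝ), ∑ i, ∑ j, T i j * v i * v j =
      ∑ i, v i * ∑ j, T i j * v j := by
    intro T v
    refine Finset.sum_congr rfl fun i _ => ?_
    rw [Finset.mul_sum]
    exact Finset.sum_congr rfl fun j _ => by ring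
  rw [e T' (fun i => nrm (pull B g) len i x), e T (fun i => nrm g len i (act B x))]
  simp only [nrm_len_pull hB g hx, hT]
  simp only [ctr1 hB]
  rw [R_dot hB]

lemma trS_len_pull (hB : Bᵀ * B = 1) (g : Field n) {T T' : Field n} {x : E n} (hx : x ≠ 0)
    (hT : ∀ i j, T' x i j = R2 B (T (act B x)) i j) :
    trS (pull B g) T' len x = trS g T len (act B x) := by
  unfold trS
  rw [Knn_pull hB g hx hT]
  congr 1
  unfold tr
  simp only [up_pull hB, hT]
  exact dot2 hB _ _

lemma theta_len_pull (hB : Bᵀ * B = 1) {g : Field n} (hg : ∀ i j, Smooth (fun x => g x i j))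
    (K : Field n) {x : E n} (hx : x ≠ 0) :
    thetaPlus (pull B g) (pull B K) len x = thetaPlus g K len (act B x) := by
  unfold thetaPlus
  rw [trS_len_pull hB g hx (fun i j => hess_len_pull hB hg hx i j),
    trS_len_pull hB g (T := K) hx (fun i j => rfl), cov_len_pull hB g hx]

end Vale.Agent.H318
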