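import Vale.Agent.P366.R2.H318.Good
import Vale.Agent.P366.R2.H318.Defs
import Vale.Agent.P366.R2.H318.AvNorm
import Vale.Agent.P366.R2.H318.Theta

/-! The dominant energy condition of the averaged data. -/

open MeasureTheory Metric Filter Topology Set
open scoped ContDiff Matrix

noncomputable section
namespace Vale.Agent.H318
open Vale.Agent.P366.Stmt Vale.Agent.P366.T2 Vale.Agent.T4

variable {n : ℕ} {H : Type} [TopologicalSpace H] [CompactSpace H] [MeasurableSpace H]
  [BorelSpace H] [SecondCountableTopology H] {μ : Measure H} [IsProbabilityMeasure μ]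
  {b : H → Matrix (Fin n) (Fin n) ℝ} {Γ : Matrix (Fin n) (Fin n) ℝ → Prop}
  {g K : Field n} {R₀ : ℝ}

lemma mu_sig (g K : Field n) (x : E n) : mu g K x = (scal g x + sig g K x) / 2 := by
  unfold mu sig
  ring

section stab

variable {B : Matrix (Fin n) (Fin n) ℝ} (hB : B ∈ Stab R₀ g) {x : E n} (hx : R₀ ≤ len x)
include hB hx

lemma tr_st (K : Field n) : tr g (pull B K) x = tr g K (act B x) := by
  rw [← tr_pull hB.1 g K x]
  exact tr_congr (hB.2 x hx).symm rfl

lemma normSq_st (K : Field n) : normSq g (pull B K) x = normSq g K (act B x) := by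
  rw [← normSq_pull hB.1 g K x]
  exact normSq_congr (hB.2 x hx).symm rfl

lemma sig_st (K : Field n) : sig g (pull B K) x = sig g K (act B x) := by
  unfold sig
  rw [tr_st hB hx, normSq_st hB hx]

lemma cov_st {w w' : Fin n → E n → ℝ} (hw : ∀ i, w' i x = R B (fun p => w p (act B x)) i) :
    covNorm g w' x = covNorm g w (act B x) := by
  rw [← covNorm_pull hB.1 g w w' x hw]
  exact covNorm_congr (hB.2 x hx).symm fun _ => rfl

lemma theta_st (hR : 0 < R₀) (hg : ∀ i j, Smooth (fun x => g x i j)) (K : Field n) :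
    thetaPlus g (pull B K) len x = thetaPlus g K len (act B x) := by
  have hx0 : x ≠ 0 := ne_zero_of_len hR hx
  have hsg : ∀ i j, Smooth (fun x => pull B g x i j) := smooth_pull hg
  rw [← theta_len_pull hB.1 hg K hx0]
  have hgx : pull B g x = g x := hB.2 x hx
  have hc : covNorm (pull B g) (fun j => pd j len) x = covNorm g (fun j => pd j len) x :=
    covNorm_congr hgx fun _ => rfl
  have hn : ∀ i, nrm (pull B g) len i x = nrm g len i x := by
    intro i
    unfold nrm
    rw [hc]
    simp only [up_congr hgx]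
  have ht : ∀ T T' : Field n, T x = T' x → trS (pull B g) T len x = trS g T' len x := by
    intro T T' h
    unfold trS
    rw [tr_congr hgx h]
    simp only [hn, h]
  unfold thetaPlus
  rw [hc, ht (pull B K) (pull B K) rfl, ht (hess (pull B g) len) (hess g len)]
  funext i j
  unfold hess
  simp only [chr_congr hsg hg (fun y hy => hB.2 y hy) hx]

lemma scal_st (hg : ∀ i j, Smooth (fun x => g x i j)) (hd : (mat g x).det ≠ 0) :
    scal g (act B x) = scal g x := by
  have hgx : pull B g x = g x := hB.2 x hx
  have hd' : (mat g (act B x)).det ≠ 0 := by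
    intro h0
    have : mat (pull B g) x = mat g x := hgx
    rw [mat_pull] at this
    apply hd
    rw [← this, Matrix.det_mul, Matrix.det_mul, h0]
    simp
  rw [← scal_pull hB.1 hg hd']
  refine scal_congr (smooth_pull hg) hg (fun y hy => hB.2 y hy) hx ?_
  have : mat (pull B g) x = mat g x := hgx
  rw [this]
  exact hd

lemma mom_st (hg : ∀ i j, Smooth (fun x => g x i j)) (hK : ∀ i j, Smooth (fun x => K x i j))
    (hd : (mat g x).det ≠ 0) (j : Fin n) :
    mom g (pull B K) j x = R B (fun p => mom g K p (act B x)) j := by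
  have hgx : pull B g x = g x := hB.2 x hx
  have hd' : (mat g (act B x)).det ≠ 0 := by
    intro h0
    have : mat (pull B g) x = mat g x := hgx
    rw [mat_pull] at this
    apply hd
    rw [← this, Matrix.det_mul, Matrix.det_mul, h0]
    simp
  rw [← mom_pull hB.1 hg (fun i j =>
    (contDiffAt_momT hg hK hd' i j).differentiableAt (by norm_num)) j]
  exact mom_congr hg (smooth_pull hg) (smooth_pull hK) (smooth_pull hK)
    (fun y hy => (hB.2 y hy).symm) (fun y _ => rfl) hx hd j

end stab

namespace Good

variable (G : Good Γ μ b)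

/-- the variance of the averaged tensor -/
def vr (μ : Measure H) (b : H → Matrix (Fin n) (Fin n) ℝ) (g K : Field n) (x : E n) : ℝ :=
  ∫ h, normSq g (fun y i j => pull (b h) K y i j - avg μ b K y i j) x ∂μ

include G

variable (hΓ : ∀ A, Γ A → Aᵀ * A = 1) (hg : ∀ i j, Smooth (fun x => g x i j))
  (hK : ∀ i j, Smooth (fun x => K x i j)) (hi : Vale.Agent.T4.InvUnder Γ R₀ g)
  (hpd : ∀ x, R₀ ≤ len x → (mat g x).PosDef)
include hΓ hg hK hi hpd

omit [SecondCountableTopology H] in
lemma Av_normSq {x : E n} (hx : R₀ ≤ len x) :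
    Av μ (fun h => normSq g K (act (b h) x)) (normSq g (avg μ b K) x + vr μ b g K x) := by
  obtain ⟨V, h1, h2⟩ := normSq_var (μ := μ) (hpd x hx) (T := fun h => pull (b h) K)
    (W := avg μ b K) (fun i j => Av_pull G.cont hK x i j)
  have e : V = vr μ b g K x := h2.eq
  rw [e] at h1
  have e2 : (fun h => normSq g K (act (b h) x)) = fun h => normSq g (pull (b h) K) x :=
    funext fun h => (normSq_st (G.stab hg hΓ hi h) hx K).symm
  rw [e2]
  exact h1

omit [SecondCountableTopology H] in
lemma Av_tr' {x : E n} (hx : R₀ ≤ len x) :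
    Av μ (fun h => tr g K (act (b h) x)) (tr g (avg μ b K) x) := by
  have e2 : (fun h => tr g K (act (b h) x)) = fun h => tr g (pull (b h) K) x :=
    funext fun h => (tr_st (G.stab hg hΓ hi h) hx K).symm
  rw [e2]
  exact Av_tr G.cont hK x

omit [SecondCountableTopology H] in
lemma Av_sig {x : E n} (hx : R₀ ≤ len x) :
    Av μ (fun h => sig g K (act (b h) x)) (Mn μ b (sig g K) x) :=
  ⟨((G.Av_tr' hΓ hg hK hi hpd hx).cont.pow 2).sub (G.Av_normSq hΓ hg hK hi hpd hx).cont, rfl⟩

omit [SecondCountableTopology H] in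
lemma Av_mu {x : E n} (hx : R₀ ≤ len x) :
    Av μ (fun h => mu g K (act (b h) x)) ((scal g x + Mn μ b (sig g K) x) / 2) := by
  have h1 := ((Av.const (μ := μ) (scal g x)).add (G.Av_sig hΓ hg hK hi hpd hx)).mulc (1 / 2)
  have e : (fun h => mu g K (act (b h) x)) =
      fun h => (scal g x + sig g K (act (b h) x)) * (1 / 2) := by
    funext h
    rw [mu_sig, scal_st (G.stab hg hΓ hi h) hx hg (hpd x hx).det_pos.ne']
    ring
  rw [e]
  convert h1 using 1
  ring

/-- **the momentum density of the averaged data** -/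
theorem cov_le (hdec : ∀ y, R₀ ≤ len y → covNorm g (mom g K) y ≤ mu g K y) {x : E n}
    (hx : R₀ ≤ len x) :
    covNorm g (mom g (avg μ b K)) x ≤ (scal g x + Mn μ b (sig g K) x) / 2 := by
  have hd := (hpd x hx).det_pos.ne'
  obtain ⟨C, h1, h2⟩ := cov_jensen (μ := μ) (hpd x hx)
    (w := fun h i => mom g (pull (b h) K) i x) (W := fun i => mom g (avg μ b K) i x)
    (fun i => Av_mom G.cont hg hK hd i)
  have h3 : covNorm g (mom g (avg μ b K)) x = covNorm g (fun i _ => mom g (avg μ b K) i x) x :=
    covNorm_congr rfl fun _ => rfl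
  have h4 : ∀ h, covNorm g (fun i _ => mom g (pull (b h) K) i x) x ≤ mu g K (act (b h) x) := by
    intro h
    have hs := G.stab hg hΓ hi h
    have h5 := cov_st hs hx (w := mom g K) (w' := fun i _ => mom g (pull (b h) K) i x)
      (fun i => mom_st hs hx hg hK hd i)
    exact h5.trans_le (hdec _ (by rw [G.len_b]; exact hx))
  exact h3.trans_le (h2.trans (h1.le (G.Av_mu hΓ hg hK hi hpd hx) h4))

omit [SecondCountableTopology H] in
/-- the energy density of the averaged data if the trace is radial -/
theorem sig_avg {x : E n} (hx : R₀ ≤ len x) (htr : ∀ h, tr g K (act (b h) x) = tr g K x) :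
    sig g (avg μ b K) x = Mn μ b (sig g K) x + vr μ b g K x := by
  have h1 := G.Av_normSq hΓ hg hK hi hpd hx
  have h2 := G.Av_tr' hΓ hg hK hi hpd hx
  have e1 : tr g (avg μ b K) x = tr g K x := by
    rw [h2.eq]
    simp only [htr]
    rw [integral_const]
    simp
  have e2 : Av μ (fun h => sig g K (act (b h) x))
      (tr g K x ^ 2 - (normSq g (avg μ b K) x + vr μ b g K x)) := by
    have e3 : (fun h => sig g K (act (b h) x)) = fun h => tr g K x ^ 2 - normSq g K (act (b h) x) := by
      funext h
      unfold sig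
      rw [htr]
    rw [e3]
    exact (Av.const _).sub h1
  have e4 : Mn μ b (sig g K) x = _ := e2.eq.symm
  rw [e4]
  unfold sig
  rw [e1]
  ring

omit [SecondCountableTopology H] in
lemma vr_nonneg {x : E n} (hx : R₀ ≤ len x) : 0 ≤ vr μ b g K x :=
  integral_nonneg fun _ => normSq_nonneg' (hpd x hx) _

omit [SecondCountableTopology H] in
/-- the null expansion of the averaged data -/
lemma Av_theta' (hR : 0 < R₀) {x : E n} (hx : R₀ ≤ len x) :
    Av μ (fun h => thetaPlus g K len (act (b h) x)) (thetaPlus g (avg μ b K) len x) := by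
  have e : (fun h => thetaPlus g K len (act (b h) x)) = fun h => thetaPlus g (pull (b h) K) len x :=
    funext fun h => (theta_st (G.stab hg hΓ hi h) hx hR hg K).symm
  rw [e]
  exact Av_theta G.cont hK len x

end Good

end Vale.Agent.H318
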