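import Vale.Agent.P366.R2.H318.SphRot
import Vale.Agent.P366.R2.H318.Congr

/-! The momentum of invariant data vanishes. -/

open MeasureTheory Metric Filter Topology Set
open scoped ContDiff Matrix

noncomputable section
namespace Vale.Agent.H318
open Vale.Agent.P366.Stmt Vale.Agent.P366.T2 Vale.Agent.T4
open Vale.Agent.P366 (Sph sphM)

variable {n : ℕ} {Γ : Matrix (Fin n) (Fin n) ℝ → Prop}

lemma fixed_zero (hM : MovesBase Γ) {v : Fin n → ℝ}
    (hv : ∀ C, Γ C → ∀ i, v i = R C v i) : v = 0 := by
  obtain ⟨e, he, hmove⟩ := hM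
  have key : ∀ f : Fin n → ℝ, f ⬝ᵥ f = 1 → v ⬝ᵥ f = v ⬝ᵥ e := by
    intro f hf
    obtain ⟨A, hA, rfl⟩ := hmove f hf
    have h1 : v = A.transpose *ᵥ v := by
      funext i
      rw [hv A hA i]
      simp only [R, Matrix.mulVec, dotProduct, Matrix.transpose_apply]
    rw [Matrix.dotProduct_mulVec, ← Matrix.mulVec_transpose, ← h1]
  have h0 : v ⬝ᵥ e = 0 := by
    have h1 := key (-e) (by simp [he])
    rw [dotProduct_neg] at h1
    linarith
  funext i
  have h2 := key (_root_.Pi.single i 1) (by simp)
  rw [h0] at h2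
  simpa using h2

lemma sph_int {r : ℝ} (hr : 0 ≤ r) {f : E n → ℝ} (hf : ContinuousOn f {y | len y = r}) :
    Integrable (fun θ : Sph n => f (r • (θ : E n))) (sphM n) := by
  have h1 : Continuous fun θ : Sph n => f (r • (θ : E n)) := by
    have h3 : Continuous fun θ : Sph n => r • (θ : E n) := continuous_subtype_val.const_smul r
    refine hf.comp_continuous h3 fun θ => ?_
    show len _ = r
    unfold len
    rw [norm_smul, Real.norm_eq_abs, abs_of_nonneg hr, norm_eq_of_mem_sphere θ, mul_one]
  exact h1.integrable_of_hasCompactSupport (HasCompactSupport.of_compactSpace _)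

lemma sphInt_sum {ι : Type} (s : Finset ι) {r : ℝ} (hr : 0 ≤ r) {f : ι → E n → ℝ}
    (hf : ∀ i, ContinuousOn (f i) {y | len y = r}) :
    sphInt r (fun x => ∑ i ∈ s, f i x) = ∑ i ∈ s, sphInt r (f i) := by
  unfold sphInt sph
  rw [Vale.Agent.P366.vol_eq, ← Finset.mul_sum]
  congr 1
  exact integral_finsetSum _ fun i _ => sph_int hr (hf i)

lemma sphInt_cmul (r c : ℝ) (f : E n → ℝ) : sphInt r (fun x => c * f x) = c * sphInt r f := by
  unfold sphInt sph
  rw [integral_const_mul]
  ring

lemma sphInt_zero (hM : MovesBase Γ) (hΓ : ∀ A, Γ A → Aᵀ * A = 1) {φ : Fin n → E n → ℝ} {r : ℝ}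
    (hr : 0 ≤ r) (hc : ∀ i, ContinuousOn (φ i) {y | len y = r})
    (hφ : ∀ C, Γ C → ∀ x, len x = r → ∀ i, φ i x = R C (fun p => φ p (act C x)) i) (i : Fin n) :
    sphInt r (φ i) = 0 := by
  have h : (fun i => sphInt r (φ i)) = 0 := by
    refine fixed_zero hM fun C hC i => ?_
    show sphInt r (φ i) = R C (fun i => sphInt r (φ i)) i
    have hC1 := hΓ C hC
    have hc' : ∀ p, ContinuousOn (fun x => φ p (act C x)) {y | len y = r} := fun p =>
      (hc p).comp (cont_act C).continuousOn fun y hy => by
        show len (act C y) = r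
        rw [len_act hC1]; exact hy
    rw [sphInt_congr hr fun x hx => hφ C hC x hx i]
    have h1 := sphInt_sum (Finset.univ : Finset (Fin n)) (f := fun p x => C p i * φ p (act C x)) hr
      fun p => continuousOn_const.mul (hc' p)
    refine h1.trans (Finset.sum_congr rfl fun p _ => ?_)
    rw [sphInt_cmul, sphInt_act hC1]
  exact congrFun h i

/-- the flux of the momentum tensor of invariant data -/
lemma flx_zero (hM : MovesBase Γ) (hΓ : ∀ A, Γ A → Aᵀ * A = 1) {g K : Field n} {R₀ r : ℝ}
    (hg : ∀ i j, Smooth (fun x => g x i j)) (hK : ∀ i j, Smooth (fun x => K x i j))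
    (hpd : ∀ x, R₀ ≤ len x → (mat g x).PosDef) (hgi : InvUnder Γ R₀ g) (hKi : InvUnder Γ R₀ K)
    (h0 : 0 < R₀) (hr : R₀ ≤ r) (i : Fin n) : flx (fun j x => momT g K x i j) r = 0 := by
  have hr0 : 0 < r := h0.trans_le hr
  have h1 := sphInt_zero hM hΓ (φ := fun i x => ∑ j, momT g K x i j * (x j / len x)) hr0.le
    (fun i => ?_) (fun C hC x hx i => ?_) i
  · unfold flx
    rw [h1, zero_div]
  · refine continuousOn_finsetSum _ fun j _ => ?_
    have hsub : ∀ y : E n, len y = r → (mat g y).det ≠ 0 := fun y hy =>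
      (hpd y (by rw [hy]; exact hr)).det_pos.ne'
    refine ContinuousOn.mul (fun y hy => ?_) ?_
    · exact (contDiffAt_momT hg hK (hsub y hy) i j).continuousAt.continuousWithinAt
    · refine ContinuousOn.div ?_ ?_ fun y hy => ?_
      · exact Continuous.continuousOn (by fun_prop)
      · exact continuous_norm.continuousOn
      · have : len y = r := hy
        rw [this]; exact hr0.ne'
  · have hC1 := hΓ C hC
    have hxR : R₀ ≤ len x := by rw [hx]; exact hr
    have e1 : momT g K x = pull C (momT g K) x := by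
      rw [← funext fun i => funext fun j => congrFun (congrFun (momT_pull hC1 g K x) i) j]
      funext i j
      exact momT_congr (InvUnder.pull_eq hgi hC hxR).symm (InvUnder.pull_eq hKi hC hxR).symm i j
    have e2 : ∀ j, momT g K x i j = R2 C (momT g K (act C x)) i j := fun j =>
      congrFun (congrFun e1 i) j
    have e3 : ∀ j, x j / len x = R C (fun p => act C x p / len x) j := by
      intro j
      rw [R_divc]
      congr 1
      have h2 : act Cᵀ (act C x) = x := by rw [← act_mul, hC1, act_one]
      have h3 : act Cᵀ (act C x) j = R C (act C x) j := by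
        rw [act_apply]
        rfl
      rw [h2] at h3
      exact h3
    simp only [e2, e3]
    rw [ctr1 hC1]
    simp only [len_act hC1]

end Vale.Agent.H318
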