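import Vale.Agent.P366.R2.H318.Dec
import Vale.Agent.P366.R2.H318.AfAvg
import Vale.Agent.P366.R2.H318.Flux
import Vale.Agent.P366.T5.CohomF92

/-! The symmetrised data. -/

open MeasureTheory Metric Filter Topology Set
open scoped ContDiff ENNReal Matrix

noncomputable section
namespace Vale.Agent.H318
open Vale.Agent.P366.Stmt Vale.Agent.P366.T2 Vale.Agent.T4

variable {n : ℕ} {H : Type} [TopologicalSpace H] [CompactSpace H] [MeasurableSpace H]
  [BorelSpace H] [SecondCountableTopology H] {μ : Measure H} [IsProbabilityMeasure μ]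
  {b : H → Matrix (Fin n) (Fin n) ℝ} {Γ : Matrix (Fin n) (Fin n) ℝ → Prop}

lemma sqF_le {r : ℝ} (hr : 0 < r) {x : E n} : 0 ≤ sqF n r x ↔ r ≤ len x := by
  unfold sqF len
  constructor
  · intro h
    have h1 : r ^ 2 ≤ ‖x‖ ^ 2 := by linarith only [h]
    exact (abs_le_of_sq_le_sq' h1 (norm_nonneg x)).2
  · intro h
    have := pow_le_pow_left₀ hr.le h 2
    linarith

lemma sqF_zero {r : ℝ} (hr : 0 < r) {x : E n} : sqF n r x = 0 ↔ len x = r := by
  unfold sqF len
  constructor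
  · intro h
    have h1 : ‖x‖ ^ 2 = r ^ 2 := by linarith only [h]
    exact (pow_left_inj₀ (norm_nonneg _) hr.le two_ne_zero).1 h1
  · intro h
    rw [h]; ring

lemma exists_len (hn : 2 ≤ n) {r : ℝ} (hr : 0 < r) : ∃ x : E n, len x = r :=
  ⟨EuclideanSpace.single (⟨0, by omega⟩ : Fin n) r, by
    rw [len, PiLp.norm_single, Real.norm_eq_abs, abs_of_pos hr]⟩

/-- the data `(g, K)` on `r ≤ |x|` -/
def sphD (hn : 2 ≤ n) {r : ℝ} (hr : 0 < r) (g K : Field n)
    (hsm : ∀ i j, Smooth (fun x => g x i j) ∧ Smooth (fun x => K x i j))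
    (hsy : ∀ x i j, g x i j = g x j i ∧ K x i j = K x j i)
    (hpd : ∀ x, r ≤ len x → (mat g x).PosDef) : Exterior n where
  F := sqF n r
  g := g
  K := K
  dom := Vale.Agent.P366.isExt_round hn hr
  bdry := by
    obtain ⟨x, hx⟩ := exists_len hn hr
    exact ⟨x, (sqF_zero hr).2 hx⟩
  smooth := hsm
  symm := hsy
  pos := fun x hx => hpd x ((sqF_le hr).1 hx)

lemma sphD_greatest (hn : 2 ≤ n) {r : ℝ} (hr : 0 < r) :
    IsGreatest {s | ∃ x : E n, sqF n r x = 0 ∧ len x = s} r := by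
  constructor
  · obtain ⟨x, hx⟩ := exists_len hn hr
    exact ⟨x, (sqF_zero hr).2 hx, hx⟩
  · rintro s ⟨x, hx, rfl⟩
    exact ((sqF_zero hr).1 hx).le

/-- passing to a subdomain does not decrease the minimal area -/
lemma Amin_mono {X Y : Exterior n} (hg : Y.g = X.g) (h : ∀ x, 0 ≤ Y.F x → 0 ≤ X.F x) :
    X.Amin ≤ Y.Amin := by
  unfold Exterior.Amin
  refine le_sInf ?_
  rintro a ⟨G, hG, hsub, rfl⟩
  have h1 : X.area G ≤ Y.area G := by
    unfold Exterior.area
    refine sSup_le_sSup ?_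
    rintro c ⟨W, hW, rfl⟩
    have hW' : Y.TestField W := ⟨hW.1, hW.2.1, fun x hx => by
      rw [hg]
      exact hW.2.2 x (h x hx)⟩
    exact ⟨W, hW', by rw [hg]⟩
  refine le_trans (sInf_le ?_) h1
  exact ⟨G, hG, fun x hx => h x (hsub x hx), rfl⟩

lemma exists_greatest {F : E n → ℝ} (hF : IsExt F) (hz : ∃ x, F x = 0) :
    ∃ R, IsGreatest {r | ∃ x, F x = 0 ∧ len x = r} R := by
  obtain ⟨R', hR'⟩ := hF.2.2.2
  have hcl : IsClosed {x | F x = 0} := isClosed_eq hF.1.continuous continuous_const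
  have hc : IsCompact {x | F x = 0} := by
    refine (isCompact_closedBall (0 : E n) R').of_isClosed_subset hcl fun x hx => ?_
    rw [mem_closedBall_zero_iff]
    by_contra hcon
    push Not at hcon
    have := hR' x hcon
    rw [show F x = 0 from hx] at this
    exact lt_irrefl _ this
  obtain ⟨x, hx, hmax⟩ := hc.exists_isMaxOn hz (f := len) continuous_norm.continuousOn
  exact ⟨len x, ⟨x, hx, rfl⟩, by
    rintro s ⟨y, hy, rfl⟩
    exact hmax hy⟩

lemma exists_zero (hn : 2 ≤ n) {F : E n → ℝ} (hF : IsExt F) {x0 : E n} (h0 : F x0 < 0) :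
    ∃ x, F x = 0 := by
  obtain ⟨R', hR'⟩ := hF.2.2.2
  obtain ⟨y, hy⟩ := exists_len hn (r := |R'| + 1) (by positivity)
  have h1 : 0 < F y := hR' y (by
    rw [hy]
    have := le_abs_self R'
    linarith)
  exact mem_range_of_exists_le_of_exists_ge hF.1.continuous ⟨x0, h0.le⟩ ⟨y, h1.le⟩

/-- a touching argument -/
lemma touch_out (hn : 2 ≤ n) {F : E n → ℝ} (hF : IsExt F) {g K : Field n} {r : ℝ} (hr : 0 < r)
    (hsm : ∀ i j, Smooth (fun x => g x i j) ∧ Smooth (fun x => K x i j))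
    (hsy : ∀ x i j, g x i j = g x j i ∧ K x i j = K x j i)
    (hpd : ∀ x, r ≤ len x → (mat g x).PosDef) (hsub : ∀ x, 0 ≤ F x → r < len x)
    (hFT : ∀ x, F x = 0 → thetaPlus g K F x ≤ 0) :
    ∃ x, r < len x ∧ F x = 0 ∧ (∀ y, len x ≤ len y → 0 ≤ F y) ∧ thetaPlus g K len x ≤ 0 := by
  have h0 : F 0 < 0 := by
    by_contra hcon
    push Not at hcon
    have := hsub 0 hcon
    have h1 : len (0 : E n) = 0 := norm_zero
    linarith
  have hz := exists_zero hn hF h0
  obtain ⟨R, hR⟩ := exists_greatest hF hz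
  obtain ⟨x, hx, hlen⟩ := hR.1
  have hxr : r < len x := hsub x hx.ge
  let Y : Exterior n :=
    { F := F, g := g, K := K, dom := hF, bdry := hz, smooth := hsm, symm := hsy
      pos := fun y hy => hpd y (hsub y hy).le }
  have hout := Vale.Agent.C92.outside_nonneg hn Y (R := R) hR
  have hout' : ∀ y, len x ≤ len y → 0 ≤ F y := fun y hy => hout y (by rw [← hlen]; exact hy)
  refine ⟨x, hxr, hx, hout', ?_⟩
  have h1 := Vale.Agent.C92.theta_compare (g := g) (K := K) hF.1 (hr.trans hxr) rfl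
    (hpd x hxr.le) (hF.2.1 x hx) (fun y hy => by rw [hx]; exact hout' y hy)
  exact h1.trans (hFT x hx)

lemma avg_symm {K : Field n} (hs : ∀ x i j, K x i j = K x j i) (x : E n) (i j : Fin n) :
    avg μ b K x i j = avg μ b K x j i := by
  unfold avg
  refine integral_congr_ae (Eventually.of_forall fun h => ?_)
  show R2 (b h) (K (act (b h) x)) i j = R2 (b h) (K (act (b h) x)) j i
  rw [R2_comm]
  have e : (fun p q => K (act (b h) x) p q) = fun p q => K (act (b h) x) q p :=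
    funext fun p => funext fun q => hs _ _ _
  unfold R2 R
  refine Finset.sum_congr rfl fun q _ => ?_
  congr 1
  exact Finset.sum_congr rfl fun p _ => by rw [hs]

/-- **the symmetrised data satisfy the Penrose inequality** -/
theorem sym_cohom (hn : 3 ≤ n) {X : Exterior n} (hAF : X.IsAF) (hDEC : X.DEC) {m : ℝ}
    (hm : X.IsEnergy m) {R : ℝ} (hR : IsGreatest {r | ∃ x, X.F x = 0 ∧ len x = r} R)
    (hΓ : TransGroup n Γ) (hg : InvUnder Γ R X.g) (G : Good Γ μ b)
    (hV : ∀ x, R ≤ len x → Mn μ b (sig X.g X.K) x ≤ sig X.g (avg μ b X.K) x) {r : ℝ} (hr : R ≤ r)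
    (hθ : ∀ x : E n, len x = r → thetaPlus X.g (avg μ b X.K) len x ≤ 0) :
    X.Amin ≠ ⊤ ∧ 0 < m ∧ (X.Amin.toReal / omega n) ^ (((n : ℝ) - 2) / (n - 1)) / 2 ≤ m ∧
    ((X.Amin.toReal / omega n) ^ (((n : ℝ) - 2) / (n - 1)) / 2 = m →
      (∀ x : E n, r < len x → 0 < thetaPlus X.g (avg μ b X.K) len x) →
      IsSlice m X.g (avg μ b X.K) {x | r < len x}) := by
  have hout := Vale.Agent.C92.outside_nonneg (by omega) X hR
  have hR0 : 0 < R :=
    (Vale.Agent.P366.Bridge.toRaw X).R1_pos (by omega) (Vale.Agent.P366.Bridge.raw_R1 X hR)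
  have hr0 : 0 < r := hR0.trans_le hr
  have hgs : ∀ i j, Smooth (fun x => X.g x i j) := fun i j => (X.smooth i j).1
  have hKs : ∀ i j, Smooth (fun x => X.K x i j) := fun i j => (X.smooth i j).2
  have hpd : ∀ x, R ≤ len x → (mat X.g x).PosDef := fun x hx => X.pos x (hout x hx)
  have hM := hΓ.moves hn
  have ho := hΓ.orth
  have hKa : ∀ i j, Smooth (fun x => avg μ b X.K x i j) := smooth_avg G.cont hKs
  obtain ⟨D, hD⟩ : ∃ D : Exterior n, D = sphD (by omega) hr0 X.g (avg μ b X.K)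
      (fun i j => ⟨hgs i j, hKa i j⟩)
      (fun x i j => ⟨(X.symm x i j).1, avg_symm (fun x i j => (X.symm x i j).2) x i j⟩)
      (fun x hx => hpd x (hr.trans hx)) := ⟨_, rfl⟩
  have hDF : D.F = sqF n r := by rw [hD]; rfl
  have hDg : D.g = X.g := by rw [hD]; rfl
  have hDK : D.K = avg μ b X.K := by rw [hD]; rfl
  clear hD
  have hAF' : D.IsAF := by
    obtain ⟨q, hq, h⟩ := hAF
    refine ⟨q, hq, fun i j k l => ?_⟩
    rw [hDg, hDK]
    exact ⟨(h i j k l).1, (h i j k l).2.1, (h i j k l).2.2.1,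
      bigO_K G hKs (fun p q => (h p q k l).2.2.2.1) i j,
      bigO_dK G hKs (fun p q s => (h p q s l).2.2.2.2) i j k⟩
  have hdec : ∀ y, R ≤ len y → covNorm X.g (mom X.g X.K) y ≤ mu X.g X.K y := fun y hy =>
    hDEC y (hout y hy)
  have hDEC' : D.DEC := by
    intro x hx
    rw [hDF] at hx
    rw [hDg, hDK]
    have hxR : R ≤ len x := hr.trans ((sqF_le hr0).1 hx)
    refine (G.cov_le ho hgs hKs hg hpd hdec hxR).trans ?_
    rw [mu_sig]
    have := hV x hxR
    linarith
  have hT' : D.Trapped := by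
    intro x hx
    rw [hDF] at hx ⊢
    rw [hDg, hDK]
    have hx' := (sqF_zero hr0).1 hx
    have hxR : R ≤ len x := by rw [hx']; exact hr
    rw [theta_sqF_gen (ne_zero_of_len hR0 hxR) (hpd x hxR)]
    exact hθ x hx'
  have hm' : D.IsEnergy m := by
    unfold Exterior.IsEnergy
    rw [hDg]
    exact hm
  have hgr : InvUnder Γ r X.g := fun A hA x y hx => hg A hA x y (hr.trans hx)
  have hKr : InvUnder Γ r (avg μ b X.K) := G.avg_inv hKs r
  have hP' : D.IsMomentum 0 := by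
    intro i
    rw [hDg, hDK]
    refine Tendsto.congr' ?_ (tendsto_const_nhds (x := (0 : ℝ)))
    filter_upwards [eventually_ge_atTop r] with s hs
    exact (flx_zero hM ho hgs hKa (fun x hx => hpd x (hr.trans hx)) hgr hKr hr0 hs i).symm
  have hR' : IsGreatest {s | ∃ x, D.F x = 0 ∧ len x = s} r := by
    rw [hDF]
    exact sphD_greatest (by omega) hr0
  have hgD : InvUnder Γ r D.g := by rw [hDg]; exact hgr
  have hKD : InvUnder Γ r D.K := by rw [hDK]; exact hKr
  obtain ⟨-, h1, h2, h3, h4⟩ := cohom hn (stEqU hn) (stEqQ hn) hAF' hDEC' hT' hm' hP' hR' hΓ hgD hKD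
  have hz : ∑ i : Fin n, (0 : Fin n → ℝ) i ^ 2 = 0 := by simp
  rw [hz, Real.sqrt_zero] at h2
  rw [hz, sub_zero, Real.sqrt_sq h2.le] at h3 h4
  have hle : X.Amin ≤ D.Amin := Amin_mono hDg fun x hx => by
    rw [hDF] at hx
    exact hout x (hr.trans ((sqF_le hr0).1 hx))
  have hω : 0 < omega n := by
    have : Nonempty (Fin n) := ⟨⟨0, by omega⟩⟩
    have : Nontrivial (E n) := inferInstance
    rw [Vale.Agent.P366.omega_eq]
    exact Vale.Agent.P366.omega_pos'
  have hn3 : (3 : ℝ) ≤ n := by exact_mod_cast hn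
  have h5 : (X.Amin.toReal / omega n) ^ (((n : ℝ) - 2) / (n - 1)) ≤
      (D.Amin.toReal / omega n) ^ (((n : ℝ) - 2) / (n - 1)) := by
    refine Real.rpow_le_rpow (by positivity) ?_ (div_nonneg (by linarith) (by linarith))
    exact div_le_div_of_nonneg_right (ENNReal.toReal_mono h1 hle) hω.le
  refine ⟨ne_top_of_le_ne_top h1 hle, h2, by linarith, fun heq hpos => ?_⟩
  rw [hDg, hDK] at h4
  refine h4 ?_ (by linarith)
  rintro ⟨F, hF, hsub, hFT⟩
  have hsub' : ∀ x, 0 ≤ F x → r < len x := by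
    intro x hx
    have h6 := hsub x hx
    rw [hDF] at h6
    unfold sqF at h6
    by_contra hcon
    push Not at hcon
    have : ‖x‖ ^ 2 ≤ r ^ 2 := pow_le_pow_left₀ (norm_nonneg x) hcon 2
    linarith
  rw [hDg, hDK] at hFT
  obtain ⟨x, hx, -, -, hθx⟩ := touch_out (by omega) hF hr0 (fun i j => ⟨hgs i j, hKa i j⟩)
    (fun x i j => ⟨(X.symm x i j).1, avg_symm (fun x i j => (X.symm x i j).2) x i j⟩)
    (fun x hx => hpd x (hr.trans hx)) hsub' hFT
  exact absurd hθx (not_le.2 (hpos x hx))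

end Vale.Agent.H318
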