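import Vale.Agent.P366.R2.H318.Lim2
import Vale.Agent.P366.R2.H318.Sym
import Vale.Agent.P366.R2.H318.Alg3

/-! The inequalities with the momentum. -/

open MeasureTheory Metric Filter Topology Set
open scoped ContDiff Matrix

noncomputable section
namespace Vale.Agent.H318
open Vale.Agent.P366.Stmt Vale.Agent.P366.T2 Vale.Agent.T4 Vale.Agent.Mom68

variable {n : ℕ}

/-- the outermost sphere with `V ≤ 0` -/
lemma exists_r0 {V : ℝ → ℝ} {R : ℝ} (hc : ContinuousOn V (Ici R)) (hR : V R ≤ 0)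
    (hl : Tendsto V atTop (𝓝 1)) : ∃ r0, R ≤ r0 ∧ V r0 = 0 ∧ ∀ r, r0 < r → 0 < V r := by
  obtain ⟨b, hb⟩ := (hl.eventually (lt_mem_nhds (show (0 : ℝ) < 1 from one_pos))).exists_forall_of_atTop
  set S : Set ℝ := {r | R ≤ r ∧ V r ≤ 0} with hS
  have hne : S.Nonempty := ⟨R, le_rfl, hR⟩
  have hbd : BddAbove S := ⟨b, fun r hr => by
    by_contra hcon
    push Not at hcon
    exact absurd hr.2 (not_le.2 (hb r hcon.le))⟩
  have hcl : IsClosed S := by
    have : S = Ici R ∩ V ⁻¹' Iic 0 := by ext r; rfl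
    rw [this]
    exact hc.preimage_isClosed_of_isClosed isClosed_Ici isClosed_Iic
  have hmem := hcl.csSup_mem hne hbd
  have hpos : ∀ r, sSup S < r → 0 < V r := by
    intro r hr
    by_contra hcon
    push Not at hcon
    exact absurd (le_csSup hbd ⟨hmem.1.trans hr.le, hcon⟩) (not_le.2 hr)
  refine ⟨sSup S, hmem.1, le_antisymm hmem.2 ?_, hpos⟩
  have h1 : Tendsto V (𝓝[>] (sSup S)) (𝓝 (V (sSup S))) :=
    (hc _ hmem.1).mono_left (nhdsWithin_mono _ fun r hr => hmem.1.trans (le_of_lt hr))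
  refine ge_of_tendsto h1 ?_
  filter_upwards [self_mem_nhdsWithin] with r hr
  exact (hpos r hr).le

/-- a vector gives a unit vector -/
lemma unit_of (hn : 1 ≤ n) (P : Fin n → ℝ) :
    ∃ e : Fin n → ℝ, ∑ i, e i ^ 2 = 1 ∧ (∑ i, e i * P i) ^ 2 = ∑ i, P i ^ 2 := by
  classical
  by_cases h0 : ∑ i, P i ^ 2 = 0
  · refine ⟨_root_.Pi.single ⟨0, by omega⟩ 1, by simp [_root_.Pi.single_apply], ?_⟩
    have hP : ∀ i, P i = 0 := by
      intro i
      have := (Finset.sum_eq_zero_iff_of_nonneg (fun i _ => sq_nonneg (P i))).1 h0 i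
        (Finset.mem_univ i)
      exact pow_eq_zero_iff (two_ne_zero) |>.1 this
    simp [hP]
  · have hpos : 0 < ∑ i, P i ^ 2 :=
      lt_of_le_of_ne (Finset.sum_nonneg fun i _ => sq_nonneg _) (Ne.symm h0)
    have hs : 0 < √(∑ i, P i ^ 2) := Real.sqrt_pos.2 hpos
    have hsq : √(∑ i, P i ^ 2) ^ 2 = ∑ i, P i ^ 2 := Real.sq_sqrt hpos.le
    refine ⟨fun i => P i / √(∑ i, P i ^ 2), ?_, ?_⟩
    · simp only [div_pow, ← Finset.sum_div, hsq]
      exact div_self h0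
    · have e1 : ∑ i, P i / √(∑ i, P i ^ 2) * P i = √(∑ i, P i ^ 2) := by
        have : ∀ i, P i / √(∑ i, P i ^ 2) * P i = P i ^ 2 / √(∑ i, P i ^ 2) := fun i => by ring
        simp only [this, ← Finset.sum_div]
        rw [div_eq_iff hs.ne', ← sq, hsq]
      rw [e1, hsq]

section

variable {X : Exterior n} {a p : ℝ → ℝ} {R : ℝ} (h : Rd a p R X.g)
include h

/-- the start and the monotonicity of the mass function -/
theorem start (hn : 3 ≤ n) (hDEC : X.DEC) (hAF : X.IsAF) {m : ℝ} (hm : X.IsEnergy m)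
    (hR : IsGreatest {r | ∃ x, X.F x = 0 ∧ len x = r} R)
    (htr : ∀ x, R ≤ len x → tr X.g X.K x = 0) (hV : Vf a p R ≤ 0) :
    ∃ r0, R ≤ r0 ∧ Vf a p r0 = 0 ∧ (∀ r, r0 < r → 0 < Vf a p r) ∧
      (∀ r, r0 ≤ r → Mf n a p r0 ≤ Mf n a p r) ∧ 0 < Mf n a p r0 ∧ X.Amin ≠ ⊤ ∧
      (X.Amin.toReal / omega n) ^ (((n : ℝ) - 2) / (n - 1)) / 2 ≤ Mf n a p r0 := by
  classical
  have hn2 : 2 ≤ n := by omega
  have hout := Vale.Agent.C92.outside_nonneg (by omega) X hR
  have hpd : ∀ x, R ≤ len x → (mat X.g x).PosDef := fun x hx => X.pos x (hout x hx)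
  have hs : ∀ x i j, X.g x i j = X.g x j i := fun x i j => (X.symm x i j).1
  have hKs : ∀ x, R ≤ len x → ∀ i j, X.K x i j = X.K x j i := fun x _ i j => (X.symm x i j).2
  have hKsm : ∀ i j, Smooth (fun x => X.K x i j) := fun i j => (X.smooth i j).2
  have hdec : ∀ x, R < len x → covNorm X.g (mom X.g X.K) x ≤ mu X.g X.K x := fun x hx =>
    hDEC x (hout x hx.le)
  obtain ⟨-, hVl⟩ := mass_lim hn h hpd hAF hm
  obtain ⟨r0, hr0, hV0, hpos⟩ := exists_r0 h.Vf_cont hV hVl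
  have hρ0 := h.rho_pos hr0
  have hM0 : Mf n a p r0 = rR a r0 ^ (n - 2) / 2 := by
    unfold Mf
    rw [hV0]
    ring
  have hexl : ∀ r : ℝ, R < r → ∃ x : E n, len x = r := fun r hr =>
    exists_len hn2 (h.hR.trans hr)
  have e0 : ∑ i, (_root_.Pi.single (⟨0, by omega⟩ : Fin n) (1 : ℝ) : Fin n → ℝ) i ^ 2 = 1 := by
    simp [_root_.Pi.single_apply]
  have hmono : ∀ r, r0 ≤ r → Mf n a p r0 ≤ Mf n a p r := by
    intro r hr
    have hmon : MonotoneOn (Mf n a p) (Ici r0) := by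
      refine monotoneOn_of_deriv_nonneg (convex_Ici r0)
        (h.Mf_cont.mono fun s hs' => hr0.trans hs') ?_ ?_
      · rw [interior_Ici]
        intro s hs'
        obtain ⟨x, hx⟩ := hexl s (hr0.trans_lt hs')
        have := h.M_hd hn hs hpd (x := x) (by rw [hx]; exact hr0.trans_lt hs')
        rw [hx] at this
        exact this.differentiableAt.differentiableWithinAt
      · rw [interior_Ici]
        intro s hs'
        obtain ⟨x, hx⟩ := hexl s (hr0.trans_lt hs')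
        have hxR : R < len x := by rw [hx]; exact hr0.trans_lt hs'
        have h1 := h.M_hd hn hs hpd (x := x) hxR
        rw [hx] at h1
        rw [h1.deriv]
        have hS := h.S_low hn2 hs hpd hKsm hKs htr hdec e0 hxR
        have hρs := h.rho_pos hxR.le
        have hS0 : 0 ≤ scal X.g x / (2 * ((n : ℝ) - 1)) := by
          refine le_trans ?_ hS
          positivity
        have hVs := hpos s hs'
        have hρs' : 0 < rR a s := by rw [← hx]; exact hρs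
        have e2 : rR a s ^ (n - 1) * Vf a p s * scal X.g x / (2 * ((n : ℝ) - 1)) =
            rR a s ^ (n - 1) * Vf a p s * (scal X.g x / (2 * ((n : ℝ) - 1))) := by ring
        rw [e2]
        positivity
    exact hmon (mem_Ici.2 le_rfl) (mem_Ici.2 hr) hr
  have hl := h.lapse hs hpd
  have hrd := h.round hs hpd
  have hB := hrd.fits hn2
  obtain ⟨B, hBdef⟩ : ∃ B, B = bgR hn2 a R hrd.hR hrd.sm hrd.pos := ⟨_, rfl⟩
  rw [← hBdef] at hB
  have hBR : B.R = R := by rw [hBdef]; rfl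
  have hBa : B.ar = fun r => rR a r ^ (n - 1) := by rw [hBdef]; rfl
  have hA := areaF hn2 (X := X) (G := bgF R X.g) (B := B) (by rw [hBR]; exact hl) hB.toFits0
    (by rw [hBR]; exact hR) (r := r0) (by rw [hBR]; exact hr0)
  rw [hBa] at hA
  have e1 : rR a r0 ^ (n - 1) = rR a r0 ^ ((n : ℝ) - 1) := by
    rw [← Real.rpow_natCast]
    congr 1
    rw [Nat.cast_sub (by omega)]
    push_cast
    ring
  have e3 : rR a r0 ^ ((n : ℝ) - 2) = rR a r0 ^ (n - 2) := by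
    rw [← Real.rpow_natCast (rR a r0) (n - 2)]
    congr 1
    rw [Nat.cast_sub (by omega)]
    push_cast
    ring
  simp only [e1] at hA
  obtain ⟨k1, k2, k3⟩ := conclude hn (X := X) (m := Mf n a p r0) (P := fun _ : Fin n => 0) rfl hρ0
    hA (by rw [e3, hM0]; linarith)
  simp only [ne_eq, OfNat.ofNat_ne_zero, not_false_eq_true, zero_pow, Finset.sum_const_zero,
    Real.sqrt_zero, sub_zero] at k2 k3
  rw [Real.sqrt_sq k2.le] at k3
  exact ⟨r0, hr0, hV0, hpos, hmono, k2, k1, k3⟩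

/-- the bound for the first flux -/
theorem Gu_ge (hn : 3 ≤ n) (hDEC : X.DEC)
    (hR : IsGreatest {r | ∃ x, X.F x = 0 ∧ len x = r} R)
    (htr : ∀ x, R ≤ len x → tr X.g X.K x = 0) {r0 : ℝ} (hr0 : R ≤ r0) (hV0 : Vf a p r0 = 0)
    (hpos : ∀ r, r0 < r → 0 < Vf a p r) (hmono : ∀ r, r0 ≤ r → Mf n a p r0 ≤ Mf n a p r)
    (hM0 : 0 < Mf n a p r0) {e : Fin n → ℝ} (he : ∑ i, e i ^ 2 = 1) {b : ℝ} (hb : r0 ≤ b) :
    Mf n a p r0 ^ 2 ≤ Mf n a p b ^ 2 - (n : ℝ) ^ 2 / (((n : ℝ) - 1) * ((n : ℝ) + 2)) *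
      (Vf a p b ^ 2 * Uf X.g X.K e a p 1 b ^ 2) := by
  have hn2 : 2 ≤ n := by omega
  have hn3 : (3 : ℝ) ≤ n := by exact_mod_cast hn
  have hout := Vale.Agent.C92.outside_nonneg (by omega) X hR
  have hpd : ∀ x, R ≤ len x → (mat X.g x).PosDef := fun x hx => X.pos x (hout x hx)
  have hs : ∀ x i j, X.g x i j = X.g x j i := fun x i j => (X.symm x i j).1
  have hKs : ∀ x, R ≤ len x → ∀ i j, X.K x i j = X.K x j i := fun x _ i j => (X.symm x i j).2
  have hKsm : ∀ i j, Smooth (fun x => X.K x i j) := fun i j => (X.smooth i j).2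
  have hdec : ∀ x, R < len x → covNorm X.g (mom X.g X.K) x ≤ mu X.g X.K x := fun x hx =>
    hDEC x (hout x hx.le)
  obtain ⟨c, hc⟩ : ∃ c, c = (n : ℝ) ^ 2 / (((n : ℝ) - 1) * ((n : ℝ) + 2)) := ⟨_, rfl⟩
  have hn1 : (0 : ℝ) < (n : ℝ) - 1 := by linarith
  have hc0 : 0 ≤ c := by rw [hc]; positivity
  have hc1 : c ≤ 1 := by
    rw [hc, div_le_one (by positivity)]
    nlinarith
  have hcn : c * ((n : ℝ) - 1) = (n : ℝ) ^ 2 / ((n : ℝ) + 2) := by
    rw [hc]; field_simp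
  rw [← hc]
  have huc : ContinuousOn (Uf X.g X.K e a p 1) (Ici R) := h.Uf_cont hKsm
  obtain ⟨G, hG⟩ : ∃ G : ℝ → ℝ, G = fun r => Mf n a p r ^ 2 -
      c * (Vf a p r ^ 2 * Uf X.g X.K e a p 1 r ^ 2) := ⟨_, rfl⟩
  have hGb : Mf n a p b ^ 2 - c * (Vf a p b ^ 2 * Uf X.g X.K e a p 1 b ^ 2) = G b := by rw [hG]
  rw [hGb]
  have hGc : ContinuousOn G (Ici R) := by
    rw [hG]
    exact (h.Mf_cont.pow 2).sub (continuousOn_const.mul ((h.Vf_cont.pow 2).mul (huc.pow 2)))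
  have hG0 : G r0 = Mf n a p r0 ^ 2 := by
    rw [hG]
    simp only [hV0]
    ring
  rw [← hG0]
  have hmain : ∀ s, r0 < s → ∃ G', HasDerivAt G G' s ∧ (0 < G s → 0 ≤ G') := by
    intro s hs'
    have hsR : R < s := hr0.trans_lt hs'
    obtain ⟨x, hx⟩ := exists_len hn2 (h.hR.trans hsR)
    have hxR : R < len x := by rw [hx]; exact hsR
    have dM := h.M_hd hn hs hpd (x := x) hxR
    have dV := h.V_hd hn hs hpd (x := x) hxR
    have dU := h.Uf_hd (e := e) hn2 hKsm hKs htr (ε := 1) (by norm_num) hsR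
    rw [hx] at dM dV
    have hS := h.S_low hn2 hs hpd hKsm hKs htr hdec he hxR
    rw [hx] at hS
    have hρ : 0 < rR a s := h.rho_pos hsR.le
    have hq : 0 < √(p s) := Real.sqrt_pos.2 (h.pp s hsR.le)
    have hMs : 0 < Mf n a p s := hM0.trans_le (hmono s hs'.le)
    have hVs : 0 < Vf a p s := hpos s hs'
    have ekr : rR a s ^ (n - 1) = rR a s ^ (n - 2) * rR a s := by
      rw [← pow_succ]; congr 1; omega
    obtain ⟨S, hSd⟩ : ∃ S, S = scal X.g x / (2 * ((n : ℝ) - 1)) := ⟨_, rfl⟩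
    obtain ⟨j, hj⟩ : ∃ j, j = rR a s ^ (n - 1) * Ja X.g X.K e a p 1 s / ((n : ℝ) - 1) := ⟨_, rfl⟩
    have eM : √(p s) * (rR a s ^ (n - 1) * Vf a p s * scal X.g x / (2 * ((n : ℝ) - 1))) =
        √(p s) * (rR a s ^ (n - 1) * Vf a p s * S) := by rw [hSd]; ring
    rw [eM] at dM
    rw [← hSd] at dV hS
    rw [← hj] at dU hS
    have hd : HasDerivAt G (√(p s) * (2 * Mf n a p s * (rR a s ^ (n - 2) * rR a s *
        Vf a p s * S) - 2 * c * Vf a p s * Uf X.g X.K e a p 1 s ^ 2 *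
          (((n : ℝ) - 2) * (1 - Vf a p s ^ 2) / (2 * rR a s) - rR a s * S) -
        2 * c * Vf a p s ^ 2 * Uf X.g X.K e a p 1 s *
          ((1 - Vf a p s) / rR a s * Uf X.g X.K e a p 1 s + j))) s := by
      rw [hG]
      have h1 := (dM.fun_pow 2).fun_sub (((dV.fun_pow 2).fun_mul (dU.fun_pow 2)).const_mul c)
      refine h1.congr_deriv ?_
      rw [ekr]
      norm_num
      ring
    refine ⟨_, hd, fun hGs => mul_nonneg hq.le ?_⟩
    refine alg2 (N := n) (pow_pos hρ _) hρ hVs.le (by linarith) hc0 rfl hMs.le ?_ ?_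
    · refine abs_le_of_sq_le_sq' ?_ hMs.le |>.2
      have h2 : c * (Vf a p s ^ 2 * Uf X.g X.K e a p 1 s ^ 2) < Mf n a p s ^ 2 := by
        rw [hG] at hGs
        simp only at hGs
        linarith
      have h3 : (c * Vf a p s * |Uf X.g X.K e a p 1 s|) ^ 2 =
          c * (c * (Vf a p s ^ 2 * Uf X.g X.K e a p 1 s ^ 2)) := by
        rw [mul_pow, mul_pow, sq_abs]; ring
      rw [h3]
      have h4 : 0 ≤ c * (Vf a p s ^ 2 * Uf X.g X.K e a p 1 s ^ 2) := by positivity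
      nlinarith
    · rw [← ekr, hcn]
      exact hS
  choose G' hG' using hmain
  refine persist (G' := fun s => if hs' : r0 < s then G' s hs' else 0) hb
    (hGc.mono fun s hs' => hr0.trans hs'.1) (by rw [hG0]; positivity) ?_ ?_
  · intro s hs'
    rw [dif_pos hs'.1]
    exact (hG' s hs'.1).1
  · intro s hs' h0
    rw [dif_pos hs'.1]
    exact (hG' s hs'.1).2 h0

/-- the bound for the second flux -/
theorem Gv_ge (hn : 3 ≤ n) (hDEC : X.DEC)
    (hR : IsGreatest {r | ∃ x, X.F x = 0 ∧ len x = r} R)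
    (htr : ∀ x, R ≤ len x → tr X.g X.K x = 0) {r0 : ℝ} (hr0 : R ≤ r0) (hV0 : Vf a p r0 = 0)
    (hpos : ∀ r, r0 < r → 0 < Vf a p r) (hmono : ∀ r, r0 ≤ r → Mf n a p r0 ≤ Mf n a p r)
    (hM0 : 0 < Mf n a p r0) {e : Fin n → ℝ} (he : ∑ i, e i ^ 2 = 1) {b : ℝ} (hb : r0 ≤ b) :
    Mf n a p r0 ^ 2 ≤ Mf n a p b ^ 2 - Vf a p b ^ 2 * Uf X.g X.K e a p (-1) b ^ 2 := by
  have hn2 : 2 ≤ n := by omega
  have hn3 : (3 : ℝ) ≤ n := by exact_mod_cast hn
  have hout := Vale.Agent.C92.outside_nonneg (by omega) X hR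
  have hpd : ∀ x, R ≤ len x → (mat X.g x).PosDef := fun x hx => X.pos x (hout x hx)
  have hs : ∀ x i j, X.g x i j = X.g x j i := fun x i j => (X.symm x i j).1
  have hKs : ∀ x, R ≤ len x → ∀ i j, X.K x i j = X.K x j i := fun x _ i j => (X.symm x i j).2
  have hKsm : ∀ i j, Smooth (fun x => X.K x i j) := fun i j => (X.smooth i j).2
  have hdec : ∀ x, R < len x → covNorm X.g (mom X.g X.K) x ≤ mu X.g X.K x := fun x hx =>
    hDEC x (hout x hx.le)
  have hvc : ContinuousOn (Uf X.g X.K e a p (-1)) (Ici R) := h.Uf_cont hKsm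
  obtain ⟨G, hG⟩ : ∃ G : ℝ → ℝ, G = fun r => Mf n a p r ^ 2 -
      Vf a p r ^ 2 * Uf X.g X.K e a p (-1) r ^ 2 := ⟨_, rfl⟩
  have hGb : Mf n a p b ^ 2 - Vf a p b ^ 2 * Uf X.g X.K e a p (-1) b ^ 2 = G b := by rw [hG]
  rw [hGb]
  have hGc : ContinuousOn G (Ici R) := by
    rw [hG]
    exact (h.Mf_cont.pow 2).sub ((h.Vf_cont.pow 2).mul (hvc.pow 2))
  have hG0 : G r0 = Mf n a p r0 ^ 2 := by
    rw [hG]
    simp only [hV0]
    ring
  rw [← hG0]
  have hmain : ∀ s, r0 < s → ∃ G', HasDerivAt G G' s ∧ (0 < G s → 0 ≤ G') := by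
    intro s hs'
    have hsR : R < s := hr0.trans_lt hs'
    obtain ⟨x, hx⟩ := exists_len hn2 (h.hR.trans hsR)
    have hxR : R < len x := by rw [hx]; exact hsR
    have dM := h.M_hd hn hs hpd (x := x) hxR
    have dV := h.V_hd hn hs hpd (x := x) hxR
    have dU := h.Uf_hd (e := e) hn2 hKsm hKs htr (ε := -1) (by norm_num) hsR
    rw [hx] at dM dV
    have hS := h.S_lowv hn2 hs hpd hKsm hKs htr hdec he hxR
    rw [hx] at hS
    have hρ : 0 < rR a s := h.rho_pos hsR.le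
    have hq : 0 < √(p s) := Real.sqrt_pos.2 (h.pp s hsR.le)
    have hMs : 0 < Mf n a p s := hM0.trans_le (hmono s hs'.le)
    have hVs : 0 < Vf a p s := hpos s hs'
    have ekr : rR a s ^ (n - 1) = rR a s ^ (n - 2) * rR a s := by
      rw [← pow_succ]; congr 1; omega
    obtain ⟨S, hSd⟩ : ∃ S, S = scal X.g x / (2 * ((n : ℝ) - 1)) := ⟨_, rfl⟩
    obtain ⟨j, hj⟩ : ∃ j, j = rR a s ^ (n - 1) * Ja X.g X.K e a p (-1) s / ((n : ℝ) - 1) :=
      ⟨_, rfl⟩
    have eM : √(p s) * (rR a s ^ (n - 1) * Vf a p s * scal X.g x / (2 * ((n : ℝ) - 1))) =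
        √(p s) * (rR a s ^ (n - 1) * Vf a p s * S) := by rw [hSd]; ring
    rw [eM] at dM
    rw [← hSd] at dV hS
    rw [← hj] at dU hS
    have hd : HasDerivAt G (√(p s) * (2 * Mf n a p s * (rR a s ^ (n - 2) * rR a s *
        Vf a p s * S) - 2 * Vf a p s * Uf X.g X.K e a p (-1) s ^ 2 *
          (((n : ℝ) - 2) * (1 - Vf a p s ^ 2) / (2 * rR a s) - rR a s * S) -
        2 * Vf a p s ^ 2 * Uf X.g X.K e a p (-1) s *
          ((-1 - Vf a p s) / rR a s * Uf X.g X.K e a p (-1) s + j))) s := by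
      rw [hG]
      have h1 := (dM.fun_pow 2).fun_sub ((dV.fun_pow 2).fun_mul (dU.fun_pow 2))
      refine h1.congr_deriv ?_
      rw [ekr]
      norm_num
      ring
    refine ⟨_, hd, fun hGs => mul_nonneg hq.le ?_⟩
    refine algv (N := n) (pow_pos hρ _) hρ hVs.le (by linarith) rfl hMs.le ?_ ?_
    · refine abs_le_of_sq_le_sq' ?_ hMs.le |>.2
      have h2 : Vf a p s ^ 2 * Uf X.g X.K e a p (-1) s ^ 2 < Mf n a p s ^ 2 := by
        rw [hG] at hGs
        simp only at hGs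
        linarith
      rw [mul_pow, sq_abs]
      exact h2.le
    · rw [← ekr]
      exact hS
  choose G' hG' using hmain
  refine persist (G' := fun s => if hs' : r0 < s then G' s hs' else 0) hb
    (hGc.mono fun s hs' => hr0.trans hs'.1) (by rw [hG0]; positivity) ?_ ?_
  · intro s hs'
    rw [dif_pos hs'.1]
    exact (hG' s hs'.1).1
  · intro s hs' h0
    rw [dif_pos hs'.1]
    exact (hG' s hs'.1).2 h0

/-- **the inequality with the constant `c`** -/
theorem part2_aux (hn : 3 ≤ n) (hDEC : X.DEC) (hAF : X.IsAF) {m : ℝ} (hm : X.IsEnergy m)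
    {P : Fin n → ℝ} (hP : X.IsMomentum P)
    (hR : IsGreatest {r | ∃ x, X.F x = 0 ∧ len x = r} R)
    (htr : ∀ x, R ≤ len x → tr X.g X.K x = 0) (hV : Vf a p R ≤ 0) :
    X.Amin ≠ ⊤ ∧ 0 < m ∧
      ((X.Amin.toReal / omega n) ^ (((n : ℝ) - 2) / (n - 1)) / 2) ^ 2 +
        (n : ℝ) ^ 2 / (((n : ℝ) - 1) * ((n : ℝ) + 2)) * ∑ i, P i ^ 2 ≤ m ^ 2 := by
  have hn2 : 2 ≤ n := by omega
  have hn3 : (3 : ℝ) ≤ n := by exact_mod_cast hn
  have hout := Vale.Agent.C92.outside_nonneg (by omega) X hR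
  have hpd : ∀ x, R ≤ len x → (mat X.g x).PosDef := fun x hx => X.pos x (hout x hx)
  obtain ⟨hMl, hVl⟩ := mass_lim hn h hpd hAF hm
  obtain ⟨r0, hr0, hV0, hpos, hmono, hM0, hA, hle⟩ := start h hn hDEC hAF hm hR htr hV
  obtain ⟨e, he, heP⟩ := unit_of (by omega : 1 ≤ n) P
  have hmpos : 0 < m := lt_of_lt_of_le hM0 (ge_of_tendsto hMl (by
    filter_upwards [eventually_ge_atTop r0] with r hr
    exact hmono r hr))
  refine ⟨hA, hmpos, ?_⟩
  have hGl : Tendsto (fun r => Mf n a p r ^ 2 - (n : ℝ) ^ 2 / (((n : ℝ) - 1) * ((n : ℝ) + 2)) *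
      (Vf a p r ^ 2 * Uf X.g X.K e a p 1 r ^ 2)) atTop
      (𝓝 (m ^ 2 - (n : ℝ) ^ 2 / (((n : ℝ) - 1) * ((n : ℝ) + 2)) *
        ((1 : ℝ) ^ 2 * (∑ i, e i * P i) ^ 2))) :=
    (hMl.pow 2).sub (((hVl.pow 2).mul ((mom_lim hn h hAF hP htr he).pow 2)).const_mul _)
  have hfin := ge_of_tendsto hGl (by
    filter_upwards [eventually_ge_atTop r0] with r hr
    exact Gu_ge h hn hDEC hR htr hr0 hV0 hpos hmono hM0 he hr)
  rw [heP, one_pow, one_mul] at hfin
  have ha0 : 0 ≤ (X.Amin.toReal / omega n) ^ (((n : ℝ) - 2) / (n - 1)) / 2 := by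
    have hω : 0 < omega n := by
      rw [Vale.Agent.P366.omega_eq]
      exact Rd.om_pos hn2
    have : 0 ≤ X.Amin.toReal := ENNReal.toReal_nonneg
    positivity
  have h5 := pow_le_pow_left₀ ha0 hle 2
  linarith

/-- **the full inequality in dimension three** -/
theorem part3_aux (hn : n = 3) (hDEC : X.DEC) (hAF : X.IsAF) {m : ℝ} (hm : X.IsEnergy m)
    {P : Fin n → ℝ} (hP : X.IsMomentum P)
    (hR : IsGreatest {r | ∃ x, X.F x = 0 ∧ len x = r} R)
    (htr : ∀ x, R ≤ len x → tr X.g X.K x = 0) (hV : Vf a p R ≤ 0) :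
    X.Amin ≠ ⊤ ∧ 0 < m ∧
      ((X.Amin.toReal / omega n) ^ (((n : ℝ) - 2) / (n - 1)) / 2) ^ 2 + ∑ i, P i ^ 2 ≤ m ^ 2 ∧
      ∑ i, P i ^ 2 < m ^ 2 := by
  have hn3' : 3 ≤ n := by omega
  have hn2 : 2 ≤ n := by omega
  have hn3 : (3 : ℝ) ≤ n := by exact_mod_cast hn3'
  have hnr : (n : ℝ) = 3 := by rw [hn]; norm_num
  have hout := Vale.Agent.C92.outside_nonneg (by omega) X hR
  have hpd : ∀ x, R ≤ len x → (mat X.g x).PosDef := fun x hx => X.pos x (hout x hx)
  have hs : ∀ x i j, X.g x i j = X.g x j i := fun x i j => (X.symm x i j).1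
  have hKs : ∀ x, R ≤ len x → ∀ i j, X.K x i j = X.K x j i := fun x _ i j => (X.symm x i j).2
  have hKsm : ∀ i j, Smooth (fun x => X.K x i j) := fun i j => (X.smooth i j).2
  have hdec : ∀ x, R < len x → covNorm X.g (mom X.g X.K) x ≤ mu X.g X.K x := fun x hx =>
    hDEC x (hout x hx.le)
  obtain ⟨hMl, hVl⟩ := mass_lim hn3' h hpd hAF hm
  obtain ⟨r0, hr0, hV0, hpos, hmono, hM0, hA, hle⟩ := start h hn3' hDEC hAF hm hR htr hV
  obtain ⟨e, he, heP⟩ := unit_of (by omega : 1 ≤ n) P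
  have hmpos : 0 < m := lt_of_lt_of_le hM0 (ge_of_tendsto hMl (by
    filter_upwards [eventually_ge_atTop r0] with r hr
    exact hmono r hr))
  have hM3 : ∀ r, Mf n a p r = rR a r * (1 - Vf a p r ^ 2) / 2 := by
    intro r
    unfold Mf
    have : n - 2 = 1 := by omega
    rw [this, pow_one]
  -- `V < 1`
  have hV1 : ∀ r, r0 ≤ r → Vf a p r < 1 := by
    intro r hr
    have h1 := hM0.trans_le (hmono r hr)
    rw [hM3] at h1
    have hρ := h.rho_pos (hr0.trans hr)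
    have h2 : 0 < 1 - Vf a p r ^ 2 := by
      by_contra hcon
      push Not at hcon
      nlinarith
    nlinarith
  have hV0' : ∀ r, r0 ≤ r → 0 ≤ Vf a p r := by
    intro r hr
    rcases hr.eq_or_lt with rfl | hlt
    · exact hV0.ge
    · exact (hpos r hlt).le
  obtain ⟨u, hu⟩ : ∃ u, u = Uf X.g X.K e a p 1 := ⟨_, rfl⟩
  obtain ⟨v, hv⟩ : ∃ v, v = Uf X.g X.K e a p (-1) := ⟨_, rfl⟩
  have huc : ContinuousOn u (Ici R) := by rw [hu]; exact h.Uf_cont hKsm
  have hvc : ContinuousOn v (Ici R) := by rw [hv]; exact h.Uf_cont hKsm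
  have hub : ∀ r, r0 ≤ r → 9 / 10 * (Vf a p r * u r) ^ 2 ≤ Mf n a p r ^ 2 := by
    intro r hr
    have := Gu_ge h hn3' hDEC hR htr hr0 hV0 hpos hmono hM0 he hr
    rw [← hu, hnr] at this
    have h1 : 0 ≤ Mf n a p r0 ^ 2 := sq_nonneg _
    have h2 : (3 : ℝ) ^ 2 / ((3 - 1) * (3 + 2)) * (Vf a p r ^ 2 * u r ^ 2) =
      9 / 10 * (Vf a p r * u r) ^ 2 := by ring
    rw [h2] at this
    linarith
  have hvb : ∀ r, r0 ≤ r → (Vf a p r * v r) ^ 2 ≤ Mf n a p r ^ 2 := by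
    intro r hr
    have := Gv_ge h hn3' hDEC hR htr hr0 hV0 hpos hmono hM0 he hr
    rw [← hv] at this
    have h1 : 0 ≤ Mf n a p r0 ^ 2 := sq_nonneg _
    rw [mul_pow]
    linarith
  -- the monotone quantity
  obtain ⟨W, hWd⟩ : ∃ W : ℝ → ℝ, W = fun r =>
    W3 (rR a r) (Vf a p r) (u r / (1 + Vf a p r) ^ 2) (v r) := ⟨_, rfl⟩
  have hW0 : W r0 = Mf n a p r0 ^ 2 := by
    rw [hWd]
    simp only [hV0]
    rw [W3_zero, hM3, hV0]
    ring
  have hWc : ContinuousOn W (Ici r0) := by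
    have c1 := h.rR_cont.mono (Ici_subset_Ici.2 hr0)
    have c2 := h.Vf_cont.mono (Ici_subset_Ici.2 hr0)
    have c3 := huc.mono (Ici_subset_Ici.2 hr0)
    have c4 := hvc.mono (Ici_subset_Ici.2 hr0)
    have c0 : ContinuousOn (fun _ : ℝ => (1 : ℝ)) (Ici r0) := continuousOn_const
    have d1 : ∀ r ∈ Ici r0, (1 + Vf a p r) ^ 2 ≠ 0 := fun r hr => by
      have := hV0' r hr
      positivity
    have cX : ContinuousOn (fun r => u r / (1 + Vf a p r) ^ 2) (Ici r0) :=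
      c3.div ((c0.add c2).pow 2) d1
    have cA : ContinuousOn (fun r => pA (Vf a p r)) (Ici r0) :=
      (continuous_iff_continuousAt.2 fun V => (pA_hd V).continuousAt).comp_continuousOn c2
    have cB : ContinuousOn (fun r => pB (Vf a p r)) (Ici r0) :=
      (continuous_iff_continuousAt.2 fun V => (pB_hd V).continuousAt).comp_continuousOn c2
    have cG : ContinuousOn (fun r => pG (Vf a p r)) (Ici r0) :=
      (continuous_iff_continuousAt.2 fun V => (pG_hd V).continuousAt).comp_continuousOn c2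
    rw [hWd]
    unfold W3
    exact (((c1.mul (c0.sub (c2.pow 2))).div_const 2).pow 2).add (continuousOn_const.mul
      (((cA.mul (cX.pow 2)).add (((continuousOn_const.mul cB).mul cX).mul c4)).add
        (cG.mul (c4.pow 2))))
  have hmain : ∀ s, r0 < s → ∃ G', HasDerivAt W G' s ∧ (0 < W s → 0 ≤ G') := by
    intro s hs'
    have hsR : R < s := hr0.trans_lt hs'
    obtain ⟨x, hx⟩ := exists_len hn2 (h.hR.trans hsR)
    have hxR : R < len x := by rw [hx]; exact hsR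
    have hρ : 0 < rR a s := h.rho_pos hsR.le
    have hq : 0 < √(p s) := Real.sqrt_pos.2 (h.pp s hsR.le)
    have dV := h.V_hd hn3' hs hpd (x := x) hxR
    have dU := h.Uf_hd (e := e) hn2 hKsm hKs htr (ε := 1) (by norm_num) hsR
    have dW := h.Uf_hd (e := e) hn2 hKsm hKs htr (ε := -1) (by norm_num) hsR
    have hS1 := h.S_low3 hn2 hs hpd hKsm hKs htr hdec he hn (ε := 1) (by norm_num) hxR
    have hS2 := h.S_low3 hn2 hs hpd hKsm hKs htr hdec he hn (ε := -1) (by norm_num) hxR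
    rw [hx] at dV hS1 hS2
    obtain ⟨S, hSd⟩ : ∃ S, S = scal X.g x / (2 * ((n : ℝ) - 1)) := ⟨_, rfl⟩
    obtain ⟨j, hj⟩ : ∃ j, j = rR a s ^ (n - 1) * Ja X.g X.K e a p 1 s / ((n : ℝ) - 1) := ⟨_, rfl⟩
    obtain ⟨k, hk⟩ : ∃ k, k = rR a s ^ (n - 1) * Ja X.g X.K e a p (-1) s / ((n : ℝ) - 1) :=
      ⟨_, rfl⟩
    rw [← hSd] at dV hS1 hS2
    rw [← hj] at dU hS1
    rw [← hk] at dW hS2
    rw [← hu, ← hv] at hS1 hS2
    rw [← hu] at dU
    rw [← hv] at dW
    have dV' : HasDerivAt (Vf a p) (√(p s) * ((1 - Vf a p s ^ 2) / (2 * rR a s) -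
        rR a s * S)) s := by
      refine dV.congr_deriv ?_
      rw [hnr]
      ring
    have dR : HasDerivAt (rR a) (√(p s) * Vf a p s) s := by
      refine (h.rR_hd' hsR.le).congr_deriv ?_
      unfold Vf
      field_simp
    have hVs := hpos s hs'
    have hVs1 := hV1 s hs'.le
    have hu1 : (1 + Vf a p s) ^ 2 * (u s / (1 + Vf a p s) ^ 2) = u s := by
      field_simp
    refine ⟨_, by rw [hWd]; exact W3_hd hρ hVs.le dR dV' dU dW, fun hWs => mul_nonneg hq.le ?_⟩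
    have hub' := hub s hs'.le
    have hvb' := hvb s hs'.le
    rw [hM3] at hub' hvb'
    refine Wd3_nonneg hρ hVs hVs1 (by rw [hu1]; exact hS1) (by rw [hu1]; exact hS2) ?_ hvb'
      (by rw [hu1]; exact hub')
    rw [hWd] at hWs
    exact hWs.le
  have hkey : ∀ b, r0 ≤ b → Mf n a p r0 ^ 2 ≤ W b := by
    intro b hb
    rw [← hW0]
    choose G' hG' using hmain
    refine persist (G' := fun s => if hs' : r0 < s then G' s hs' else 0) hb
      (hWc.mono fun s hs' => hs'.1) (by rw [hW0]; positivity) ?_ ?_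
    · intro s hs'
      rw [dif_pos hs'.1]
      exact (hG' s hs'.1).1
    · intro s hs' h0
      rw [dif_pos hs'.1]
      exact (hG' s hs'.1).2 h0
  have hul : Tendsto u atTop (𝓝 (∑ i, e i * P i)) := by
    rw [hu]; exact mom_lim hn3' h hAF hP htr he
  -- `v` is bounded
  have hbv : IsBoundedUnder (· ≤ ·) atTop (norm ∘ v) := by
    refine ⟨2 * (|m| + 1), ?_⟩
    simp only [Filter.eventually_map]
    have hV2 : ∀ᶠ r in atTop, 1 / 2 < Vf a p r := hVl.eventually (lt_mem_nhds (by norm_num))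
    have hMb : ∀ᶠ r in atTop, Mf n a p r < |m| + 1 :=
      hMl.eventually (gt_mem_nhds (lt_of_le_of_lt (le_abs_self m) (by linarith)))
    filter_upwards [hV2, hMb, eventually_ge_atTop r0] with r h1 h2 h3
    have h4 := abs_le_of_sq_le_sq (hvb r h3) (hM0.trans_le (hmono r h3)).le
    rw [abs_mul, abs_of_pos (by linarith : 0 < Vf a p r)] at h4
    simp only [Function.comp, Real.norm_eq_abs]
    nlinarith [abs_nonneg (v r)]
  have hXl : Tendsto (fun r => u r / (1 + Vf a p r) ^ 2) atTop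
      (𝓝 ((∑ i, e i * P i) / (1 + 1) ^ 2)) :=
    hul.div ((hVl.const_add 1).pow 2) (by norm_num)
  have hAl : Tendsto (fun r => pA (Vf a p r)) atTop (𝓝 (pA 1)) :=
    ((pA_hd 1).continuousAt.tendsto).comp hVl
  have hBl : Tendsto (fun r => pB (Vf a p r)) atTop (𝓝 0) := by
    have := ((pB_hd 1).continuousAt.tendsto).comp hVl
    have e1 : pB 1 = 0 := by unfold pB; norm_num
    rwa [e1] at this
  have hGl : Tendsto (fun r => pG (Vf a p r)) atTop (𝓝 0) := by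
    have := ((pG_hd 1).continuousAt.tendsto).comp hVl
    have e1 : pG 1 = 0 := by unfold pG; norm_num
    rwa [e1] at this
  have hz1 : Tendsto (fun r => 2 * pB (Vf a p r) * (u r / (1 + Vf a p r) ^ 2) * v r) atTop
      (𝓝 0) := by
    have h1 : Tendsto (fun r => 2 * pB (Vf a p r) * (u r / (1 + Vf a p r) ^ 2)) atTop (𝓝 0) := by
      have := (hBl.const_mul 2).mul hXl
      simpa using this
    exact h1.zero_mul_isBoundedUnder_le hbv
  have hz2 : Tendsto (fun r => pG (Vf a p r) * v r ^ 2) atTop (𝓝 0) := by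
    have h1 := hGl.zero_mul_isBoundedUnder_le hbv
    have h2 := h1.zero_mul_isBoundedUnder_le hbv
    refine h2.congr fun r => by ring
  have hlim : Tendsto W atTop (𝓝 (m ^ 2 + (1 / 8) * (pA 1 *
      ((∑ i, e i * P i) / (1 + 1) ^ 2) ^ 2 + 0 + 0))) := by
    have h1 : Tendsto (fun r => Mf n a p r ^ 2 + (1 / 8) * (pA (Vf a p r) *
        (u r / (1 + Vf a p r) ^ 2) ^ 2 +
        2 * pB (Vf a p r) * (u r / (1 + Vf a p r) ^ 2) * v r + pG (Vf a p r) * v r ^ 2)) atTop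
        (𝓝 (m ^ 2 + (1 / 8) * (pA 1 * ((∑ i, e i * P i) / (1 + 1) ^ 2) ^ 2 + 0 + 0))) :=
      (hMl.pow 2).add (((((hAl.mul (hXl.pow 2)).add hz1).add hz2)).const_mul (1 / 8))
    refine h1.congr fun r => ?_
    rw [hWd, hM3]
    rfl
  have hfin := ge_of_tendsto hlim (by
    filter_upwards [eventually_ge_atTop r0] with r hr
    exact hkey r hr)
  have e1 : pA 1 = -128 := by unfold pA; norm_num
  have e2 : m ^ 2 + (1 / 8) * (pA 1 * ((∑ i, e i * P i) / (1 + 1) ^ 2) ^ 2 + 0 + 0) =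
      m ^ 2 - (∑ i, e i * P i) ^ 2 := by
    rw [e1]; ring
  rw [e2, heP] at hfin
  have ha0 : 0 ≤ (X.Amin.toReal / omega n) ^ (((n : ℝ) - 2) / (n - 1)) / 2 := by
    have hω : 0 < omega n := by
      rw [Vale.Agent.P366.omega_eq]
      exact Rd.om_pos hn2
    have : 0 ≤ X.Amin.toReal := ENNReal.toReal_nonneg
    positivity
  have h5 := pow_le_pow_left₀ ha0 hle 2
  have h6 : 0 < Mf n a p r0 ^ 2 := by positivity
  exact ⟨hA, hmpos, by linarith, by linarith⟩

end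

end Vale.Agent.H318
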