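import Vale.Agent.P366.R2.H318.Part1
import Vale.Agent.P366.R2.H318.Part2

/-! The touching condition and the trace condition for the final statements. -/

open MeasureTheory Metric Filter Topology Set
open scoped ContDiff ENNReal Matrix

noncomputable section
namespace Vale.Agent.H318
open Vale.Agent.P366.Stmt Vale.Agent.P366.T2 Vale.Agent.T4

variable {n : ℕ}

section

variable {X : Exterior n} {a p : ℝ → ℝ} {R : ℝ} (h : Rd a p R X.g)
include h

/-- the mean curvature of the centred spheres of a spherically symmetric metric -/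
lemma hh_rd (hn : 2 ≤ n) (hs : ∀ x i j, X.g x i j = X.g x j i)
    (hpd : ∀ x, R ≤ len x → (mat X.g x).PosDef) {x : E n} (hx : R ≤ len x) :
    hh X.g x = rH n a (len x) / √(p (len x)) := by
  have hl := h.lapse hs hpd
  have hrd := h.round hs hpd
  have hB := hrd.fits hn
  have h1 := hl.theta_len (K := fun _ _ _ => 0) hx
  have h2 := H1_eq_bdF (B := bgR hn a R hrd.hR hrd.sm hrd.pos) hl hB.toFits0 hx
  have h3 : hh X.g x = thetaPlus X.g (fun _ _ _ => 0) len x := by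
    rw [theta_hh, trS_zero, add_zero]
  rw [h3, h1, h2, h.rad_eq hx]
  have h4 : Vale.Agent.T4.trT (bgF R X.g) (fun _ _ _ => 0) x = 0 := by
    unfold Vale.Agent.T4.trT
    simp
  rw [h4, add_zero]
  rfl

/-- the touching argument -/
theorem Vf_le (hn : 3 ≤ n) (hT : X.Trapped)
    (hR : IsGreatest {r | ∃ x, X.F x = 0 ∧ len x = r} R)
    (ht : ∃ x, X.F x = 0 ∧ len x = R ∧ 0 ≤ trS X.g X.K len x) : Vf a p R ≤ 0 := by
  have hout := Vale.Agent.C92.outside_nonneg (by omega) X hR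
  have hpd : ∀ x, R ≤ len x → (mat X.g x).PosDef := fun x hx => X.pos x (hout x hx)
  have hs : ∀ x i j, X.g x i j = X.g x j i := fun x i j => (X.symm x i j).1
  obtain ⟨x₀, hx0, hx0R, hle⟩ := ht
  have h1 := Vale.Agent.C92.theta_compare (g := X.g) (K := X.K) X.dom.1 h.hR hx0R
    (hpd x₀ hx0R.ge) (X.dom.2.1 x₀ hx0) (fun y hy => by rw [hx0]; exact hout y hy)
  have h2 := h1.trans (hT x₀ hx0)
  rw [theta_hh, hh_rd h (by omega) hs hpd hx0R.ge, hx0R] at h2
  have h3 : rH n a R / √(p R) ≤ 0 := by linarith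
  have h4 : Vf a p R = rR a R / ((n : ℝ) - 1) * (rH n a R / √(p R)) := by
    unfold Vf rH
    have : (n : ℝ) - 1 ≠ 0 := by
      have : (3 : ℝ) ≤ n := by exact_mod_cast hn
      linarith
    field_simp
  rw [h4]
  have hρ := h.rho_pos le_rfl
  have hn3 : (3 : ℝ) ≤ n := by exact_mod_cast hn
  have h5 : 0 ≤ rR a R / ((n : ℝ) - 1) := div_nonneg hρ.le (by linarith)
  exact mul_nonpos_of_nonneg_of_nonpos h5 h3

end

/-- part 1 for a radial trace -/
theorem part1_tr (hn : 3 ≤ n) {X : Exterior n} (hAF : X.IsAF) (hDEC : X.DEC) (hT : X.Trapped)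
    {m : ℝ} (hm : X.IsEnergy m) {R : ℝ} (hR : IsGreatest {r | ∃ x, X.F x = 0 ∧ len x = r} R)
    {Γ : Matrix (Fin n) (Fin n) ℝ → Prop} (hΓ : TransGroup n Γ)
    (hg : Vale.Agent.T4.InvUnder Γ R X.g)
    (htr : ∀ x y, R ≤ len x → len x = len y → tr X.g X.K x = tr X.g X.K y) (ht : Touch X R) :
    X.Amin ≠ ⊤ ∧ 0 < m ∧ (X.Amin.toReal / omega n) ^ (((n : ℝ) - 2) / (n - 1)) / 2 ≤ m := by
  have hout := Vale.Agent.C92.outside_nonneg (by omega) X hR
  have hgs : ∀ i j, Smooth (fun x => X.g x i j) := fun i j => (X.smooth i j).1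
  have hKs : ∀ i j, Smooth (fun x => X.K x i j) := fun i j => (X.smooth i j).2
  have hpd : ∀ x, R ≤ len x → (mat X.g x).PosDef := fun x hx => X.pos x (hout x hx)
  obtain ⟨H, i1, i2, i3, i4, i5, μ, i6, b, G⟩ := exists_good Γ hΓ.orth
  refine part1 hn hAF hDEC hT hm hR hΓ hg G ht fun x hx => ?_
  have h1 := G.sig_avg hΓ.orth hgs hKs hg hpd hx fun h =>
    htr _ _ (by rw [G.len_b]; exact hx) (G.len_b h x)
  rw [h1]
  have h2 := G.vr_nonneg hΓ.orth hgs hKs hg hpd hx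
  linarith

/-- **momentum, all dimensions, and the full inequality in dimension three** -/
theorem part23 (hn : 3 ≤ n) {X : Exterior n} (hAF : X.IsAF) (hDEC : X.DEC) (hT : X.Trapped)
    {m : ℝ} (hm : X.IsEnergy m) {P : Fin n → ℝ} (hP : X.IsMomentum P) {R : ℝ}
    (hR : IsGreatest {r | ∃ x, X.F x = 0 ∧ len x = r} R)
    (hg : Vale.Agent.T4.InvUnder
      (fun A : Matrix (Fin n) (Fin n) ℝ => A.transpose * A = 1 ∧ A.det = 1) R X.g)
    (htr : ∀ x, R ≤ len x → tr X.g X.K x = 0)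
    (ht : ∃ x, X.F x = 0 ∧ len x = R ∧ 0 ≤ trS X.g X.K len x) :
    X.Amin ≠ ⊤ ∧ 0 < m ∧
      ((X.Amin.toReal / omega n) ^ (((n : ℝ) - 2) / (n - 1)) / 2) ^ 2 +
        (n : ℝ) ^ 2 / (((n : ℝ) - 1) * ((n : ℝ) + 2)) * ∑ i, P i ^ 2 ≤ m ^ 2 ∧
      (n = 3 → √(∑ i, P i ^ 2) < m ∧
        (X.Amin.toReal / omega n) ^ (((n : ℝ) - 2) / (n - 1)) / 2 ≤ √(m ^ 2 - ∑ i, P i ^ 2)) := by
  have hout := Vale.Agent.C92.outside_nonneg (by omega) X hR
  have hR0 : 0 < R :=
    (Vale.Agent.P366.Bridge.toRaw X).R1_pos (by omega) (Vale.Agent.P366.Bridge.raw_R1 X hR)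
  have hpd : ∀ x, R ≤ len x → (mat X.g x).PosDef := fun x hx => X.pos x (hout x hx)
  obtain ⟨a, p, h⟩ := rd_of_inv hn (pairTrans_so hn) hR0 hg (fun i j => (X.smooth i j).1)
    (fun x i j => (X.symm x i j).1) hpd
  have hV := Vf_le h hn hT hR ht
  obtain ⟨h1, h2, h3⟩ := part2_aux h hn hDEC hAF hm hP hR htr hV
  refine ⟨h1, h2, h3, fun hn3 => ?_⟩
  obtain ⟨-, -, h4, h5⟩ := part3_aux h hn3 hDEC hAF hm hP hR htr hV
  refine ⟨(Real.sqrt_lt' h2).2 h5, Real.le_sqrt_of_sq_le ?_⟩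
  linarith

end Vale.Agent.H318
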