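import Vale.Agent.P366.T4.EqQ68b

/-! The energy density vanishes in the equality case: `Sp(m)`. -/

open MeasureTheory Metric Filter Topology Set Matrix
open scoped ContDiff ENNReal Matrix

noncomputable section
namespace Vale.Agent.H318
open Vale.Agent.P366.Stmt Vale.Agent.P366.T2 Vale.Agent.T4

variable {n : ℕ} {D : Data n} {be : Fin 3 → ℝ → ℝ}

lemma muM_zero (hn : 4 ≤ n) {r : ℝ} (hr : D.R ≤ r) (hdec : |D.JNM be r| ≤ D.muM be r)
    (hk : |D.k r| < D.H r)
    (heq : 2 * D.H r * deriv D.H r - 2 * D.k r * deriv D.k r =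
      D.c r * (D.H r * D.Rh r - D.H r * (D.H r ^ 2 - D.k r ^ 2) -
        (D.H r ^ 2 - D.k r ^ 2) / D.H r * D.II2M be r)) :
    D.muM be r = 0 := by
  have hc := D.c_pos hr
  have hH : 0 < D.H r := (abs_nonneg _).trans_lt hk
  have hmu : 0 ≤ D.muM be r := (abs_nonneg _).trans hdec
  have h2 : D.k r * D.JNM be r ≤ |D.k r| * |D.JNM be r| := by
    rw [← abs_mul]; exact le_abs_self _
  have h3 : |D.k r| * |D.JNM be r| ≤ |D.k r| * D.muM be r :=
    mul_le_mul_of_nonneg_left hdec (abs_nonneg _)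
  have h3' : |D.k r| * D.muM be r ≤ D.H r * D.muM be r :=
    mul_le_mul_of_nonneg_right hk.le hmu
  have h1 : 0 ≤ D.H r * D.muM be r - D.k r * D.JNM be r := by linarith
  have hbe := D.be2_nonneg hr
  have hK := D.KII_leM be hn hr (D.k r / D.H r)
  have e1 : D.H r * (D.KS2 r - 2 * (D.k r / D.H r) * D.IIKM be r +
      (D.k r / D.H r) ^ 2 * D.II2M be r) = D.H r * D.KS2 r - 2 * D.k r * D.IIKM be r +
        D.k r ^ 2 / D.H r * D.II2M be r := by field_simp
  have e2 : D.c r * (2 * (D.H r * D.muM be r - D.k r * D.JNM be r)) =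
      D.c r * (D.H r * (D.Rh r - D.II2M be r - D.H r ^ 2 + D.k r ^ 2 - D.KS2 r - 2 * D.be2 r) +
        2 * D.k r * D.IIKM be r) - (2 * D.H r * deriv D.H r - 2 * D.k r * deriv D.k r) := by
    rw [Data.muM, Data.JNM, Data.RgM]; field_simp; ring
  have e5 : (D.H r ^ 2 - D.k r ^ 2) / D.H r * D.II2M be r = D.H r * D.II2M be r -
      D.k r ^ 2 / D.H r * D.II2M be r := by field_simp
  rw [heq, e5] at e2
  have hsum : 2 * (D.H r * D.muM be r - D.k r * D.JNM be r) + 2 * (D.H r * D.be2 r) +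
      D.H r * (D.KS2 r - 2 * (D.k r / D.H r) * D.IIKM be r +
      (D.k r / D.H r) ^ 2 * D.II2M be r) = 0 := by
    rw [e1]
    have e6 : D.c r * (2 * (D.H r * D.muM be r - D.k r * D.JNM be r) + 2 * (D.H r * D.be2 r) +
      (D.H r * D.KS2 r - 2 * D.k r * D.IIKM be r + D.k r ^ 2 / D.H r * D.II2M be r)) = 0 := by
      linear_combination e2
    exact (mul_eq_zero.1 e6).resolve_left hc.ne'
  have hq1 : 0 ≤ D.H r * D.be2 r := mul_nonneg hH.le hbe
  have hq2 : 0 ≤ D.H r * (D.KS2 r - 2 * (D.k r / D.H r) * D.IIKM be r +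
      (D.k r / D.H r) ^ 2 * D.II2M be r) := mul_nonneg hH.le hK
  have z1 : D.H r * D.muM be r - D.k r * D.JNM be r = 0 := by linarith
  have z2 : D.H r * D.be2 r = 0 := by linarith
  have z3 : D.H r * (D.KS2 r - 2 * (D.k r / D.H r) * D.IIKM be r +
      (D.k r / D.H r) ^ 2 * D.II2M be r) = 0 := by linarith
  have z2' := (mul_eq_zero.1 z2).resolve_left hH.ne'
  have z3' := (mul_eq_zero.1 z3).resolve_left hH.ne'
  have hmu0 : D.muM be r = 0 := by
    have h4 : (D.H r - |D.k r|) * D.muM be r ≤ 0 := by linarith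
    have h5 : 0 < D.H r - |D.k r| := by linarith
    by_contra hne
    have h6 : 0 < D.muM be r := lt_of_le_of_ne hmu (Ne.symm hne)
    have := mul_pos h5 h6
    linarith
  exact hmu0

theorem mu0_Q (D : Data n) {be : Fin 3 → ℝ → ℝ} {X : Exterior n}
    (h : FitsM D be X.g X.K) (hAF : X.IsAF) (hDEC : X.DEC) (hT : X.Trapped) {m : ℝ}
    {P : Fin n → ℝ} (hm : X.IsEnergy m) (hP : X.IsMomentum P)
    (hR : IsGreatest {r | ∃ x, X.F x = 0 ∧ len x = r} D.R) (hO : Outermost X)
    (heq : (X.Amin.toReal / Vale.Agent.P366.Stmt.omega n) ^ (((n : ℝ) - 2) / (n - 1)) / 2 = m) :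
    ∀ x, D.R < len x → Vale.Agent.P366.Stmt.mu X.g X.K x = 0 := by
  obtain ⟨x0, hx0⟩ := X.bdry
  obtain ⟨i0, -⟩ := X.dom.2.1 x0 hx0
  have hn : 4 ≤ n := D.Q.four_le i0.pos
  have hn4 : (4 : ℝ) ≤ n := by exact_mod_cast hn
  obtain ⟨h1, h2, -⟩ := asymptM D h hAF hm hP
  have hout := Vale.Agent.C92.outside_nonneg (by omega) X hR
  have hdec : ∀ r, D.R < r → |D.JNM be r| ≤ D.muM be r := by
    intro r hr
    have hr0 : 0 < r := D.hR.trans hr
    set x : E n := EuclideanSpace.single ⟨0, by omega⟩ r with hxdef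
    have hx : len x = r := by
      rw [hxdef, len, PiLp.norm_single, Real.norm_eq_abs, abs_of_pos hr0]
    have hx' : D.R < len x := by rw [hx]; exact hr
    have := dec_eqM h hx' (hDEC x (hout x hx'.le)) (scal_eqM D h hx')
    rwa [hx] at this
  have hθ : ∀ r, D.R < r → 0 < D.H r + D.k r := by
    intro r hr
    obtain ⟨x, hx, hpos⟩ := out_gen (by omega) hO D.hR hR hr
    have hxR : D.R ≤ len x := by rw [hx]; exact hr.le
    rw [Vale.Agent.C92.thetaM_eq h (fun y hy => X.pos y (hout y hy)) hxR, hx] at hpos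
    exact hpos
  have hω : 0 < Vale.Agent.P366.Stmt.omega n := by
    rw [Vale.Agent.P366.omega_eq]
    have : Nonempty (Fin n) := ⟨i0⟩
    have : Nontrivial (E n) := inferInstance
    exact Vale.Agent.P366.omega_pos'
  have hA : ∀ r, D.R ≤ r → 2 * m ≤ D.rho r ^ ((n : ℝ) - 2) := by
    intro r hr
    have hle := Amin_leM D hn h hR hr
    have har := D.ar_pos hr
    have h3 : X.Amin.toReal ≤ Vale.Agent.P366.Stmt.omega n * D.ar r :=
      ENNReal.toReal_le_of_le_ofReal (by positivity) hle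
    have h4 : X.Amin.toReal / Vale.Agent.P366.Stmt.omega n ≤ D.ar r := by
      rw [div_le_iff₀ hω]; linarith
    have h5 : (X.Amin.toReal / Vale.Agent.P366.Stmt.omega n) ^ (((n : ℝ) - 2) / (n - 1)) ≤
        D.ar r ^ (((n : ℝ) - 2) / (n - 1)) :=
      Real.rpow_le_rpow (by positivity) h4 (div_nonneg (by linarith) (by linarith))
    have h6 : D.ar r ^ (((n : ℝ) - 2) / (n - 1)) = D.rho r ^ ((n : ℝ) - 2) := by
      unfold Data.rho
      rw [← Real.rpow_mul har.le]
      congr 1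
      ring
    rw [h6] at h5
    linarith
  have key := keyM_eq D be hn hdec (touchM D h hT hR) h2 h1 hA hθ
  intro x hx
  rw [Vale.Agent.M68.mu_eqM' h hx.le (scal_eqM D h hx)]
  exact muM_zero hn hx.le (hdec _ hx) (key _ hx).1 (key _ hx).2.2.1

end Vale.Agent.H318
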