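import Vale.Agent.P366.T4.EqU355

/-! The energy density vanishes in the equality case: `U(m)`. -/

open MeasureTheory Metric Filter Topology Set
open scoped ContDiff ENNReal Matrix

noncomputable section
namespace Vale.Agent.H318
open Vale.Agent.P366.Stmt Vale.Agent.T4
open Vale.Agent.U1 (Data Fits)

variable {n : ℕ}

lemma muU_zero (hn : 3 ≤ n) (D : Data n) {r : ℝ} (hr : D.R ≤ r) (hdec : |D.JN r| ≤ D.mu r)
    (hk : |D.k r| < D.H r)
    (heq : D.lp r * (D.H r * D.Rh r - D.H r * (D.H r ^ 2 - D.k r ^ 2) -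
        (D.H r ^ 2 - D.k r ^ 2) / D.H r * D.II2 r) ≤
      2 * D.H r * deriv D.H r - 2 * D.k r * deriv D.k r) : D.mu r = 0 := by
  have hc := D.lp_pos hr
  have hb0 := D.b_pos hn
  have hH : 0 < D.H r := (abs_nonneg _).trans_lt hk
  have hmu : 0 ≤ D.mu r := (abs_nonneg _).trans hdec
  have h2 : D.k r * D.JN r ≤ |D.k r| * D.mu r := by
    refine (le_abs_self _).trans ?_
    rw [abs_mul]
    exact mul_le_mul_of_nonneg_left hdec (abs_nonneg _)
  have h1 : (D.H r - |D.k r|) * D.mu r ≤ D.H r * D.mu r - D.k r * D.JN r := by linarith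
  have h1' : 0 ≤ (D.H r - |D.k r|) * D.mu r := mul_nonneg (by linarith) hmu
  obtain ⟨y, hy⟩ : ∃ y, y = D.k r / D.H r := ⟨_, rfl⟩
  have eK : D.KS2 r - 2 * y * D.IIK r + y ^ 2 * D.II2 r =
      D.b * (D.ka r / D.al r - y * (D.yb r / D.lp r)) ^ 2 +
        (D.s r / D.q r - y * (D.yf r / D.lp r)) ^ 2 := by
    unfold Data.KS2 Data.IIK Data.II2
    rw [← D.lp_sq hr]
    field_simp
    ring
  obtain ⟨A1, hA1⟩ : ∃ a, a = D.b * (D.ka r / D.al r - y * (D.yb r / D.lp r)) ^ 2 := ⟨_, rfl⟩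
  obtain ⟨A2, hA2⟩ : ∃ a, a = (D.s r / D.q r - y * (D.yf r / D.lp r)) ^ 2 := ⟨_, rfl⟩
  rw [← hA1, ← hA2] at eK
  have hA1n : 0 ≤ A1 := by rw [hA1]; positivity
  have hA2n : 0 ≤ A2 := by rw [hA2]; positivity
  have hbe := D.be2_nonneg hr
  -- the identity
  have e2 : D.lp r * (2 * (D.H r * D.mu r - D.k r * D.JN r)) =
      D.lp r * (D.H r * (D.Rh r - D.II2 r - D.H r ^ 2 + D.k r ^ 2 - D.KS2 r - 2 * D.be2 r) +
        2 * D.k r * D.IIK r) - (2 * D.H r * deriv D.H r - 2 * D.k r * deriv D.k r) := by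
    rw [Data.mu, Data.JN, Data.Rg]; field_simp; ring
  have e1 : D.H r * (A1 + A2) = D.H r * D.KS2 r - 2 * D.k r * D.IIK r +
        D.k r ^ 2 / D.H r * D.II2 r := by
    rw [← eK, hy]; field_simp
  have e5 : (D.H r ^ 2 - D.k r ^ 2) / D.H r * D.II2 r = D.H r * D.II2 r -
      D.k r ^ 2 / D.H r * D.II2 r := by field_simp
  rw [e5] at heq
  have hsum : D.lp r * (2 * (D.H r * D.mu r - D.k r * D.JN r) + D.H r * (A1 + A2) +
      2 * (D.H r * D.be2 r)) ≤ 0 := by
    have e7 : D.lp r * (2 * (D.H r * D.mu r - D.k r * D.JN r) + D.H r * (A1 + A2) +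
        2 * (D.H r * D.be2 r)) = D.lp r * (D.H r * D.Rh r - D.H r * (D.H r ^ 2 - D.k r ^ 2) -
          (D.H r * D.II2 r - D.k r ^ 2 / D.H r * D.II2 r)) -
          (2 * D.H r * deriv D.H r - 2 * D.k r * deriv D.k r) := by
      linear_combination e2 + D.lp r * e1
    rw [e7]
    exact sub_nonpos.2 heq
  have hsum' : 2 * (D.H r * D.mu r - D.k r * D.JN r) + D.H r * (A1 + A2) +
      2 * (D.H r * D.be2 r) ≤ 0 := by
    by_contra hcon
    push Not at hcon
    exact absurd hsum (not_le.2 (mul_pos hc hcon))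
  have hHA1 : 0 ≤ D.H r * A1 := mul_nonneg hH.le hA1n
  have hHA2 : 0 ≤ D.H r * A2 := mul_nonneg hH.le hA2n
  have hHbe : 0 ≤ D.H r * D.be2 r := mul_nonneg hH.le hbe
  have hexp : D.H r * (A1 + A2) = D.H r * A1 + D.H r * A2 := by ring
  rw [hexp] at hsum'
  have z1 : (D.H r - |D.k r|) * D.mu r = 0 := by linarith
  have z2 : D.H r * A1 = 0 := by linarith
  have z3 : D.H r * A2 = 0 := by linarith
  have z4 : D.H r * D.be2 r = 0 := by linarith
  have w1 : D.mu r = 0 := by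
    rcases mul_eq_zero.1 z1 with h | h
    · linarith
    · exact h
  exact w1

theorem mu0_U1 (hn : 3 ≤ n) (D : Data n) {X : Exterior n}
    (h : Fits D X.g X.K) (hAF : X.IsAF) (hDEC : X.DEC) (hT : X.Trapped) {m : ℝ}
    {P : Fin n → ℝ} (hm : X.IsEnergy m) (hP : X.IsMomentum P)
    (hR : IsGreatest {r | ∃ x, X.F x = 0 ∧ len x = r} D.R) (hO : Outermost X)
    (heq : (X.Amin.toReal / omega n) ^ (((n : ℝ) - 2) / (n - 1)) / 2 = m) :
    ∀ x, D.R < len x → mu X.g X.K x = 0 := by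
  have hn3 : (3 : ℝ) ≤ n := by exact_mod_cast hn
  have hN : 0 < (n : ℝ) - 1 := by linarith
  have hb1 : D.b + 1 = (n : ℝ) - 1 := by unfold Data.b; ring
  obtain ⟨h1, h2, h3⟩ := Vale.Agent.U1.asympt hn D h hAF hm hP
  have hout := Vale.Agent.C92.outside_nonneg (by omega) X hR
  have hpos : ∀ y, D.R ≤ len y → (mat X.g y).PosDef := fun y hy => X.pos y (hout y hy)
  have hdec : ∀ r, D.R < r → |D.JN r| ≤ D.mu r := by
    intro r hr
    have hr0 : 0 < r := D.hR.trans hr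
    have hx : len (EuclideanSpace.single (⟨0, by omega⟩ : Fin n) r) = r := by
      rw [len, PiLp.norm_single, Real.norm_eq_abs, abs_of_pos hr0]
    have hx' : D.R < len (EuclideanSpace.single (⟨0, by omega⟩ : Fin n) r) := by
      rw [hx]; exact hr
    have := Vale.Agent.U1.dec_eq h hx' (hDEC _ (hout _ hx'.le)) (Vale.Agent.U1.scal_eq h hx')
    rwa [hx] at this
  have hω : 0 < omega n := by
    have : Nonempty (Fin n) := ⟨⟨0, by omega⟩⟩
    have : Nontrivial (E n) := inferInstance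
    rw [Vale.Agent.P366.omega_eq]
    exact Vale.Agent.P366.omega_pos'
  -- the area bound
  have hA : ∀ r, D.R ≤ r → 2 * m ≤ D.rho r ^ ((n : ℝ) - 2) := by
    intro r hr
    have hρ := D.rho_pos hr
    have hn1 : (n : ℝ) - 1 ≠ 0 := by linarith
    have e : D.rho r ^ ((n : ℝ) - 1) = D.ar r := by
      unfold Data.rho
      rw [← Real.rpow_mul (D.ar_pos hr).le, one_div, inv_mul_cancel₀ hn1, Real.rpow_one]
    have hAm : X.Amin ≤ ENNReal.ofReal (omega n * D.rho r ^ ((n : ℝ) - 1)) := by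
      rw [e]
      exact Vale.Agent.U1.Amin_le (by omega) h hR hr
    have h1 : X.Amin.toReal ≤ omega n * D.rho r ^ ((n : ℝ) - 1) := by
      have h2 := ENNReal.toReal_mono ENNReal.ofReal_ne_top hAm
      rwa [ENNReal.toReal_ofReal (by positivity)] at h2
    have h3 : X.Amin.toReal / omega n ≤ D.rho r ^ ((n : ℝ) - 1) := by
      rw [div_le_iff₀ hω]; linarith
    have h4 : (X.Amin.toReal / omega n) ^ (((n : ℝ) - 2) / (n - 1)) ≤
        (D.rho r ^ ((n : ℝ) - 1)) ^ (((n : ℝ) - 2) / (n - 1)) :=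
      Real.rpow_le_rpow (by positivity) h3 (div_nonneg (by linarith) (by linarith))
    have h5 : (D.rho r ^ ((n : ℝ) - 1)) ^ (((n : ℝ) - 2) / (n - 1)) =
        D.rho r ^ ((n : ℝ) - 2) := by
      rw [← Real.rpow_mul hρ.le]
      congr 1
      field_simp
    rw [h5] at h4
    linarith
  have hpo : ∀ r, D.R < r → 0 < D.H r + D.k r := by
    intro r hr
    obtain ⟨x, hx, hθ⟩ := out_gen (by omega) hO D.hR hR hr
    rw [Vale.Agent.U1.theta_eq h hpos (by rw [hx]; exact hr.le), hx] at hθ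
    exact hθ
  have hkey := key_eq_abs hn (c := D.lp) (H := D.H) (k := D.k) (ρ := D.rho) (Rh := D.Rh)
    (II2 := D.II2) (lam := D.lam) (L2 := D.L2) (IT := D.IT)
    (fun r hr => D.lp_pos hr) (fun r hr => D.H_diff hr) (fun r hr => D.k_diff hr)
    (fun r hr => D.rho_pos hr) (fun r hr => D.rho_deriv hn hr) (fun r hr => D.lam_pos hn hr)
    (fun r hr => D.lam_deriv hr) (fun r hr hlt => D.deriv_le hn hr.le (hdec r hr) hlt)
    (fun r hr => D.hU_le hn hr _) (fun r _ => D.hL_le hn r) (fun r hr => (D.hJ_eq hr).le)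
    (Vale.Agent.U1.touch (by omega) D h hT hR) h2 h1 hA hpo
  intro x hx
  rw [Vale.Agent.U1.mu_eq h hx.le (Vale.Agent.U1.scal_eq h hx)]
  exact muU_zero hn D hx.le (hdec _ hx) (hkey _ hx).1 (hkey _ hx).2.2.1.ge

end Vale.Agent.H318
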