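import Vale.Agent.P366.T5.CohomF92
import Vale.Agent.P366.R2.H318.MuU
import Vale.Agent.P366.R2.H318.MuQ

/-! The energy density vanishes in the equality case of cohomogeneity one. -/

open MeasureTheory Metric Filter Topology Set
open scoped ContDiff ENNReal Matrix

noncomputable section
namespace Vale.Agent.H318
open Vale.Agent.P366.Stmt Vale.Agent.P366.T2 Vale.Agent.T4
open Vale.Agent.P366 (sphI sphM av norm_smul_sph integrable_sph sphI_congr sphI_continuousOn)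

variable {n : ℕ}

/-- the energy density vanishes -/
theorem mu0W (hn : 3 ≤ n) {X : Exterior n} {G : Field n}
    {B : Bg n} (h : Lapse G X.g B.R) (hB : B.FitsW G) (hL : B.LamOK G) (hAF : X.IsAF)
    (hDEC : X.DEC) (hT : X.Trapped) {m : ℝ} (hm : X.IsEnergy m)
    (hR : IsGreatest {r | ∃ x, X.F x = 0 ∧ len x = r} B.R) {κ : ℝ → ℝ}
    (hκ : ∀ x, B.R ≤ len x → √(rad X.g x) * trT G X.K x = κ (len x))
    (hO : Outermost X)
    (heq : (X.Amin.toReal / omega n) ^ (((n : ℝ) - 2) / (n - 1)) / 2 = m) :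
    ∀ x, B.R < len x → mu X.g X.K x = 0 := by
  have : Nonempty (Fin n) := ⟨⟨0, by omega⟩⟩
  have : Nontrivial (E n) := inferInstance
  have hn3 : (3 : ℝ) ≤ n := by exact_mod_cast hn
  have hout := Vale.Agent.C92.outside_nonneg (by omega) X hR
  have hKsm := fun i j => (X.smooth i j).2
  have hKsy : ∀ x, B.R ≤ len x → ∀ i j, X.K x i j = X.K x j i := fun x _ i j => (X.symm x i j).2
  have hdec : ∀ x, B.R < len x → covNorm X.g (mom X.g X.K) x ≤ mu X.g X.K x :=
    fun x hx => hDEC x (hout x hx.le)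
  obtain ⟨hlim, hinf⟩ := stEF hn h hB.toFits0 hL hAF hm hκ
  have hω : 0 < omega n := by
    rw [Vale.Agent.P366.omega_eq]
    exact Vale.Agent.P366.omega_pos'
  -- the area bound
  have hA : ∀ r, B.R ≤ r → 2 * m ≤ B.rho r ^ ((n : ℝ) - 2) := by
    intro r hr
    have hρ := B.rho_pos hr
    have hn1 : (n : ℝ) - 1 ≠ 0 := by linarith
    have e : B.rho r ^ ((n : ℝ) - 1) = B.ar r := by
      unfold Bg.rho
      rw [← Real.rpow_mul (B.ar_pos r hr).le, one_div, inv_mul_cancel₀ hn1, Real.rpow_one]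
    have hAm : X.Amin ≤ ENNReal.ofReal (omega n * B.rho r ^ ((n : ℝ) - 1)) := by
      rw [e]
      exact areaF (by omega) h hB.toFits0 hR hr
    have h1 : X.Amin.toReal ≤ omega n * B.rho r ^ ((n : ℝ) - 1) := by
      have h2 := ENNReal.toReal_mono ENNReal.ofReal_ne_top hAm
      rwa [ENNReal.toReal_ofReal (by positivity)] at h2
    have h3 : X.Amin.toReal / omega n ≤ B.rho r ^ ((n : ℝ) - 1) := by
      rw [div_le_iff₀ hω]; linarith
    have h4 : (X.Amin.toReal / omega n) ^ (((n : ℝ) - 2) / (n - 1)) ≤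
        (B.rho r ^ ((n : ℝ) - 1)) ^ (((n : ℝ) - 2) / (n - 1)) :=
      Real.rpow_le_rpow (by positivity) h3 (div_nonneg (by linarith) (by linarith))
    have h5 : (B.rho r ^ ((n : ℝ) - 1)) ^ (((n : ℝ) - 2) / (n - 1)) =
        B.rho r ^ ((n : ℝ) - 2) := by
      rw [← Real.rpow_mul hρ.le]
      congr 1
      field_simp
    rw [h5] at h4
    linarith
  have hkey := B.key_eq hn (V := Vav X.g) (V' := Vav' X.g) (kap := κ)
    (fun r hr => Vav_pos h hr) (Vav_continuousOn h) (fun r hr => Vav_hasDerivAt h hr)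
    (kap_continuousOn (by omega) h hKsm hκ)
    (fun r hr => kap_differentiableAt (by omega) h hKsm hκ hr)
    (fun r hr hlt => avg_ineqW (stA n) (stB n) h hB hKsm hKsy hκ hr
      (kap_differentiableAt (by omega) h hKsm hκ hr) hdec hlt)
    (touchF (by omega) h hB.toFits0 hκ hT hR) hinf hlim hA
    (fun r hr => out_pos (by omega) h hB.toFits0 hκ hO hR hr)
  have hpt : ∀ x, B.R < len x → PtEq B G X.g X.K κ x := by
    intro x hx
    obtain ⟨h1, h2, h3, h4, h5⟩ := hkey (len x) hx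
    exact (avg_eqW (stA n) (stB n) h hB hKsm hKsy hκ hx
      (kap_differentiableAt (by omega) h hKsm hκ hx) hdec h1 h3.ge).2 x rfl
  exact fun x hx => (hpt x hx).mu0

/-- the energy density vanishes -/
theorem mu0_trans (hn : 3 ≤ n)
    {X : Exterior n} (hAF : X.IsAF) (hDEC : X.DEC)
    (hT : X.Trapped) {m : ℝ} (hm : X.IsEnergy m) {R₁ : ℝ}
    (hR : IsGreatest {r | ∃ x, X.F x = 0 ∧ len x = r} R₁)
    {Γ : Matrix (Fin n) (Fin n) ℝ → Prop} (hΓ : TransGroup n Γ)
    (hg : InvUnder Γ R₁ X.g) (hK : InvUnder Γ R₁ X.K) (hperp : PerpAt R₁ X.g)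
    (hO : Outermost X)
    (heq : (X.Amin.toReal / omega n) ^ (((n : ℝ) - 2) / (n - 1)) / 2 = m) :
    ∀ x, R₁ < len x → mu X.g X.K x = 0 := by
  obtain ⟨hl, hinv⟩ := lapse_trans hn hΓ.orth hR hg hperp
  obtain ⟨κ, hκ⟩ := exists_kappa (hΓ.moves hn) hΓ.orth hl hinv hg hK
  have hgsy : ∀ x i j, X.g x i j = X.g x j i := fun x i j => (X.symm x i j).1
  obtain ⟨B, rfl, hB, hL, hE⟩ := exists_bg_trans hn hΓ hl.hR hl.Gs (bgF_symm hgsy) hl.pos hl.unit
    hinv
  exact mu0W hn hl (hB.toFitsW (by omega)) hL hAF hDEC hT hm hR (κ := κ)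
    hκ hO heq

/-- the energy density vanishes in the equality case -/
theorem mu0_cohom (hn : 3 ≤ n) {X : Exterior n} (hAF : X.IsAF)
    (hDEC : X.DEC) (hT : X.Trapped) {m : ℝ} {P : Fin n → ℝ} (hm : X.IsEnergy m)
    (hP : X.IsMomentum P) {R₁ : ℝ} (hR : IsGreatest {r | ∃ x, X.F x = 0 ∧ len x = r} R₁)
    {Γ : Matrix (Fin n) (Fin n) ℝ → Prop} (hΓ : TransGroup n Γ)
    (hg : InvUnder Γ R₁ X.g) (hK : InvUnder Γ R₁ X.K) (hO : Outermost X)
    (heq : (X.Amin.toReal / omega n) ^ (((n : ℝ) - 2) / (n - 1)) / 2 = m) :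
    ∀ x, R₁ < len x → mu X.g X.K x = 0 := by
  have hout := Vale.Agent.C92.outside_nonneg (by omega) X hR
  have hR0 : 0 < R₁ :=
    (Vale.Agent.P366.Bridge.toRaw X).R1_pos (by omega) (Vale.Agent.P366.Bridge.raw_R1 X hR)
  have hpos : ∀ x, R₁ ≤ len x → (mat X.g x).PosDef := fun x hx => X.pos x (hout x hx)
  have hgs : ∀ i j, Smooth (fun x => X.g x i j) := fun i j => (X.smooth i j).1
  have hgsy : ∀ x i j, X.g x i j = X.g x j i := fun x i j => (X.symm x i j).1
  cases hΓ with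
  | so =>
    exact mu0_trans hn hAF hDEC hT hm hR TransGroup.so hg hK
      (perp_of_pair (by omega) (pairTrans_so hn) hR0 hg hgsy) hO heq
  | u J skew sq =>
    obtain ⟨D, rfl, -, hfit⟩ := Vale.Agent.U1.fits_of_U hn ⟨J, skew, sq⟩ hR0 X.smooth X.symm hpos
      hg hK
    exact mu0_U1 hn D hfit hAF hDEC hT hm hP hR hO heq
  | su h6 J skew sq =>
    obtain ⟨D, rfl, -, hfit⟩ := Vale.Agent.U1.fits_of_SU (by omega) ⟨J, skew, sq⟩ hR0 X.smooth
      X.symm hpos hg hK
    exact mu0_U1 hn D hfit hAF hDEC hT hm hP hR hO heq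
  | sp Q =>
    have hg' : Q.Invariant R₁ X.g := fun A h1 h2 => hg A ⟨h1, h2⟩
    have hK' : Q.Invariant R₁ X.K := fun A h1 h2 => hK A ⟨h1, h2⟩
    obtain ⟨D, be, rfl, -, hfit⟩ := fitsM_of_invariant (by omega) Q hR0 X.smooth X.symm hpos
      hg'.inv hK'.inv
    exact mu0_Q D hfit hAF hDEC hT hm hP hR hO heq
  | g2 =>
    exact mu0_trans hn hAF hDEC hT hm hR TransGroup.g2 hg hK
      (perp_of_pair (by omega) pairTrans_g2 hR0 hg hgsy) hO heq
  | spin7 =>
    exact mu0_trans hn hAF hDEC hT hm hR TransGroup.spin7 hg hK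
      (perp_of_pair (by omega) pairTrans_spin7 hR0 hg hgsy) hO heq
  | spin9 O =>
    exact mu0_trans hn hAF hDEC hT hm hR (TransGroup.spin9 O) hg hK
      (perp_spin9 hn hR0 O hgs hgsy hpos hg) hO heq

end Vale.Agent.H318
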