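import Vale.Agent.P366.R2.H318.Rig1

/-! The equality cases for the momentum inequalities. -/

open MeasureTheory Metric Filter Topology Set
open scoped ContDiff Matrix

noncomputable section
namespace Vale.Agent.H318
open Vale.Agent.P366.Stmt Vale.Agent.P366.T2 Vale.Agent.T4 Vale.Agent.Mom68

variable {n : ℕ}

/-- a tensor of norm zero vanishes -/
lemma normSq_zero {g K : Field n} {x : E n} (hpd : (mat g x).PosDef) (h0 : normSq g K x = 0)
    (i j : Fin n) : K x i j = 0 := by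
  obtain ⟨V, hV⟩ := gram hpd
  rw [normSq_gram hV] at h0
  have h1 : ∀ a c, fr V (K x) a c = 0 := by
    intro a c
    have h2 := (Finset.sum_eq_zero_iff_of_nonneg (fun a _ => Finset.sum_nonneg
      fun c _ => sq_nonneg (fr V (K x) a c))).1 h0 a (Finset.mem_univ a)
    have h3 := (Finset.sum_eq_zero_iff_of_nonneg
      (fun c _ => sq_nonneg (fr V (K x) a c))).1 h2 c (Finset.mem_univ c)
    exact pow_eq_zero_iff two_ne_zero |>.1 h3
  obtain ⟨M, hM⟩ : ∃ M : Matrix (Fin n) (Fin n) ℝ, M = Matrix.of fun i j => K x i j := ⟨_, rfl⟩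
  have h2 : V * M * Vᵀ = 0 := by
    ext a c
    rw [Matrix.mul_apply, Matrix.zero_apply, ← h1 a c]
    unfold fr
    rw [Finset.sum_comm]
    refine Finset.sum_congr rfl fun q _ => ?_
    rw [Matrix.mul_apply, Matrix.transpose_apply, Finset.sum_mul]
    refine Finset.sum_congr rfl fun p _ => ?_
    rw [hM, Matrix.of_apply]
    ring
  have hVV : Vᵀ * V = (mat g x)⁻¹ := by
    ext a c
    rw [Matrix.mul_apply]
    have : (mat g x)⁻¹ a c = up g a c x := rfl
    rw [this, hV]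
    rfl
  have hdet : IsUnit (mat g x).det := isUnit_iff_ne_zero.2 hpd.det_pos.ne'
  have h3 : mat g x * (Vᵀ * V) = 1 := by rw [hVV, Matrix.mul_nonsing_inv _ hdet]
  have h4 : (Vᵀ * V) * mat g x = 1 := by rw [hVV, Matrix.nonsing_inv_mul _ hdet]
  have h5 : M = 0 := by
    calc M = (mat g x * (Vᵀ * V)) * M * ((Vᵀ * V) * mat g x) := by
          rw [h3, h4, Matrix.one_mul, Matrix.mul_one]
      _ = mat g x * Vᵀ * (V * M * Vᵀ) * V * mat g x := by
          simp only [Matrix.mul_assoc]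
      _ = 0 := by rw [h2]; simp
  have h6 := congrFun (congrFun h5 i) j
  rw [hM] at h6
  exact h6

/-- continuity up to the sphere -/
lemma eq_of_outside {f : E n → ℝ} (hf : Continuous f) {r : ℝ} (hr : 0 < r)
    (h : ∀ x, r < len x → f x = 0) {x : E n} (hx : r ≤ len x) : f x = 0 := by
  rcases hx.lt_or_eq with h1 | h1
  · exact h x h1
  · have hc : Tendsto (fun t : ℝ => f (t • x)) (𝓝[>] 1) (𝓝 (f ((1 : ℝ) • x))) :=
      ((hf.comp (continuous_id.smul continuous_const)).tendsto 1).mono_left nhdsWithin_le_nhds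
    rw [one_smul] at hc
    refine tendsto_nhds_unique hc (Tendsto.congr' ?_ tendsto_const_nhds)
    filter_upwards [self_mem_nhdsWithin] with t ht
    have ht1 : (1 : ℝ) < t := ht
    refine (h _ ?_).symm
    unfold len
    rw [norm_smul, Real.norm_eq_abs, abs_of_pos (by linarith)]
    have h2 : ‖x‖ = r := h1.symm
    rw [h2]
    nlinarith

section

variable {X : Exterior n} {a p : ℝ → ℝ} {R : ℝ} (h : Rd a p R X.g)
include h

/-- equality in the inequality with the constant `c` -/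
theorem part2_rigid (hn : 3 ≤ n) (hDEC : X.DEC) (hAF : X.IsAF) {m : ℝ} (hm : X.IsEnergy m)
    {P : Fin n → ℝ} (hP : X.IsMomentum P)
    (hR : IsGreatest {r | ∃ x, X.F x = 0 ∧ len x = r} R)
    (htr : ∀ x, R ≤ len x → tr X.g X.K x = 0) (hV : Vf a p R ≤ 0)
    (heq : ((X.Amin.toReal / omega n) ^ (((n : ℝ) - 2) / (n - 1)) / 2) ^ 2 +
        (n : ℝ) ^ 2 / (((n : ℝ) - 1) * ((n : ℝ) + 2)) * ∑ i, P i ^ 2 = m ^ 2) :
    P = 0 ∧ ∃ r0, R ≤ r0 ∧ Vf a p r0 = 0 ∧ (∀ r, r0 < r → 0 < Vf a p r) ∧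
      ∀ r, r0 < r → Mf n a p r = Mf n a p r0 := by
  have hn2 : 2 ≤ n := by omega
  have hn3 : (3 : ℝ) ≤ n := by exact_mod_cast hn
  have hout := Vale.Agent.C92.outside_nonneg (by omega) X hR
  have hpd : ∀ x, R ≤ len x → (mat X.g x).PosDef := fun x hx => X.pos x (hout x hx)
  obtain ⟨hMl, hVl⟩ := mass_lim hn h hpd hAF hm
  obtain ⟨r0, hr0, hV0, hpos, hmono, hM0, hA, hle⟩ := start h hn hDEC hAF hm hR htr hV
  obtain ⟨e, he, heP⟩ := unit_of (by omega : 1 ≤ n) P
  have hul := mom_lim hn h hAF hP htr he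
  have hGl : Tendsto (fun r => Mf n a p r ^ 2 - (n : ℝ) ^ 2 / (((n : ℝ) - 1) * ((n : ℝ) + 2)) *
      (Vf a p r ^ 2 * Uf X.g X.K e a p 1 r ^ 2)) atTop
      (𝓝 (m ^ 2 - (n : ℝ) ^ 2 / (((n : ℝ) - 1) * ((n : ℝ) + 2)) *
        ((1 : ℝ) ^ 2 * (∑ i, e i * P i) ^ 2))) :=
    (hMl.pow 2).sub (((hVl.pow 2).mul (hul.pow 2)).const_mul _)
  rw [heP, one_pow, one_mul] at hGl
  have ha0 : 0 ≤ (X.Amin.toReal / omega n) ^ (((n : ℝ) - 2) / (n - 1)) / 2 := by
    have hω : 0 < omega n := by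
      rw [Vale.Agent.P366.omega_eq]
      exact Rd.om_pos hn2
    have : 0 ≤ X.Amin.toReal := ENNReal.toReal_nonneg
    positivity
  have h5 := pow_le_pow_left₀ ha0 hle 2
  have hz := fun s (hs' : r0 < s) => Gu_rigid h hn hDEC hR htr hr0 hV0 hpos hmono hM0 he hGl
    (by linarith) hs'
  have hePz : ∑ i, e i * P i = 0 := by
    refine tendsto_nhds_unique hul (Tendsto.congr' ?_ tendsto_const_nhds)
    filter_upwards [eventually_gt_atTop r0] with s hs'
    exact ((hz s hs').1).symm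
  have hPz : P = 0 := by
    have h7 : ∑ i, P i ^ 2 = 0 := by rw [← heP, hePz]; norm_num
    funext i
    have := (Finset.sum_eq_zero_iff_of_nonneg (fun i _ => sq_nonneg (P i))).1 h7 i
      (Finset.mem_univ i)
    exact pow_eq_zero_iff (two_ne_zero) |>.1 this
  exact ⟨hPz, r0, hr0, hV0, hpos, fun s hs' => (hz s hs').2⟩

/-- a constant mass function -/
theorem K_zero (hn : 3 ≤ n) (hDEC : X.DEC)
    (hR : IsGreatest {r | ∃ x, X.F x = 0 ∧ len x = r} R)
    (htr : ∀ x, R ≤ len x → tr X.g X.K x = 0) {r0 : ℝ} (hr0 : R ≤ r0)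
    (hpos : ∀ r, r0 < r → 0 < Vf a p r) (hc : ∀ r, r0 < r → Mf n a p r = Mf n a p r0)
    {x : E n} (hx : r0 ≤ len x) (i j : Fin n) : X.K x i j = 0 := by
  have hn3 : (3 : ℝ) ≤ n := by exact_mod_cast hn
  have hout := Vale.Agent.C92.outside_nonneg (by omega) X hR
  have hpd : ∀ x, R ≤ len x → (mat X.g x).PosDef := fun x hx => X.pos x (hout x hx)
  have hs : ∀ x i j, X.g x i j = X.g x j i := fun x i j => (X.symm x i j).1
  refine eq_of_outside (f := fun x => X.K x i j) ((X.smooth i j).2.continuous)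
    (h.hR.trans_le hr0) (fun y hy => ?_) hx
  have hyR : R < len y := hr0.trans_lt hy
  have h1 := h.M_hd hn hs hpd hyR
  have hconst : ∀ t, r0 ≤ t → Mf n a p t = Mf n a p r0 := by
    intro t ht
    rcases ht.eq_or_lt with h2 | h2
    · rw [h2]
    · exact hc t h2
  have h2 := der_zero hy hconst h1
  have hρ := h.rho_pos hyR.le
  have hq : 0 < √(p (len y)) := Real.sqrt_pos.2 (h.pp _ hyR.le)
  have hV := hpos _ hy
  have hn1 : (0 : ℝ) < 2 * ((n : ℝ) - 1) := by linarith
  have h3 : scal X.g y = 0 := by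
    rcases mul_eq_zero.1 h2 with h4 | h4
    · exact absurd h4 hq.ne'
    · rcases div_eq_zero_iff.1 h4 with h5 | h5
      · rcases mul_eq_zero.1 h5 with h6 | h6
        · exact absurd h6 (mul_pos (pow_pos hρ _) hV).ne'
        · exact h6
      · exact absurd h5 hn1.ne'
  have h4 := hDEC y (hout y hyR.le)
  have h5 : 0 ≤ covNorm X.g (mom X.g X.K) y := Real.sqrt_nonneg _
  have h6 : mu X.g X.K y = -(normSq X.g X.K y) / 2 := by
    unfold mu
    rw [h3, htr y hyR.le]
    ring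
  have h7 := normSq_nonneg' (hpd y hyR.le) X.K
  exact normSq_zero (hpd y hyR.le) (by linarith) i j

/-- **the end of the equality cases** -/
theorem slice_end (hn : 3 ≤ n) (hDEC : X.DEC) (hAF : X.IsAF) (hT : X.Trapped) {m : ℝ}
    (hm : X.IsEnergy m) (hP : X.IsMomentum (0 : Fin n → ℝ))
    (hR : IsGreatest {r | ∃ x, X.F x = 0 ∧ len x = r} R)
    (hg : Vale.Agent.T4.InvUnder
      (fun A : Matrix (Fin n) (Fin n) ℝ => A.transpose * A = 1 ∧ A.det = 1) R X.g)
    (htr : ∀ x, R ≤ len x → tr X.g X.K x = 0)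
    {r0 : ℝ} (hr0 : R ≤ r0) (hV0 : Vf a p r0 = 0)
    (hpos : ∀ r, r0 < r → 0 < Vf a p r) (hc : ∀ r, r0 < r → Mf n a p r = Mf n a p r0)
    (hO : Outermost X)
    (heq : ((X.Amin.toReal / omega n) ^ (((n : ℝ) - 2) / (n - 1)) / 2) ^ 2 = m ^ 2)
    (hm0 : 0 < m) : IsSlice m X.g X.K {x | R < len x} := by
  have hn3 : (3 : ℝ) ≤ n := by exact_mod_cast hn
  have hout := Vale.Agent.C92.outside_nonneg (by omega) X hR
  have hpd : ∀ x, R ≤ len x → (mat X.g x).PosDef := fun x hx => X.pos x (hout x hx)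
  have hs : ∀ x i j, X.g x i j = X.g x j i := fun x i j => (X.symm x i j).1
  have hK0 : ∀ x, r0 ≤ len x → ∀ i j, X.K x i j = 0 := fun x hx i j =>
    K_zero h hn hDEC hR htr hr0 hpos hc hx i j
  have hrR : r0 = R := by
    by_contra hne
    have hlt : R < r0 := lt_of_le_of_ne hr0 (Ne.symm hne)
    obtain ⟨x, hx, hθ⟩ := out_gen (by omega) hO h.hR hR hlt
    have hxR : R ≤ len x := by rw [hx]; exact hr0
    have h1 : trS X.g X.K len x = 0 := by
      unfold trS tr
      simp only [hK0 x hx.ge]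
      simp
    have h2 : rH n a r0 = 0 := by
      unfold Vf at hV0
      have hρ := h.rho_pos hr0
      have hq : 0 < √(p r0) := Real.sqrt_pos.2 (h.pp _ hr0)
      rcases div_eq_zero_iff.1 hV0 with h3 | h3
      · rcases mul_eq_zero.1 h3 with h4 | h4
        · exact absurd h4 hρ.ne'
        · unfold rH
          rw [h4]
          ring
      · exact absurd h3 hq.ne'
    rw [theta_hh, hh_rd h (by omega) hs hpd hxR, hx, h1, h2] at hθ
    simp at hθ
  rw [hrR] at hK0
  have hK : Vale.Agent.T4.InvUnder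
      (fun A : Matrix (Fin n) (Fin n) ℝ => A.transpose * A = 1 ∧ A.det = 1) R X.K := by
    intro A hA x y hx hy i j
    have hly : len y = len x := by
      have h1 : y = act A x := by
        ext k
        rw [hy, act_apply]
      rw [h1]
      exact len_act hA.1 x
    simp only [hK0 x hx, hK0 y (by rw [hly]; exact hx)]
    simp
  obtain ⟨-, -, h1, -, h2⟩ := cohom hn (stEqU hn) (stEqQ hn) hAF hDEC hT hm hP hR TransGroup.so hg hK
  refine h2 hO ?_
  have ha0 : 0 ≤ (X.Amin.toReal / omega n) ^ (((n : ℝ) - 2) / (n - 1)) / 2 := by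
    have hω : 0 < omega n := by
      rw [Vale.Agent.P366.omega_eq]
      exact Rd.om_pos (by omega)
    have : 0 ≤ X.Amin.toReal := ENNReal.toReal_nonneg
    positivity
  have h3 := (pow_left_inj₀ ha0 hm0.le two_ne_zero).1 heq
  rw [h3]
  simp [Real.sqrt_sq hm0.le]

end

end Vale.Agent.H318
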