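import Vale.Agent.P366.R2.H106.Core
import Vale.Agent.P366.R2.H318.MuC
import Vale.Agent.P366.R2.H318.Rig2

/-! The equality case for data with a symmetric metric. -/

open MeasureTheory Metric Filter Topology Set
open scoped ContDiff ENNReal Matrix

noncomputable section
namespace Vale.Agent.H318
open Vale.Agent.P366.Stmt Vale.Agent.P366.T2 Vale.Agent.T4
open Vale.Agent.H106 (Met Hm tauf exists_last)
open Vale.Agent.P366.T1.A919 (O O_iff O_of_bigO)

variable {n : ℕ} {H : Type} [TopologicalSpace H] [CompactSpace H] [MeasurableSpace H]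
  [BorelSpace H] [SecondCountableTopology H] {μ : Measure H} [IsProbabilityMeasure μ]
  {b : H → Matrix (Fin n) (Fin n) ℝ} {Γ : Matrix (Fin n) (Fin n) ℝ → Prop}

/-- the null expansion in the notation of the general leaves -/
lemma theta_Hm {g : Field n} {R : ℝ} (h : Met g R) (K : Field n) {x : E n} (hx : R ≤ len x) :
    thetaPlus g K len x = Hm g x + tauf g K x := by
  rw [← h.mean_eq hx, ← Vale.Agent.H106.trS_eq g K (h.ne_zero hx)]
  rfl

lemma flx_congr {W W' : Fin n → E n → ℝ} {r : ℝ} (hr : 0 ≤ r)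
    (h : ∀ x, len x = r → ∀ j, W j x = W' j x) : flx W r = flx W' r := by
  unfold flx
  rw [sphInt_congr hr fun x hx => Finset.sum_congr rfl fun j _ => by rw [h x hx j]]

/-- a slice only depends on the data on the set -/
lemma isSlice_congr {m : ℝ} {g K K' : Field n} {U : Set (E n)} (hK : ∀ x ∈ U, K x = K' x)
    (h : IsSlice m g K U) : IsSlice m g K' U := by
  obtain ⟨Φ, N, h1, h2, h3⟩ := h
  refine ⟨Φ, N, h1, h2, fun x hx => ?_⟩
  have h4 := h3 x hx
  rw [hK x hx] at h4
  exact h4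

/-- the averaged data as an exterior -/
theorem sym_D (hn : 3 ≤ n) {X : Exterior n} (hAF : X.IsAF) (hDEC : X.DEC) {m : ℝ}
    (hm : X.IsEnergy m) {R : ℝ} (hR : IsGreatest {r | ∃ x, X.F x = 0 ∧ len x = r} R)
    (hΓ : TransGroup n Γ) (hg : InvUnder Γ R X.g) (G : Good Γ μ b)
    (hV : ∀ x, R ≤ len x → Mn μ b (sig X.g X.K) x ≤ sig X.g (avg μ b X.K) x) {r : ℝ} (hr : R ≤ r)
    (hθ : ∀ x : E n, len x = r → thetaPlus X.g (avg μ b X.K) len x ≤ 0)
    (heq : (X.Amin.toReal / omega n) ^ (((n : ℝ) - 2) / (n - 1)) / 2 = m)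
    (hpos : ∀ x : E n, r < len x → 0 < thetaPlus X.g (avg μ b X.K) len x) :
    IsSlice m X.g (avg μ b X.K) {x | r < len x} ∧
      ∀ x, r < len x → mu X.g (avg μ b X.K) x = 0 := by
  have hout := Vale.Agent.C92.outside_nonneg (by omega) X hR
  have hR0 : 0 < R :=
    (Vale.Agent.P366.Bridge.toRaw X).R1_pos (by omega) (Vale.Agent.P366.Bridge.raw_R1 X hR)
  have hr0 : 0 < r := hR0.trans_le hr
  have hgs : ∀ i j, Smooth (fun x => X.g x i j) := fun i j => (X.smooth i j).1
  have hKs : ∀ i j, Smooth (fun x => X.K x i j) := fun i j => (X.smooth i j).2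
  have hpd : ∀ x, R ≤ len x → (mat X.g x).PosDef := fun x hx => X.pos x (hout x hx)
  have hM := hΓ.moves hn
  have ho := hΓ.orth
  have hKa : ∀ i j, Smooth (fun x => avg μ b X.K x i j) := smooth_avg G.cont hKs
  obtain ⟨D, hD⟩ : ∃ D : Exterior n, D = sphD (by omega) hr0 X.g (avg μ b X.K)
      (fun i j => ⟨hgs i j, hKa i j⟩)
      (fun x i j => ⟨(X.symm x i j).1, avg_symm (fun x i j => (X.symm x i j).2) x i j⟩)
      (fun x hx => hpd x (hr.trans hx)) := ⟨_, rfl⟩
  have hDF : D.F = sqF n r := by rw [hD]; rfl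
  have hDg : D.g = X.g := by rw [hD]; rfl
  have hDK : D.K = avg μ b X.K := by rw [hD]; rfl
  clear hD
  have hAF' : D.IsAF := by
    obtain ⟨q, hq, h⟩ := hAF
    refine ⟨q, hq, fun i j k l => ?_⟩
    rw [hDg, hDK]
    exact ⟨(h i j k l).1, (h i j k l).2.1, (h i j k l).2.2.1,
      bigO_K G hKs (fun p q => (h p q k l).2.2.2.1) i j,
      bigO_dK G hKs (fun p q s => (h p q s l).2.2.2.2) i j k⟩
  have hdec : ∀ y, R ≤ len y → covNorm X.g (mom X.g X.K) y ≤ mu X.g X.K y := fun y hy =>
    hDEC y (hout y hy)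
  have hDEC' : D.DEC := by
    intro x hx
    rw [hDF] at hx
    rw [hDg, hDK]
    have hxR : R ≤ len x := hr.trans ((sqF_le hr0).1 hx)
    refine (G.cov_le ho hgs hKs hg hpd hdec hxR).trans ?_
    rw [mu_sig]
    have := hV x hxR
    linarith
  have hT' : D.Trapped := by
    intro x hx
    rw [hDF] at hx ⊢
    rw [hDg, hDK]
    have hx' := (sqF_zero hr0).1 hx
    have hxR : R ≤ len x := by rw [hx']; exact hr
    rw [theta_sqF_gen (ne_zero_of_len hR0 hxR) (hpd x hxR)]
    exact hθ x hx'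
  have hm' : D.IsEnergy m := by
    unfold Exterior.IsEnergy
    rw [hDg]
    exact hm
  have hgr : InvUnder Γ r X.g := fun A hA x y hx => hg A hA x y (hr.trans hx)
  have hKr : InvUnder Γ r (avg μ b X.K) := G.avg_inv hKs r
  have hP' : D.IsMomentum 0 := by
    intro i
    rw [hDg, hDK]
    refine Tendsto.congr' ?_ (tendsto_const_nhds (x := (0 : ℝ)))
    filter_upwards [eventually_ge_atTop r] with s hs
    exact (flx_zero hM ho hgs hKa (fun x hx => hpd x (hr.trans hx)) hgr hKr hr0 hs i).symm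
  have hR' : IsGreatest {s | ∃ x, D.F x = 0 ∧ len x = s} r := by
    rw [hDF]
    exact sphD_greatest (by omega) hr0
  have hgD : InvUnder Γ r D.g := by rw [hDg]; exact hgr
  have hKD : InvUnder Γ r D.K := by rw [hDK]; exact hKr
  obtain ⟨-, h1, h2, h3, h4⟩ := cohom hn (stEqU hn) (stEqQ hn) hAF' hDEC' hT' hm' hP' hR' hΓ hgD hKD
  have hz : ∑ i : Fin n, (0 : Fin n → ℝ) i ^ 2 = 0 := by simp
  rw [hz, Real.sqrt_zero] at h2
  rw [hz, sub_zero, Real.sqrt_sq h2.le] at h3 h4
  have hle : X.Amin ≤ D.Amin := Amin_mono hDg fun x hx => by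
    rw [hDF] at hx
    exact hout x (hr.trans ((sqF_le hr0).1 hx))
  have hω : 0 < omega n := by
    have : Nonempty (Fin n) := ⟨⟨0, by omega⟩⟩
    have : Nontrivial (E n) := inferInstance
    rw [Vale.Agent.P366.omega_eq]
    exact Vale.Agent.P366.omega_pos'
  have hn3 : (3 : ℝ) ≤ n := by exact_mod_cast hn
  have h5 : (X.Amin.toReal / omega n) ^ (((n : ℝ) - 2) / (n - 1)) ≤
      (D.Amin.toReal / omega n) ^ (((n : ℝ) - 2) / (n - 1)) := by
    refine Real.rpow_le_rpow (by positivity) ?_ (div_nonneg (by linarith) (by linarith))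
    exact div_le_div_of_nonneg_right (ENNReal.toReal_mono h1 hle) hω.le
  have hOD : Outermost D := by
    rintro ⟨F, hF, hsub, hFT⟩
    have hsub' : ∀ x, 0 ≤ F x → r < len x := by
      intro x hx
      have h6 := hsub x hx
      rw [hDF] at h6
      unfold sqF at h6
      by_contra hcon
      push Not at hcon
      have : ‖x‖ ^ 2 ≤ r ^ 2 := pow_le_pow_left₀ (norm_nonneg x) hcon 2
      linarith
    rw [hDg, hDK] at hFT
    obtain ⟨x, hx, -, -, hθx⟩ := touch_out (by omega) hF hr0 (fun i j => ⟨hgs i j, hKa i j⟩)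
      (fun x i j => ⟨(X.symm x i j).1, avg_symm (fun x i j => (X.symm x i j).2) x i j⟩)
      (fun x hx => hpd x (hr.trans hx)) hsub' hFT
    exact absurd hθx (not_le.2 (hpos x hx))
  have heqD : (D.Amin.toReal / omega n) ^ (((n : ℝ) - 2) / (n - 1)) / 2 = m := by linarith
  have h6 := h4 hOD heqD
  have h7 := mu0_cohom hn hAF' hDEC' hT' hm' hP' hR' hΓ hgD hKD hOD heqD
  rw [hDg, hDK] at h6 h7
  exact ⟨h6, h7⟩

/-- **equality in the inequality for a symmetric metric** -/
theorem part1_eq (hn : 3 ≤ n) {X : Exterior n} (hAF : X.IsAF) (hDEC : X.DEC) (hT : X.Trapped)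
    {m : ℝ} (hm : X.IsEnergy m) {P : Fin n → ℝ} (hP : X.IsMomentum P) {R : ℝ}
    (hR : IsGreatest {r | ∃ x, X.F x = 0 ∧ len x = r} R)
    (hΓ : TransGroup n Γ) (hg : InvUnder Γ R X.g)
    (htr : ∀ x y, R ≤ len x → len x = len y → tr X.g X.K x = tr X.g X.K y) (ht : Touch X R)
    (hO : Outermost X)
    (heq : (X.Amin.toReal / omega n) ^ (((n : ℝ) - 2) / (n - 1)) / 2 = m) :
    P = 0 ∧ IsSlice m X.g X.K {x | R < len x} := by
  classical
  have hout := Vale.Agent.C92.outside_nonneg (by omega) X hR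
  have hM := Vale.Agent.H106.met_of (by omega) hR
  have hR0 : 0 < R := hM.hR
  have hgs : ∀ i j, Smooth (fun x => X.g x i j) := fun i j => (X.smooth i j).1
  have hKs : ∀ i j, Smooth (fun x => X.K x i j) := fun i j => (X.smooth i j).2
  have hpd : ∀ x, R ≤ len x → (mat X.g x).PosDef := fun x hx => X.pos x (hout x hx)
  obtain ⟨H, i1, i2, i3, i4, i5, μ, i6, b, G⟩ := exists_good Γ hΓ.orth
  have ho := hΓ.orth
  have hKa : ∀ i j, Smooth (fun x => avg μ b X.K x i j) := smooth_avg G.cont hKs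
  have hsig : ∀ x, R ≤ len x → sig X.g (avg μ b X.K) x =
      Mn μ b (sig X.g X.K) x + Good.vr μ b X.g X.K x := fun x hx =>
    G.sig_avg ho hgs hKs hg hpd hx fun h =>
      htr _ _ (by rw [G.len_b]; exact hx) (G.len_b h x)
  have hV : ∀ x, R ≤ len x → Mn μ b (sig X.g X.K) x ≤ sig X.g (avg μ b X.K) x := by
    intro x hx
    rw [hsig x hx]
    have h2 := G.vr_nonneg ho hgs hKs hg hpd hx
    linarith
  -- the null expansion of the averaged data is radial
  have hrad : ∀ x y : E n, R ≤ len x → len x = len y →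
      thetaPlus X.g (avg μ b X.K) len x = thetaPlus X.g (avg μ b X.K) len y := by
    intro x y hx hxy
    rw [G.theta_avg hn (hΓ.moves hn) ho hgs hKs hg hpd hR0 hx rfl rfl,
      G.theta_avg hn (hΓ.moves hn) ho hgs hKs hg hpd hR0 hx hxy.symm rfl]
  have hθR : ∀ x : E n, len x = R → thetaPlus X.g (avg μ b X.K) len x ≤ 0 := by
    obtain ⟨x₀, hx0, hx0R, hle⟩ := ht
    intro x hx
    rw [G.theta_avg hn (hΓ.moves hn) hΓ.orth hgs hKs hg hpd hR0 le_rfl hx hx0R]
    have h1 := Vale.Agent.C92.theta_compare (g := X.g) (K := X.K) X.dom.1 hR0 hx0R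
      (hpd x₀ hx0R.ge) (X.dom.2.1 x₀ hx0) (fun y hy => by rw [hx0]; exact hout y hy)
    have h2 := h1.trans (hT x₀ hx0)
    linarith
  obtain ⟨q, hq, hAFq⟩ := hAF
  have hn3 : (3 : ℝ) ≤ n := by exact_mod_cast hn
  have hq0 : 0 < q := by linarith
  have i0 : Fin n := ⟨0, by omega⟩
  have D : Dec X.g q := ⟨fun i j => O_of_bigO (hAFq i j i0 i0).1,
    fun i j k => O_of_bigO (hAFq i j k i0).2.1⟩
  have hKO : ∀ i j, O (q + 1) (fun x => avg μ b X.K x i j) := fun i j =>
    O_of_bigO (bigO_K G hKs (fun p r => (hAFq p r i0 i0).2.2.2.1) i j)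
  have hinf := hM.far_lt (by omega) hq0 D hKO
  obtain ⟨xR, hxR⟩ := exists_len (n := n) (by omega) hR0
  obtain ⟨r0, hr0, hz, hgt⟩ := exists_last (n := n) (by omega) hR0
    (f := fun x => -(Hm X.g x + tauf X.g (avg μ b X.K) x)) (P := fun _ => True)
    (fun x hx => ((hM.cHm hx).continuousAt.add (hM.ctauf hKa hx).continuousAt).neg)
    (fun r hr => by
      obtain ⟨y, hy⟩ := exists_len (n := n) (by omega) (hR0.trans_le hr)
      rcases le_or_gt (thetaPlus X.g (avg μ b X.K) len y) 0 with h1 | h1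
      · refine Or.inl fun x hx => ?_
        rw [← theta_Hm hM _ (by rw [hx]; exact hr), hrad x y (by rw [hx]; exact hr)
          (hx.trans hy.symm)]
        linarith
      · refine Or.inr ⟨fun x hx => ?_, trivial⟩
        rw [← theta_Hm hM _ (by rw [hx]; exact hr), hrad x y (by rw [hx]; exact hr)
          (hx.trans hy.symm)]
        linarith)
    ⟨xR, hxR, by
      rw [← theta_Hm hM _ hxR.ge]
      have := hθR xR hxR
      linarith⟩
    (hinf.mono fun r hr x hx => by
      have h1 := hr x hx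
      have h2 := neg_abs_le (tauf X.g (avg μ b X.K) x)
      linarith)
  have hθ0 : ∀ x : E n, len x = r0 → thetaPlus X.g (avg μ b X.K) len x ≤ 0 := by
    intro x hx
    rw [theta_Hm hM _ (by rw [hx]; exact hr0)]
    have := hz x hx
    linarith
  have hpos : ∀ x : E n, r0 < len x → 0 < thetaPlus X.g (avg μ b X.K) len x := by
    intro x hx
    rw [theta_Hm hM _ (hr0.trans hx.le)]
    have := (hgt _ hx).1 x rfl
    linarith
  obtain ⟨hsl, hmu⟩ := sym_D hn ⟨q, hq, hAFq⟩ hDEC hm hR hΓ hg G hV hr0 hθ0 heq hpos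
  -- the variance vanishes
  have hvr : ∀ x, r0 < len x → Good.vr μ b X.g X.K x = 0 := by
    intro x hx
    have hxR : R ≤ len x := hr0.trans hx.le
    have h1 := G.Av_mu ho hgs hKs hg hpd hxR
    have h2 : 0 ≤ (scal X.g x + Mn μ b (sig X.g X.K) x) / 2 :=
      (Av.const (μ := μ) (0 : ℝ)).le h1 fun h =>
        (Real.sqrt_nonneg _).trans (hDEC _ (hout _ (by rw [G.len_b]; exact hxR)))
    have h3 := hmu x hx
    rw [mu_sig, hsig x hxR] at h3
    have h4 := G.vr_nonneg ho hgs hKs hg hpd hxR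
    linarith
  have hopen : Measure.IsOpenPosMeasure μ := ⟨fun U hU hne => (G.pos U hU hne).ne'⟩
  have hKeq : ∀ x, r0 < len x → ∀ i j, X.K x i j = avg μ b X.K x i j := by
    intro x hx i j
    have hxR : R ≤ len x := hr0.trans hx.le
    obtain ⟨V, h1, h2⟩ := normSq_var (μ := μ) (hpd x hxR) (T := fun h => pull (b h) X.K)
      (W := avg μ b X.K) (fun i j => Av_pull G.cont hKs x i j)
    have hV0 : V = 0 := by rw [h2.eq]; exact hvr x hx
    have h3 : ∀ h, normSq X.g (fun y i j => pull (b h) X.K y i j - avg μ b X.K y i j) x = 0 := by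
      have h4 := h2.eq
      rw [hV0] at h4
      have h5 := (integral_eq_zero_iff_of_nonneg (fun h => normSq_nonneg' (hpd x hxR) _)
        h2.int).1 h4.symm
      have h6 := (Continuous.ae_eq_iff_eq μ h2.cont continuous_const).1 h5
      exact fun h => congrFun h6 h
    obtain ⟨h1', hone⟩ := G.one
    have h7 := normSq_zero (hpd x hxR) (h3 h1') i j
    have h8 : pull (b h1') X.K x i j = X.K x i j := by
      rw [hone, pull_one]
    rw [h8] at h7
    linarith
  have hKeq' : ∀ x, r0 ≤ len x → ∀ i j, X.K x i j = avg μ b X.K x i j := by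
    intro x hx i j
    have h1 := eq_of_outside (f := fun x => X.K x i j - avg μ b X.K x i j)
      ((hKs i j).continuous.sub (hKa i j).continuous) (hR0.trans_le hr0)
      (fun y hy => by rw [hKeq y hy]; ring) hx
    linarith
  have hrR : r0 = R := by
    by_contra hne
    have hlt : R < r0 := lt_of_le_of_ne hr0 (Ne.symm hne)
    obtain ⟨x, hx, hθ⟩ := out_gen (by omega) hO hR0 hR hlt
    have h1 := hθ0 x hx
    have h2 : trS X.g X.K len x = trS X.g (avg μ b X.K) len x := by
      unfold trS tr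
      simp only [hKeq' x hx.ge]
    rw [theta_hh, h2, ← theta_hh] at hθ
    linarith
  rw [hrR] at hsl hKeq'
  refine ⟨?_, isSlice_congr (fun x hx => ?_) hsl⟩
  · funext i
    refine tendsto_nhds_unique (hP i) ?_
    refine Tendsto.congr' ?_ (tendsto_const_nhds (x := (0 : ℝ)))
    filter_upwards [eventually_ge_atTop R] with s hs
    have h1 := flx_zero (hΓ.moves hn) ho hgs hKa hpd hg (G.avg_inv hKs R) hR0 hs i
    rw [← h1]
    refine flx_congr (hR0.trans_le hs).le fun x hx j => ?_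
    have hxR : R ≤ len x := by rw [hx]; exact hs
    unfold momT tr
    simp only [hKeq' x hxR]
  · funext i j
    exact (hKeq' x (le_of_lt hx) i j).symm

end Vale.Agent.H318
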