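import Vale.Agent.P366.R2.H318.End
import Vale.Agent.P366.R2.H318.Rig3

/-! The equality cases for the final statement. -/

open MeasureTheory Metric Filter Topology Set
open scoped ContDiff ENNReal Matrix

noncomputable section
namespace Vale.Agent.H318
open Vale.Agent.P366.Stmt Vale.Agent.P366.T2 Vale.Agent.T4

variable {n : ℕ}

/-- the two sharp inequalities with their equality cases, symmetric metric of the full group -/
theorem part23_eq (hn : 3 ≤ n) {X : Exterior n} (hAF : X.IsAF) (hDEC : X.DEC) (hT : X.Trapped)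
    {m : ℝ} (hm : X.IsEnergy m) {P : Fin n → ℝ} (hP : X.IsMomentum P) {R : ℝ}
    (hR : IsGreatest {r | ∃ x, X.F x = 0 ∧ len x = r} R)
    (hg : Vale.Agent.T4.InvUnder
      (fun A : Matrix (Fin n) (Fin n) ℝ => A.transpose * A = 1 ∧ A.det = 1) R X.g)
    (htr : ∀ x, R ≤ len x → tr X.g X.K x = 0)
    (ht : ∃ x, X.F x = 0 ∧ len x = R ∧ 0 ≤ trS X.g X.K len x) :
    (((X.Amin.toReal / omega n) ^ (((n : ℝ) - 2) / (n - 1)) / 2) ^ 2 +
        (n : ℝ) ^ 2 / (((n : ℝ) - 1) * ((n : ℝ) + 2)) * ∑ i, P i ^ 2 = m ^ 2 →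
      P = 0 ∧ (Outermost X → IsSlice m X.g X.K {x | R < len x})) ∧
    (n = 3 → (X.Amin.toReal / omega n) ^ (((n : ℝ) - 2) / (n - 1)) / 2 =
        √(m ^ 2 - ∑ i, P i ^ 2) →
      P = 0 ∧ (Outermost X → IsSlice m X.g X.K {x | R < len x})) := by
  have hout := Vale.Agent.C92.outside_nonneg (by omega) X hR
  have hR0 : 0 < R :=
    (Vale.Agent.P366.Bridge.toRaw X).R1_pos (by omega) (Vale.Agent.P366.Bridge.raw_R1 X hR)
  have hpd : ∀ x, R ≤ len x → (mat X.g x).PosDef := fun x hx => X.pos x (hout x hx)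
  obtain ⟨a, p, h⟩ := rd_of_inv hn (pairTrans_so hn) hR0 hg (fun i j => (X.smooth i j).1)
    (fun x i j => (X.symm x i j).1) hpd
  have hV := Vf_le h hn hT hR ht
  obtain ⟨-, h2, -⟩ := part2_aux h hn hDEC hAF hm hP hR htr hV
  -- a common ending
  have key : (P = 0 ∧ ∃ r0, R ≤ r0 ∧ Vf a p r0 = 0 ∧ (∀ r, r0 < r → 0 < Vf a p r) ∧
      ∀ r, r0 < r → Mf n a p r = Mf n a p r0) →
      (P = 0 → ((X.Amin.toReal / omega n) ^ (((n : ℝ) - 2) / (n - 1)) / 2) ^ 2 = m ^ 2) →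
      P = 0 ∧ (Outermost X → IsSlice m X.g X.K {x | R < len x}) := by
    rintro ⟨h3, r0, hr0, hV0, hpos, hc⟩ h4
    refine ⟨h3, fun hO => ?_⟩
    exact slice_end h hn hDEC hAF hT hm (h3 ▸ hP) hR hg htr hr0 hV0 hpos hc hO (h4 h3) h2
  refine ⟨fun heq => ?_, fun hn3 heq => ?_⟩
  · refine key (part2_rigid h hn hDEC hAF hm hP hR htr hV heq) fun h3 => ?_
    rw [h3] at heq
    simpa using heq
  · obtain ⟨-, -, h4, h5⟩ := part3_aux h hn3 hDEC hAF hm hP hR htr hV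
    have h6 : 0 ≤ m ^ 2 - ∑ i, P i ^ 2 := by linarith
    have heq2 : ((X.Amin.toReal / omega n) ^ (((n : ℝ) - 2) / (n - 1)) / 2) ^ 2 +
        ∑ i, P i ^ 2 = m ^ 2 := by
      rw [heq, Real.sq_sqrt h6]
      ring
    refine key (part3_rigid h hn3 hDEC hAF hm hP hR htr hV heq2) fun h3 => ?_
    rw [h3] at heq2
    simpa using heq2

end Vale.Agent.H318
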