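import Mathlib.Analysis.Calculus.MeanValue
import Mathlib.Tactic

/-! Monotonicity of a quantity whose derivative is nonnegative while it is positive. -/

open Filter Topology Set

noncomputable section
namespace Vale.Agent.H318

lemma persist_aux {G G' : ℝ → ℝ} {a b : ℝ} (hab : a < b) (hc : ContinuousOn G (Icc a b))
    (h0 : 0 < G a) (hd : ∀ x ∈ Ico a b, HasDerivAt G (G' x) x)
    (hp : ∀ x ∈ Ico a b, 0 < G x → 0 ≤ G' x) : G a ≤ G b := by
  refine le_of_forall_pos_le_add fun δ hδ => ?_
  obtain ⟨η, hη0, hη1, hη2⟩ : ∃ η : ℝ, 0 < η ∧ η * (b - a) < G a ∧ η * (b - a) ≤ δ := by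
    have hba : 0 < b - a := by linarith
    refine ⟨min (G a / 2) δ / (b - a), by positivity, ?_, ?_⟩
    · rw [div_mul_cancel₀ _ hba.ne']
      exact (min_le_left _ _).trans_lt (by linarith)
    · rw [div_mul_cancel₀ _ hba.ne']
      exact min_le_right _ _
  have h1 := image_le_of_deriv_right_lt_deriv_boundary' (f := fun x => -G x)
    (f' := fun x => -G' x) (a := a) (b := b) (B := fun x => -G a + η * (x - a))
    (B' := fun _ => η) hc.neg (fun x hx => (hd x hx).neg.hasDerivWithinAt) (by simp)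
    (by fun_prop) (fun x _ => by
      have h2 : HasDerivAt (fun x => -G a + η * (x - a)) (η * 1) x :=
        (((hasDerivAt_id x).sub_const a).const_mul η).const_add _
      rw [mul_one] at h2
      exact h2.hasDerivWithinAt) (fun x hx he => by
      have h3 : G x = G a - η * (x - a) := by
        have : -G x = -G a + η * (x - a) := he
        linarith
      have h4 : η * (x - a) ≤ η * (b - a) := by
        refine mul_le_mul_of_nonneg_left ?_ hη0.le
        linarith [hx.2]
      have h5 := hp x hx (by rw [h3]; linarith)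
      show -G' x < η
      linarith)
  have h2 := h1 (right_mem_Icc.2 hab.le)
  have h3 : -G b ≤ -G a + η * (b - a) := h2
  linarith

/-- a quantity whose derivative is nonnegative while it is positive -/
theorem persist {G G' : ℝ → ℝ} {a b : ℝ} (hab : a ≤ b) (hc : ContinuousOn G (Icc a b))
    (h0 : 0 < G a) (hd : ∀ x ∈ Ioo a b, HasDerivAt G (G' x) x)
    (hp : ∀ x ∈ Ioo a b, 0 < G x → 0 ≤ G' x) : G a ≤ G b := by
  rcases hab.eq_or_lt with rfl | hlt
  · exact le_rfl
  have hca : Tendsto G (𝓝[>] a) (𝓝 (G a)) := by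
    have h1 := (hc a (left_mem_Icc.2 hab)).mono_left (nhdsWithin_mono a Ioc_subset_Icc_self)
    rwa [nhdsWithin_Ioc_eq_nhdsGT hlt] at h1
  refine le_of_tendsto hca ?_
  have hpos : ∀ᶠ x in 𝓝[>] a, 0 < G x := hca.eventually (lt_mem_nhds h0)
  have hm : ∀ᶠ x in 𝓝[>] a, x ∈ Ioo a b := Ioo_mem_nhdsGT hlt
  filter_upwards [hpos, hm] with c hc0 hcm
  exact persist_aux hcm.2 (hc.mono (Icc_subset_Icc_left hcm.1.le)) hc0
    (fun x hx => hd x ⟨hcm.1.trans_le hx.1, hx.2⟩) fun x hx => hp x ⟨hcm.1.trans_le hx.1, hx.2⟩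

end Vale.Agent.H318
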