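import Vale.Agent.P366.R2.H318.MeanK
import Vale.Agent.P366.R2.H318.Alg
import Vale.Agent.P366.R2.H318.Persist

/-! The normalised fluxes. -/

open MeasureTheory Metric Filter Topology Set
open scoped ContDiff Matrix

noncomputable section
namespace Vale.Agent.H318
open Vale.Agent.P366.Stmt Vale.Agent.P366.T2 Vale.Agent.T4 Vale.Agent.Mom68
open Vale.Agent.P366 (sphI sphM isOpen_outside sphI_congr sphI_add sphI_const_mul integrable_sph
  norm_smul_sph sphI_const sphI_Nc_Nc sphI_continuousOn)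

variable {n : ℕ}

lemma sphI_cont_Ici {f : E n → ℝ} {R : ℝ} (hR : 0 < R) (hf : ∀ x, R ≤ ‖x‖ → ContinuousAt f x) :
    ContinuousOn (sphI f) (Ici R) := by
  have h0 : ContinuousOn (fun x : E n => f (proj R x)) {x : E n | 0 < ‖x‖} := by
    intro x hx
    have hx0 : x ≠ 0 := norm_pos_iff.1 hx
    have hl := proj_len (R := R) hR hx0
    have hle : R ≤ ‖proj R x‖ := by
      have : R ≤ len (proj R x) := by rw [hl]; exact le_max_right _ _
      exact this
    have h2 : ContinuousAt (proj R) x := by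
      unfold proj
      refine ContinuousAt.smul (f := fun x : E n => max ‖x‖ R / ‖x‖) (g := fun x => x) ?_
        continuousAt_id
      exact (continuous_norm.max continuous_const).continuousAt.div continuous_norm.continuousAt
        (norm_ne_zero_iff.2 hx0)
    exact (ContinuousAt.comp (f := proj R) (hf _ hle) h2).continuousWithinAt
  have h1 : ContinuousOn (sphI fun x : E n => f (proj R x)) (Ioi 0) := sphI_continuousOn le_rfl h0
  refine (h1.mono fun r hr => hR.trans_le hr).congr fun r hr => ?_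
  refine sphI_congr (hR.le.trans hr) fun x hx => ?_
  rw [proj_eq hR (by rw [hx]; exact hr)]

/-- the normalised flux -/
def Uf (g K : Field n) (e : Fin n → ℝ) (a p : ℝ → ℝ) (ε r : ℝ) : ℝ :=
  Fl g K e a p ε r / (((n : ℝ) - 1) * Vale.Agent.P366.omega n)

namespace Rd

variable {a p : ℝ → ℝ} {R : ℝ} {g K : Field n} (h : Rd a p R g) {x : E n} {e : Fin n → ℝ} {ε : ℝ}

lemma dens (a p : ℝ → ℝ) (r : ℝ) : r ^ (n - 1) * Dn n a p r = rR a r ^ (n - 1) * √(p r) := by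
  unfold Dn rR
  rw [mul_pow]
  ring

lemma om_pos (hn : 2 ≤ n) : 0 < Vale.Agent.P366.omega n := by
  have : Nonempty (Fin n) := ⟨⟨0, by omega⟩⟩
  have : Nontrivial (E n) := inferInstance
  exact Vale.Agent.P366.omega_pos'

lemma n1_pos (hn : 2 ≤ n) : (0 : ℝ) < (n : ℝ) - 1 := by
  have : (2 : ℝ) ≤ n := by exact_mod_cast hn
  linarith

lemma Uf_An (hn : 2 ≤ n) (r : ℝ) :
    Uf g K e a p ε r = rR a r ^ (n - 1) * An g K e a p ε r / ((n : ℝ) - 1) := by
  have h1 := om_pos hn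
  have h2 := n1_pos hn
  unfold Uf Fl An
  rw [dens]
  field_simp

include h

lemma Uf_hd (hn : 2 ≤ n) (hK : ∀ i j, Smooth (fun x => K x i j))
    (hs : ∀ x, R ≤ len x → ∀ i j, K x i j = K x j i)
    (htr : ∀ x, R ≤ len x → tr g K x = 0) (hε : ε ^ 2 = 1) {r : ℝ} (hr : R < r) :
    HasDerivAt (Uf g K e a p ε) (√(p r) * ((ε - Vf a p r) / rR a r * Uf g K e a p ε r +
      rR a r ^ (n - 1) * Ja g K e a p ε r / ((n : ℝ) - 1))) r := by
  have h1 := om_pos hn
  have h2 := n1_pos hn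
  have hr0 := h.hR.trans hr
  have ha := h.pa r hr.le
  have hp := h.pp r hr.le
  have hA0 : 0 < √(a r) := Real.sqrt_pos.2 ha
  have hP0 : 0 < √(p r) := Real.sqrt_pos.2 hp
  refine ((h.Fl_hd (e := e) hK hn hs htr hε hr).div_const _).congr_deriv ?_
  unfold Uf Ja
  rw [dens]
  unfold cf Vf
  have hc : ε * √(p r) / (r * √(a r)) - (1 / r + deriv a r / (2 * a r)) =
      √(p r) * ((ε - rR a r * (1 / r + deriv a r / (2 * a r)) / √(p r)) / rR a r) := by
    unfold rR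
    field_simp
  rw [hc]
  field_simp
  ring

lemma cFl : ContinuousOn (sphI (nW g K e a p ε)) (Ici R) → ContinuousOn (Uf g K e a p ε) (Ici R) := by
  intro h0
  have h1 : ContinuousOn (Fl g K e a p ε) (Ici R) := by
    unfold Fl
    refine ContinuousOn.mul (ContinuousOn.mul (by fun_prop) fun r hr => ?_) h0
    exact (h.cDn hr).continuousAt.continuousWithinAt
  exact h1.div_const _

lemma Uf_cont (hK : ∀ i j, Smooth (fun x => K x i j)) : ContinuousOn (Uf g K e a p ε) (Ici R) :=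
  h.cFl (sphI_cont_Ici h.hR fun _ hx => (h.cnW hK hx).continuousAt)

lemma rR_cont : ContinuousOn (rR a) (Ici R) := fun _ hr =>
  (h.rR_hd' hr).continuousAt.continuousWithinAt

lemma Vf_cont : ContinuousOn (Vf a p) (Ici R) := by
  intro r hr
  have hr0 := (h.hR.trans_le hr).ne'
  have ha := (h.pa r hr).ne'
  have hda : ContinuousAt (deriv a) r := (h.sa.continuous_deriv (by norm_num)).continuousAt
  have h1 : ContinuousAt (fun s => 1 / s + deriv a s / (2 * a s)) r :=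
    (continuousAt_const.div continuousAt_id hr0).add
      (hda.div (continuousAt_const.mul h.sa.continuous.continuousAt) (by simpa using ha))
  exact (((h.rR_hd' hr).continuousAt.mul h1).div (h.sqrt_hd hr).continuousAt
    (Real.sqrt_pos.2 (h.pp r hr)).ne').continuousWithinAt

lemma Mf_cont : ContinuousOn (Mf n a p) (Ici R) :=
  ((h.rR_cont.pow _).mul (continuousOn_const.sub (h.Vf_cont.pow 2))).div_const 2

variable (hn : 2 ≤ n) (hs : ∀ x i j, g x i j = g x j i)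
    (hpd : ∀ x, R ≤ len x → (mat g x).PosDef) (hK : ∀ i j, Smooth (fun x => K x i j))
    (hKs : ∀ x, R ≤ len x → ∀ i j, K x i j = K x j i) (htr : ∀ x, R ≤ len x → tr g K x = 0)
    (hdec : ∀ x, R < len x → covNorm g (mom g K) x ≤ mu g K x) (he : ∑ i, e i ^ 2 = 1)
include hn hs hpd hK hKs htr hdec he

/-- lower bound used in all dimensions -/
theorem S_low (hx : R < len x) :
    (n : ℝ) ^ 2 / ((n : ℝ) + 2) * Uf g K e a p 1 (len x) ^ 2 / (rR a (len x) ^ (n - 1)) ^ 2 +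
      |rR a (len x) ^ (n - 1) * Ja g K e a p 1 (len x) / ((n : ℝ) - 1)| / rR a (len x) ^ (n - 1) ≤
      scal g x / (2 * ((n : ℝ) - 1)) := by
  have h2 := n1_pos hn
  have hρ := h.rho_pos hx.le
  rw [Uf_An hn]
  obtain ⟨k, hk⟩ : ∃ k, k = rR a (len x) ^ (n - 1) := ⟨_, rfl⟩
  have hk0 : 0 < k := by rw [hk]; positivity
  rw [← hk]
  obtain ⟨A1, hA1⟩ : ∃ A, A = An g K e a p 1 (len x) := ⟨_, rfl⟩
  obtain ⟨A2, hA2⟩ : ∃ A, A = An g K e a p (-1) (len x) := ⟨_, rfl⟩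
  obtain ⟨J, hJ⟩ : ∃ J, J = Ja g K e a p 1 (len x) := ⟨_, rfl⟩
  have hkey : (n / ((n : ℝ) - 1)) * (n * ((A1 + A2) / 2) ^ 2 + 2 * ((A1 - A2) / 2) ^ 2) +
      2 * |J| ≤ scal g x := by
    rcases le_total 0 J with hJ0 | hJ0
    · have := h.scal_low hn hs hpd hK hKs htr hdec he (ε := 1) (by norm_num) (σ := 1) (by simp) hx
      rw [← hA1, ← hA2, ← hJ] at this
      rw [abs_of_nonneg hJ0]
      linarith
    · have := h.scal_low hn hs hpd hK hKs htr hdec he (ε := 1) (by norm_num) (σ := -1)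
        (by simp) hx
      rw [← hA1, ← hA2, ← hJ] at this
      rw [abs_of_nonpos hJ0]
      linarith
  rw [← hA1, ← hJ, abs_div, abs_mul, abs_of_pos hk0, abs_of_pos h2]
  have hn0 : (0 : ℝ) < n := by linarith
  have e1 : (n : ℝ) ^ 2 / ((n : ℝ) + 2) * (k * A1 / ((n : ℝ) - 1)) ^ 2 / k ^ 2 +
      k * |J| / ((n : ℝ) - 1) / k = ((n / ((n : ℝ) - 1)) * (2 * n / ((n : ℝ) + 2) * A1 ^ 2) +
        2 * |J|) / (2 * ((n : ℝ) - 1)) := by
    field_simp
  rw [e1]
  refine div_le_div_of_nonneg_right (le_trans ?_ hkey) (by linarith)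
  have e2 : 2 * (n : ℝ) / ((n : ℝ) + 2) * A1 ^ 2 ≤
      n * ((A1 + A2) / 2) ^ 2 + 2 * ((A1 - A2) / 2) ^ 2 := by
    rw [div_mul_eq_mul_div, div_le_iff₀ (by linarith)]
    nlinarith [sq_nonneg (n * ((A1 + A2) / 2) - 2 * ((A1 - A2) / 2))]
  have e3 : 0 ≤ n / ((n : ℝ) - 1) := by positivity
  nlinarith [mul_le_mul_of_nonneg_left e2 e3]

/-- the same bound for the second flux -/
theorem S_lowv (hx : R < len x) :
    (n : ℝ) ^ 2 / ((n : ℝ) + 2) * Uf g K e a p (-1) (len x) ^ 2 / (rR a (len x) ^ (n - 1)) ^ 2 +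
      |rR a (len x) ^ (n - 1) * Ja g K e a p (-1) (len x) / ((n : ℝ) - 1)| /
        rR a (len x) ^ (n - 1) ≤ scal g x / (2 * ((n : ℝ) - 1)) := by
  have h2 := n1_pos hn
  have hρ := h.rho_pos hx.le
  rw [Uf_An hn]
  obtain ⟨k, hk⟩ : ∃ k, k = rR a (len x) ^ (n - 1) := ⟨_, rfl⟩
  have hk0 : 0 < k := by rw [hk]; positivity
  rw [← hk]
  obtain ⟨A1, hA1⟩ : ∃ A, A = An g K e a p 1 (len x) := ⟨_, rfl⟩
  obtain ⟨A2, hA2⟩ : ∃ A, A = An g K e a p (-1) (len x) := ⟨_, rfl⟩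
  obtain ⟨J, hJ⟩ : ∃ J, J = Ja g K e a p (-1) (len x) := ⟨_, rfl⟩
  have hkey : (n / ((n : ℝ) - 1)) * (n * ((A1 + A2) / 2) ^ 2 + 2 * ((A1 - A2) / 2) ^ 2) +
      2 * |J| ≤ scal g x := by
    rcases le_total 0 J with hJ0 | hJ0
    · have := h.scal_low hn hs hpd hK hKs htr hdec he (ε := -1) (by norm_num) (σ := 1) (by simp) hx
      rw [← hA1, ← hA2, ← hJ] at this
      rw [abs_of_nonneg hJ0]
      linarith
    · have := h.scal_low hn hs hpd hK hKs htr hdec he (ε := -1) (by norm_num) (σ := -1)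
        (by simp) hx
      rw [← hA1, ← hA2, ← hJ] at this
      rw [abs_of_nonpos hJ0]
      linarith
  rw [← hA2, ← hJ, abs_div, abs_mul, abs_of_pos hk0, abs_of_pos h2]
  have hn0 : (0 : ℝ) < n := by linarith
  have e1 : (n : ℝ) ^ 2 / ((n : ℝ) + 2) * (k * A2 / ((n : ℝ) - 1)) ^ 2 / k ^ 2 +
      k * |J| / ((n : ℝ) - 1) / k = ((n / ((n : ℝ) - 1)) * (2 * n / ((n : ℝ) + 2) * A2 ^ 2) +
        2 * |J|) / (2 * ((n : ℝ) - 1)) := by
    field_simp
  rw [e1]
  refine div_le_div_of_nonneg_right (le_trans ?_ hkey) (by linarith)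
  have e2 : 2 * (n : ℝ) / ((n : ℝ) + 2) * A2 ^ 2 ≤
      n * ((A1 + A2) / 2) ^ 2 + 2 * ((A1 - A2) / 2) ^ 2 := by
    rw [div_mul_eq_mul_div, div_le_iff₀ (by linarith)]
    nlinarith [sq_nonneg (n * ((A1 + A2) / 2) + 2 * ((A1 - A2) / 2))]
  have e3 : 0 ≤ n / ((n : ℝ) - 1) := by positivity
  nlinarith [mul_le_mul_of_nonneg_left e2 e3]

/-- lower bound with both fluxes -/
theorem S_low3 (h3 : n = 3) (hε : ε ^ 2 = 1) (hx : R < len x) :
    3 / (8 * rR a (len x) ^ 2) * (5 * Uf g K e a p 1 (len x) ^ 2 +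
      2 * Uf g K e a p 1 (len x) * Uf g K e a p (-1) (len x) + 5 * Uf g K e a p (-1) (len x) ^ 2) +
      |rR a (len x) ^ (n - 1) * Ja g K e a p ε (len x) / ((n : ℝ) - 1)| ≤
      rR a (len x) ^ 2 * (scal g x / (2 * ((n : ℝ) - 1))) := by
  have hρ := h.rho_pos hx.le
  obtain ⟨J, hJ⟩ : ∃ J, J = Ja g K e a p ε (len x) := ⟨_, rfl⟩
  obtain ⟨A1, hA1⟩ : ∃ A, A = An g K e a p 1 (len x) := ⟨_, rfl⟩
  obtain ⟨A2, hA2⟩ : ∃ A, A = An g K e a p (-1) (len x) := ⟨_, rfl⟩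
  have hkey : (n / ((n : ℝ) - 1)) * (n * ((A1 + A2) / 2) ^ 2 + 2 * ((A1 - A2) / 2) ^ 2) +
      2 * |J| ≤ scal g x := by
    rcases le_total 0 J with hJ0 | hJ0
    · have := h.scal_low hn hs hpd hK hKs htr hdec he (ε := ε) hε (σ := 1) (by simp) hx
      rw [← hA1, ← hA2, ← hJ] at this
      rw [abs_of_nonneg hJ0]
      linarith
    · have := h.scal_low hn hs hpd hK hKs htr hdec he (ε := ε) hε (σ := -1)
        (by simp) hx
      rw [← hA1, ← hA2, ← hJ] at this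
      rw [abs_of_nonpos hJ0]
      linarith
  rw [Uf_An hn, Uf_An hn]
  have hc : (n : ℝ) = 3 := by rw [h3]; norm_num
  have e2 : n - 1 = 2 := by omega
  rw [hc] at hkey ⊢
  rw [e2, ← hA1, ← hA2, ← hJ]
  have e0 : |rR a (len x) ^ 2 * J / (3 - 1)| = rR a (len x) ^ 2 * |J| / 2 := by
    rw [abs_div, abs_mul, abs_of_pos (pow_pos hρ 2)]
    norm_num
  rw [e0]
  have e1 : 3 / (8 * rR a (len x) ^ 2) * (5 * (rR a (len x) ^ 2 * A1 / (3 - 1)) ^ 2 +
      2 * (rR a (len x) ^ 2 * A1 / (3 - 1)) * (rR a (len x) ^ 2 * A2 / (3 - 1)) +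
      5 * (rR a (len x) ^ 2 * A2 / (3 - 1)) ^ 2) + rR a (len x) ^ 2 * |J| / 2 =
      rR a (len x) ^ 2 * ((3 / (3 - 1) * (3 * ((A1 + A2) / 2) ^ 2 + 2 * ((A1 - A2) / 2) ^ 2) +
        2 * |J|) / (2 * (3 - 1))) := by
    field_simp
    ring
  rw [e1]
  exact mul_le_mul_of_nonneg_left (div_le_div_of_nonneg_right hkey (by norm_num)) (by positivity)

end Rd

end Vale.Agent.H318
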