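import Vale.Agent.P366.R2.H318.XF

/-! The flux of the momentum tensor through the spheres. -/

open MeasureTheory Metric Filter Topology Set
open scoped ContDiff Matrix

noncomputable section
namespace Vale.Agent.H318
open Vale.Agent.P366.Stmt Vale.Agent.P366.T2 Vale.Agent.T4 Vale.Agent.Mom68

variable {n : ℕ}

/-- `T(n, q)` -/
def Tnq (e : Fin n → ℝ) (T : Field n) (x : E n) : ℝ := ∑ i, row T i x * qv e i x

/-- the Euclidean tangential trace -/
def TP (T : Field n) (x : E n) : ℝ := ∑ i, ∑ l, T x i l * Pj i l x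

namespace Rd

variable {a p : ℝ → ℝ} {R : ℝ} {g K : Field n} (h : Rd a p R g) {x : E n} {e : Fin n → ℝ}
include h

lemma up_symm' (hx : R ≤ len x) (i j : Fin n) : up g i j x = up g j i x := by
  rw [h.up_eq hx, h.up_eq hx, Pj_symm]
  ring

lemma up_nx (hx : R ≤ len x) (i : Fin n) :
    ∑ k, up g i k x * nx k x = 1 / p (len x) * nx i x := by
  have hx0 := h.ne0 hx
  have h1 : ∀ k, up g i k x * nx k x = 1 / a (len x) * (Pj i k x * nx k x) +
      1 / p (len x) * nx i x * (nx k x * nx k x) := by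
    intro k
    rw [h.up_eq hx]
    ring
  simp only [h1, Finset.sum_add_distrib, ← Finset.mul_sum, Pj_nx hx0, sum_nx_mul hx0]
  ring

lemma up_qv (hx : R ≤ len x) (i : Fin n) :
    ∑ k, up g i k x * qv e k x = 1 / a (len x) * qv e i x := by
  have hx0 := h.ne0 hx
  have h1 : ∀ k, up g i k x * qv e k x = 1 / a (len x) * (Pj i k x * qv e k x) +
      1 / p (len x) * nx i x * (nx k x * qv e k x) := by
    intro k
    rw [h.up_eq hx]
    ring
  simp only [h1, Finset.sum_add_distrib, ← Finset.mul_sum, Pj_qv e hx0, nx_qv e hx0]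
  ring

lemma up_P (hx : R ≤ len x) (i j : Fin n) :
    ∑ k, up g i k x * Pj k j x = 1 / a (len x) * Pj i j x := by
  have hx0 := h.ne0 hx
  have h1 : ∀ k, up g i k x * Pj k j x = 1 / a (len x) * (Pj i k x * Pj k j x) +
      1 / p (len x) * nx i x * (nx k x * Pj k j x) := by
    intro k
    rw [h.up_eq hx]
    ring
  simp only [h1, Finset.sum_add_distrib, ← Finset.mul_sum, Pj_Pj hx0, nx_Pj hx0]
  ring

/-- the trace -/
lemma tr_eq (hx : R ≤ len x) : tr g K x = 1 / a (len x) * TP K x + 1 / p (len x) * rad K x := by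
  unfold tr TP rad
  simp only [Finset.mul_sum, ← Finset.sum_add_distrib]
  refine Finset.sum_congr rfl fun i _ => Finset.sum_congr rfl fun j _ => ?_
  rw [h.up_eq hx]
  ring

omit h in
lemma Pu_ctr (c : Fin n → Fin n → ℝ) : ∑ k, ∑ m, Pu g K k m x * c k m =
    ∑ i, ∑ l, momT g K x i l * ∑ k, up g k i x * ∑ m, up g l m x * c k m := by
  have e1 : ∀ k m, Pu g K k m x * c k m =
      ∑ i, ∑ l, up g k i x * momT g K x i l * up g l m x * c k m := by
    intro k m
    unfold Pu
    rw [Finset.sum_mul]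
    refine Finset.sum_congr rfl fun i _ => ?_
    rw [Finset.mul_sum, Finset.sum_mul]
    exact Finset.sum_congr rfl fun l _ => by ring
  have e2 : ∀ i l, momT g K x i l * ∑ k, up g k i x * ∑ m, up g l m x * c k m =
      ∑ k, ∑ m, up g k i x * momT g K x i l * up g l m x * c k m := by
    intro i l
    simp only [Finset.mul_sum]
    exact Finset.sum_congr rfl fun k _ => Finset.sum_congr rfl fun m _ => by ring
  simp only [e1, e2]
  have sw : ∀ F : Fin n → Fin n → Fin n → Fin n → ℝ,
      ∑ k, ∑ m, ∑ i, ∑ l, F k m i l = ∑ i, ∑ l, ∑ k, ∑ m, F k m i l := by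
    intro F
    calc ∑ k, ∑ m, ∑ i, ∑ l, F k m i l = ∑ k, ∑ i, ∑ m, ∑ l, F k m i l :=
          Finset.sum_congr rfl fun k _ => Finset.sum_comm
      _ = ∑ i, ∑ k, ∑ m, ∑ l, F k m i l := Finset.sum_comm
      _ = ∑ i, ∑ k, ∑ l, ∑ m, F k m i l :=
          Finset.sum_congr rfl fun i _ => Finset.sum_congr rfl fun k _ => Finset.sum_comm
      _ = ∑ i, ∑ l, ∑ k, ∑ m, F k m i l := Finset.sum_congr rfl fun i _ => Finset.sum_comm
  exact sw _

/-- contraction of the momentum tensor with the Lie derivative -/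
lemma Pu_lie (hx : R ≤ len x) (hs : ∀ i j, K x i j = K x j i) (htr : tr g K x = 0)
    (c1 c2 c3 : ℝ) : ∑ k, ∑ m, Pu g K k m x * (c1 * (nx k x * nx m x) +
      c2 * (nx k x * qv e m x + qv e k x * nx m x) + c3 * Pj k m x) =
      c1 * (1 / p (len x) ^ 2 * rad K x) +
      c2 * (2 / (p (len x) * a (len x)) * Tnq e K x) -
      c3 * (1 / (a (len x) * p (len x)) * rad K x) := by
  have hx0 := h.ne0 hx
  have ha := (h.pa _ hx).ne'
  have hp := (h.pp _ hx).ne'
  have hm : ∀ i l, momT g K x i l = K x i l := fun i l => by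
    unfold momT
    rw [htr]; ring
  rw [Pu_ctr]
  simp only [hm]
  have e1 : ∀ k l, ∑ m, up g l m x * (c1 * (nx k x * nx m x) +
      c2 * (nx k x * qv e m x + qv e k x * nx m x) + c3 * Pj k m x) =
      c1 * nx k x * (1 / p (len x) * nx l x) + c2 * nx k x * (1 / a (len x) * qv e l x) +
      c2 * qv e k x * (1 / p (len x) * nx l x) + c3 * (1 / a (len x) * Pj l k x) := by
    intro k l
    rw [← h.up_nx hx, ← h.up_qv hx, ← h.up_P hx]
    simp only [Finset.mul_sum, ← Finset.sum_add_distrib]
    refine Finset.sum_congr rfl fun m _ => ?_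
    rw [Pj_symm k m]
    ring
  have e2 : ∀ i l, ∑ k, up g k i x * (c1 * nx k x * (1 / p (len x) * nx l x) +
      c2 * nx k x * (1 / a (len x) * qv e l x) + c2 * qv e k x * (1 / p (len x) * nx l x) +
      c3 * (1 / a (len x) * Pj l k x)) =
      c1 / p (len x) ^ 2 * (nx i x * nx l x) +
      c2 / (p (len x) * a (len x)) * (nx i x * qv e l x + qv e i x * nx l x) +
      c3 / a (len x) ^ 2 * Pj i l x := by
    intro i l
    have h1 : ∀ k, up g k i x * (c1 * nx k x * (1 / p (len x) * nx l x) +
      c2 * nx k x * (1 / a (len x) * qv e l x) + c2 * qv e k x * (1 / p (len x) * nx l x) +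
      c3 * (1 / a (len x) * Pj l k x)) =
      (c1 / p (len x) * nx l x + c2 / a (len x) * qv e l x) * (up g i k x * nx k x) +
      c2 / p (len x) * nx l x * (up g i k x * qv e k x) +
      c3 / a (len x) * (up g i k x * Pj k l x) := by
      intro k
      rw [h.up_symm' hx k i, Pj_symm l k]
      ring
    simp only [h1, Finset.sum_add_distrib, ← Finset.mul_sum, h.up_nx hx, h.up_qv hx, h.up_P hx]
    field_simp
    ring
  simp only [e1, e2]
  have hTP : TP K x = -(a (len x) / p (len x)) * rad K x := by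
    have h2 := h.tr_eq (K := K) hx
    rw [htr] at h2
    field_simp at h2 ⊢
    linarith
  have e3 : ∀ i l, K x i l * (c1 / p (len x) ^ 2 * (nx i x * nx l x) +
      c2 / (p (len x) * a (len x)) * (nx i x * qv e l x + qv e i x * nx l x) +
      c3 / a (len x) ^ 2 * Pj i l x) =
      c1 / p (len x) ^ 2 * (K x i l * nx i x * nx l x) +
      c2 / (p (len x) * a (len x)) * (K x l i * nx i x * qv e l x + K x i l * nx l x * qv e i x) +
      c3 / a (len x) ^ 2 * (K x i l * Pj i l x) := by
    intro i l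
    rw [hs l i]
    ring
  simp only [e3, Finset.sum_add_distrib, ← Finset.mul_sum]
  have e4 : ∑ i, ∑ l, K x l i * nx i x * qv e l x = Tnq e K x := by
    rw [Finset.sum_comm]
    unfold Tnq row
    refine Finset.sum_congr rfl fun i _ => ?_
    rw [Finset.sum_mul]
  have e5 : ∑ i, ∑ l, K x i l * nx l x * qv e i x = Tnq e K x := by
    unfold Tnq row
    refine Finset.sum_congr rfl fun i _ => ?_
    rw [Finset.sum_mul]
  have e6 : ∑ i, ∑ l, K x i l * Pj i l x = TP K x := rfl
  have e7 : ∑ i, ∑ l, K x i l * nx i x * nx l x = rad K x := rfl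
  rw [e4, e5, e6, e7, hTP]
  field_simp
  ring

/-- the radial component of `W` -/
lemma nx_WX (hx : R ≤ len x) (hs : ∀ i j, K x i j = K x j i) (htr : tr g K x = 0)
    (al be : ℝ → ℝ) : ∑ k, nx k x * WX g K (Xv e al be) k x =
      1 / p (len x) * (al (len x) * Tnq e K x + be (len x) * (th e x * rad K x)) := by
  have hx0 := h.ne0 hx
  have hm : ∀ i l, momT g K x i l = K x i l := fun i l => by
    unfold momT
    rw [htr]; ring
  unfold WX
  simp only [hm]
  have e1 : ∀ S : Fin n → ℝ, ∑ k, nx k x * ∑ i, up g k i x * S i =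
      ∑ i, (1 / p (len x) * nx i x) * S i := by
    intro S
    simp only [Finset.mul_sum]
    rw [Finset.sum_comm]
    refine Finset.sum_congr rfl fun i _ => ?_
    rw [← h.up_nx hx, Finset.sum_mul]
    refine Finset.sum_congr rfl fun k _ => ?_
    rw [h.up_symm' hx k i]
    ring
  rw [e1]
  have e2 : ∀ i, (1 / p (len x) * nx i x) * ∑ j, K x i j * Xv e al be j x =
      1 / p (len x) * ∑ j, (al (len x) * (K x j i * nx i x * qv e j x) +
        be (len x) * th e x * (K x i j * nx i x * nx j x)) := by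
    intro i
    rw [mul_assoc, Finset.mul_sum]
    congr 1
    refine Finset.sum_congr rfl fun j _ => ?_
    rw [hs j i]
    unfold Xv
    ring
  simp only [e2, ← Finset.mul_sum, Finset.sum_add_distrib]
  have e4 : ∑ i, ∑ j, K x j i * nx i x * qv e j x = Tnq e K x := by
    rw [Finset.sum_comm]
    unfold Tnq row
    refine Finset.sum_congr rfl fun i _ => ?_
    rw [Finset.sum_mul]
  have e7 : ∑ i, ∑ l, K x i l * nx i x * nx l x = rad K x := rfl
  rw [e4, e7]
  ring

end Rd

end Vale.Agent.H318
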