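import Vale.Agent.P366.R2.H318.Inv
import Vale.Agent.P366.Bdl.B1
import Vale.Agent.P366.T2.P765

/-! Sphere integrals are invariant under orthogonal matrices. -/

open MeasureTheory Metric Filter Topology Set
open scoped ContDiff Matrix Pointwise

noncomputable section
namespace Vale.Agent.H318
open Vale.Agent.P366.Stmt Vale.Agent.P366.T2 Vale.Agent.T4
open Vale.Agent.P366 (Sph sphM)

variable {n : ℕ} {B : Matrix (Fin n) (Fin n) ℝ}

lemma act_smul (B : Matrix (Fin n) (Fin n) ℝ) (c : ℝ) (x : E n) : act B (c • x) = c • act B x := by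
  ext i
  simp only [act_apply, PiLp.smul_apply, smul_eq_mul, Finset.mul_sum]
  exact Finset.sum_congr rfl fun j _ => by ring

lemma act_add (B : Matrix (Fin n) (Fin n) ℝ) (x y : E n) : act B (x + y) = act B x + act B y := by
  ext i
  simp only [act_apply, PiLp.add_apply, mul_add, Finset.sum_add_distrib]

/-- the linear isometry of an orthogonal matrix -/
def actI (hB : Bᵀ * B = 1) : E n →ₗᵢ[ℝ] E n where
  toFun := act B
  map_add' := act_add B
  map_smul' := act_smul B
  norm_map' := fun x => len_act hB x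

lemma act_mp (hB : Bᵀ * B = 1) : MeasurePreserving (act B) (volume : Measure (E n)) volume := by
  have h1 := ((actI hB).toLinearIsometryEquiv rfl).measurePreserving
  exact h1

/-- the orthogonal map on the sphere -/
def rot (hB : Bᵀ * B = 1) (θ : Sph n) : Sph n :=
  ⟨act B θ, by
    have h1 : len (act B (θ : E n)) = len (θ : E n) := len_act hB _
    rw [mem_sphere_zero_iff_norm]
    exact h1.trans (norm_eq_of_mem_sphere θ)⟩

lemma cont_act (B : Matrix (Fin n) (Fin n) ℝ) : Continuous (act B) := (smooth_act B).continuous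

lemma cont_rot (hB : Bᵀ * B = 1) : Continuous (rot (n := n) hB) :=
  ((cont_act B).comp continuous_subtype_val).subtype_mk _

theorem sphM_map_rot (hB : Bᵀ * B = 1) : (sphM n).map (rot hB) = sphM n := by
  ext s hs
  have hm : Measurable (rot (n := n) hB) := (cont_rot hB).measurable
  rw [Measure.map_apply hm hs]
  have e1 := (volume : Measure (E n)).toSphere_apply' (hs.preimage hm)
  have e2 := (volume : Measure (E n)).toSphere_apply' hs
  change (volume : Measure (E n)).toSphere _ = (volume : Measure (E n)).toSphere _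
  rw [e1, e2]
  congr 1
  have hBt : (Bᵀ)ᵀ * Bᵀ = 1 := orth_transpose hB
  have hBB : B * Bᵀ = 1 := mul_eq_one_comm.1 hB
  have e3 : Ioo (0 : ℝ) 1 • ((↑) '' (rot hB ⁻¹' s) : Set (E n)) =
      act B ⁻¹' (Ioo (0 : ℝ) 1 • ((↑) '' s : Set (E n))) := by
    ext x
    simp only [Set.mem_smul, Set.mem_preimage, Set.mem_image]
    constructor
    · rintro ⟨t, ht, y, ⟨θ, hθ, rfl⟩, rfl⟩
      exact ⟨t, ht, _, ⟨rot hB θ, hθ, rfl⟩, (act_smul B t _).symm⟩
    · rintro ⟨t, ht, y, ⟨θ, hθ, rfl⟩, hx⟩
      refine ⟨t, ht, _, ⟨rot hBt θ, ?_, rfl⟩, ?_⟩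
      · have : rot hB (rot hBt θ) = θ := by
          apply Subtype.ext
          show act B (act Bᵀ θ) = θ
          rw [← act_mul, hBB, act_one]
        rw [this]; exact hθ
      · show t • act Bᵀ (θ : E n) = x
        rw [← act_smul, hx, ← act_mul, hB, act_one]
  rw [e3]
  have hmp := act_mp hB
  have hemb : MeasurableEmbedding (act B) :=
    ((actI hB).toLinearIsometryEquiv rfl).toHomeomorph.measurableEmbedding
  exact hmp.measure_preimage_emb hemb _

lemma integral_rot (hB : Bᵀ * B = 1) (f : Sph n → ℝ) :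
    ∫ θ, f (rot hB θ) ∂(sphM n) = ∫ θ, f θ ∂(sphM n) := by
  have h : MeasurePreserving (rot hB) (sphM n) (sphM n) := ⟨(cont_rot hB).measurable, sphM_map_rot hB⟩
  have hBt : (Bᵀ)ᵀ * Bᵀ = 1 := orth_transpose hB
  have hBB : B * Bᵀ = 1 := mul_eq_one_comm.1 hB
  let e : Sph n ≃ₜ Sph n :=
    { toFun := rot hB
      invFun := rot hBt
      left_inv := fun θ => Subtype.ext (by
        show act Bᵀ (act B θ) = θ
        rw [← act_mul, hB, act_one])
      right_inv := fun θ => Subtype.ext (by
        show act B (act Bᵀ θ) = θ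
        rw [← act_mul, hBB, act_one])
      continuous_toFun := cont_rot hB
      continuous_invFun := cont_rot hBt }
  exact h.integral_comp e.measurableEmbedding f

lemma sph_act (hB : Bᵀ * B = 1) (r : ℝ) (h : E n → ℝ) :
    sph (vol n) r (fun x => h (act B x)) = sph (vol n) r h := by
  unfold sph
  rw [Vale.Agent.P366.vol_eq]
  have h1 := integral_rot hB (fun θ : Sph n => h (r • (θ : E n)))
  refine Eq.trans ?_ h1
  refine integral_congr_ae (Eventually.of_forall fun θ => ?_)
  show h (act B (r • (θ : E n))) = h (r • act B (θ : E n))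
  rw [act_smul]

lemma sphInt_act (hB : Bᵀ * B = 1) (r : ℝ) (h : E n → ℝ) :
    sphInt r (fun x => h (act B x)) = sphInt r h := by
  unfold sphInt
  rw [sph_act hB]

lemma sph_congr {r : ℝ} (hr : 0 ≤ r) {f h : E n → ℝ} (e : ∀ x, len x = r → f x = h x) :
    sph (vol n) r f = sph (vol n) r h := by
  unfold sph
  refine integral_congr_ae (Eventually.of_forall fun θ => ?_)
  refine e _ ?_
  unfold len
  rw [norm_smul, Real.norm_eq_abs, abs_of_nonneg hr, norm_eq_of_mem_sphere θ, mul_one]

lemma sphInt_congr {r : ℝ} (hr : 0 ≤ r) {f h : E n → ℝ} (e : ∀ x, len x = r → f x = h x) :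
    sphInt r f = sphInt r h := by
  unfold sphInt
  rw [sph_congr hr e]

end Vale.Agent.H318
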