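import Vale.Agent.P366.R2.H318.Haar
import Vale.Agent.P366.R2.H318.Av
import Vale.Agent.P366.R2.H318.SphRot

/-! Averages over the group: invariance, and comparison with the sphere averages. -/

open MeasureTheory Metric Filter Topology Set
open scoped ContDiff Matrix

noncomputable section
namespace Vale.Agent.H318
open Vale.Agent.P366.Stmt Vale.Agent.P366.T2 Vale.Agent.T4
open Vale.Agent.P366 (Sph sphM)

variable {n : ℕ} {H : Type} [TopologicalSpace H] [CompactSpace H] [MeasurableSpace H]
  [BorelSpace H] [SecondCountableTopology H] {μ : Measure H} [IsProbabilityMeasure μ]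
  {b : H → Matrix (Fin n) (Fin n) ℝ} {Γ : Matrix (Fin n) (Fin n) ℝ → Prop}

/-- a right invariant mean over the compact group generated by `Γ` -/
structure Good (Γ : Matrix (Fin n) (Fin n) ℝ → Prop) (μ : Measure H)
    (b : H → Matrix (Fin n) (Fin n) ℝ) : Prop where
  cont : Continuous b
  orth : ∀ h, (b h)ᵀ * b h = 1
  mem : ∀ S : Set (Matrix (Fin n) (Fin n) ℝ), IsClosed S → 1 ∈ S →
    (∀ A ∈ S, ∀ B ∈ S, A * B ∈ S) → (∀ A ∈ S, Aᵀ ∈ S) → (∀ A, Γ A → A ∈ S) → ∀ h, b h ∈ S
  inv : ∀ C, Γ C → ∀ F : Matrix (Fin n) (Fin n) ℝ → ℝ, ∫ h, F (b h * C) ∂μ = ∫ h, F (b h) ∂μ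
  pos : ∀ U : Set H, IsOpen U → U.Nonempty → 0 < μ U
  one : ∃ h, b h = 1

theorem exists_good (Γ : Matrix (Fin n) (Fin n) ℝ → Prop) (hΓ : ∀ A, Γ A → Aᵀ * A = 1) :
    ∃ (H : Type) (_ : TopologicalSpace H) (_ : CompactSpace H) (_ : SecondCountableTopology H)
      (_ : MeasurableSpace H) (_ : BorelSpace H) (μ : Measure H) (_ : IsProbabilityMeasure μ)
      (b : H → Matrix (Fin n) (Fin n) ℝ), Good Γ μ b := by
  obtain ⟨H, i1, i2, i3, i4, i5, μ, i6, a, hc, ho, hm, hi, hp, h1⟩ := exists_haar Γ hΓ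
  refine ⟨H, i1, i2, i3, i4, i5, μ, i6, fun h => (a h)ᵀ, ?_, ?_, ?_, ?_, hp, ?_⟩
  · exact hc.matrix_transpose
  · exact fun h => orth_transpose (ho h)
  · exact fun S h1 h2 h3 h4 h5 h => h4 _ (hm S h1 h2 h3 (fun A hA _ => h4 A hA) h5 h)
  · intro C hC F
    have := hi C hC (fun A => F Aᵀ)
    simp only [Matrix.transpose_mul, Matrix.transpose_transpose] at this
    exact this
  · obtain ⟨h, hh⟩ := h1
    exact ⟨h, by rw [hh]; simp⟩

/-- the mean of `f` over the orbit of `x` -/
def Mn (μ : Measure H) (b : H → Matrix (Fin n) (Fin n) ℝ) (f : E n → ℝ) (x : E n) : ℝ :=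
  ∫ h, f (act (b h) x) ∂μ

namespace Good

variable (G : Good Γ μ b)
include G

omit [CompactSpace H] [BorelSpace H] [SecondCountableTopology H] [IsProbabilityMeasure μ] in
lemma stab {R : ℝ} {T : Field n} (hT : ∀ i j, Smooth (fun x => T x i j))
    (hΓ : ∀ A, Γ A → Aᵀ * A = 1) (hi : Vale.Agent.T4.InvUnder Γ R T) (h : H) : b h ∈ Stab R T :=
  G.mem _ (isClosed_stab hT) one_mem_stab (fun _ hA _ hB => mul_mem_stab hA hB)
    (fun _ hA => transpose_mem_stab hA) (fun A hA => ⟨hΓ A hA, fun _ hx => InvUnder.pull_eq hi hA hx⟩) h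

omit [CompactSpace H] [BorelSpace H] [SecondCountableTopology H] [IsProbabilityMeasure μ] in
lemma len_b (h : H) (x : E n) : len (act (b h) x) = len x := len_act (G.orth h) x

omit [SecondCountableTopology H] in
lemma avg_pull {K : Field n} (hK : ∀ i j, Smooth (fun x => K x i j))
    {C : Matrix (Fin n) (Fin n) ℝ} (hC : Γ C) (x : E n) : pull C (avg μ b K) x = avg μ b K x := by
  funext i j
  have h1 : Av μ (fun h => pull C (pull (b h) K) x i j) (pull C (avg μ b K) x i j) := by
    show Av μ (fun h => ∑ p, C p i * ∑ q, C q j * pull (b h) K (act C x) p q)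
      (∑ p, C p i * ∑ q, C q j * avg μ b K (act C x) p q)
    exact Av.sum _ fun p => (Av.sum _ fun q => (Av_pull G.cont hK (act C x) p q).cmul _).cmul _
  rw [h1.eq]
  simp only [← pull_mul]
  exact G.inv C hC fun A => pull A K x i j

omit [SecondCountableTopology H] in
lemma avg_inv {K : Field n} (hK : ∀ i j, Smooth (fun x => K x i j)) (R : ℝ) :
    Vale.Agent.T4.InvUnder Γ R (avg μ b K) :=
  invUnder_of_pull fun _ hA x _ => G.avg_pull hK hA x

omit [CompactSpace H] [BorelSpace H] [SecondCountableTopology H] [IsProbabilityMeasure μ] in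
lemma Mn_act (f : E n → ℝ) {C : Matrix (Fin n) (Fin n) ℝ} (hC : Γ C) (x : E n) :
    Mn μ b f (act C x) = Mn μ b f x := by
  unfold Mn
  simp only [← act_mul]
  exact G.inv C hC fun A => f (act A x)

omit [CompactSpace H] [BorelSpace H] [SecondCountableTopology H] [IsProbabilityMeasure μ] in
lemma Mn_len (hM : MovesBase Γ) (f : E n → ℝ) {x y : E n} (hxy : len x = len y) :
    Mn μ b f x = Mn μ b f y := by
  rcases eq_or_ne (len x) 0 with h0 | h0
  · have hx : x = 0 := norm_eq_zero.1 h0
    have hy : y = 0 := norm_eq_zero.1 (hxy.symm.trans h0)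
    rw [hx, hy]
  · obtain ⟨e, he, hmove⟩ := hM
    have hx0 : 0 < len x := lt_of_le_of_ne (norm_nonneg x) (Ne.symm h0)
    have hy0 : 0 < len y := hxy ▸ hx0
    obtain ⟨A, hA, hAe⟩ := hmove _ (hat_unit hx0)
    obtain ⟨B, hB, hBe⟩ := hmove _ (hat_unit hy0)
    have h1 : act A (pt e (len x)) = x := by rw [act_pt, hAe, pt_hat hx0]
    have h2 : act B (pt e (len x)) = y := by rw [hxy, act_pt, hBe, pt_hat hy0]
    have h3 := G.Mn_act f hA (pt e (len x))
    have h4 := G.Mn_act f hB (pt e (len x))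
    rw [h1] at h3
    rw [h2] at h4
    rw [h3, h4]

lemma sphInt_Mn (hM : MovesBase Γ) {f : E n → ℝ} {r : ℝ} (hr : 0 ≤ r)
    (hf : ContinuousOn f {y | len y = r}) {x : E n} (hx : len x = r) :
    sphInt r f = sphInt r (fun _ : E n => 1) * Mn μ b f x := by
  have hp : ∀ (θ : Sph n), len (r • (θ : E n)) = r := by
    intro θ
    unfold len
    rw [norm_smul, Real.norm_eq_abs, abs_of_nonneg hr, norm_eq_of_mem_sphere θ, mul_one]
  have hcont : Continuous fun p : Sph n × H => f (act (b p.2) (r • (p.1 : E n))) := by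
    have h1 : Continuous fun p : Sph n × H => act (b p.2) (r • (p.1 : E n)) := by
      have h2 : Continuous fun p : Sph n × H => fun i => ∑ j, b p.2 i j * (r • (p.1 : E n)) j := by
        refine continuous_pi fun i => continuous_finsetSum _ fun j _ => ?_
        refine (((continuous_apply_apply i j).comp G.cont).comp continuous_snd).mul ?_
        have h3 : Continuous fun p : Sph n × H => r • (p.1 : E n) :=
          (continuous_subtype_val.comp continuous_fst).const_smul r
        exact (continuous_apply j).comp ((PiLp.continuous_ofLp 2 _).comp h3)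
      exact (PiLp.continuous_toLp 2 _).comp h2
    exact hf.comp_continuous h1 fun p => by
      show len _ = r
      rw [G.len_b, hp]
  have hfin : IsFiniteMeasure (sphM n) := inferInstance
  have hint : Integrable (fun p : Sph n × H => f (act (b p.2) (r • (p.1 : E n))))
      ((sphM n).prod μ) :=
    hcont.integrable_of_hasCompactSupport (HasCompactSupport.of_compactSpace _)
  have h1 : sph (vol n) r f = sph (vol n) r (fun _ => 1) * Mn μ b f x := by
    have e1 : ∀ h, sph (vol n) r f = ∫ θ : Sph n, f (act (b h) (r • (θ : E n))) ∂(sphM n) := by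
      intro h
      rw [← sph_act (G.orth h) r f]
      unfold sph
      rw [Vale.Agent.P366.vol_eq]
    have e2 : sph (vol n) r f = ∫ h, ∫ θ : Sph n, f (act (b h) (r • (θ : E n))) ∂(sphM n) ∂μ := by
      simp only [← e1]
      rw [integral_const]
      simp
    have e3 := integral_integral_swap (μ := sphM n) (ν := μ)
      (f := fun θ h => f (act (b h) (r • (θ : E n)))) hint
    rw [e2, ← e3]
    have e4 : ∀ θ : Sph n, ∫ h, f (act (b h) (r • (θ : E n))) ∂μ = 1 * Mn μ b f x := by
      intro θ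
      rw [one_mul]
      exact G.Mn_len hM f ((hp θ).trans hx.symm)
    simp only [e4]
    rw [integral_mul_const]
    unfold sph
    rw [Vale.Agent.P366.vol_eq]
  unfold sphInt
  rw [h1]
  ring

end Good

end Vale.Agent.H318
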