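import Mathlib

/-! The invariant probability measure of the compact group generated by orthogonal matrices. -/

open MeasureTheory Set Filter Function Matrix
open scoped Topology

noncomputable section
namespace Vale.Agent.H318

/-- The invariant mean over the compact group generated by the orthogonal matrices in `Γ`. -/
theorem exists_haar {n : ℕ} (Γ : Matrix (Fin n) (Fin n) ℝ → Prop) (hΓ : ∀ A, Γ A → Aᵀ * A = 1) :
    ∃ (H : Type) (_ : TopologicalSpace H) (_ : CompactSpace H) (_ : SecondCountableTopology H)
      (_ : MeasurableSpace H) (_ : BorelSpace H) (μ : Measure H) (_ : IsProbabilityMeasure μ)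
      (a : H → Matrix (Fin n) (Fin n) ℝ), Continuous a ∧ (∀ h, (a h)ᵀ * a h = 1) ∧
      (∀ S : Set (Matrix (Fin n) (Fin n) ℝ), IsClosed S → 1 ∈ S →
        (∀ A ∈ S, ∀ B ∈ S, A * B ∈ S) → (∀ A ∈ S, Aᵀ * A = 1 → Aᵀ ∈ S) → (∀ A, Γ A → A ∈ S) →
        ∀ h, a h ∈ S) ∧
      (∀ C, Γ C → ∀ f : Matrix (Fin n) (Fin n) ℝ → ℝ, ∫ h, f (Cᵀ * a h) ∂μ = ∫ h, f (a h) ∂μ) ∧
      (∀ U : Set H, IsOpen U → U.Nonempty → 0 < μ U) ∧ ∃ h, a h = 1 := by
  let M := Matrix (Fin n) (Fin n) ℝ
  have i1 : SecondCountableTopology M := inferInstanceAs (SecondCountableTopology (Fin n → Fin n → ℝ))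
  let G := unitary M
  have star_eq : ∀ A : M, star A = Aᵀ := fun A => by
    rw [star_eq_conjTranspose, conjTranspose_eq_transpose_of_trivial]
  have hcl0 : IsClosed (G : Set M) := isClosed_unitary
  have hcomp : IsCompact (G : Set M) := by
    have hbig : IsCompact ({A | ∀ i j, A i j ∈ Icc (-1 : ℝ) 1} : Set M) := by
      have h1 : IsCompact (Set.pi univ fun _ : Fin n => Set.pi univ
        fun _ : Fin n => Icc (-1 : ℝ) 1 : Set (Fin n → Fin n → ℝ)) :=
        isCompact_univ_pi fun _ => isCompact_univ_pi fun _ => isCompact_Icc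
      have e : ({A | ∀ i j, A i j ∈ Icc (-1 : ℝ) 1} : Set M) = (Set.pi univ fun _ : Fin n =>
        Set.pi univ fun _ : Fin n => Icc (-1 : ℝ) 1 : Set (Fin n → Fin n → ℝ)) := by
        ext A
        exact ⟨fun h i _ j _ => h i j, fun h i j => h i trivial j trivial⟩
      rw [e]
      exact h1
    refine hbig.of_isClosed_subset hcl0 ?_
    · intro A hA i j
      have h := entry_norm_bound_of_unitary (𝕜 := ℝ) (n := Fin n) hA i j
      rw [Real.norm_eq_abs] at h
      exact abs_le.1 h
  have : CompactSpace G := isCompact_iff_compactSpace.1 hcomp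
  let S₀ : Subgroup G := Subgroup.closure {u : G | Γ (u : M)}
  let H := S₀.topologicalClosure
  have hclosed : IsClosed (H : Set G) := S₀.isClosed_topologicalClosure
  have : CompactSpace H := isCompact_iff_compactSpace.1 hclosed.isCompact
  have : SecondCountableTopology G := TopologicalSpace.Subtype.secondCountableTopology (G : Set M)
  have : SecondCountableTopology H := TopologicalSpace.Subtype.secondCountableTopology (H : Set G)
  let _ : MeasurableSpace H := borel H
  have : BorelSpace H := ⟨rfl⟩
  let μ : Measure H := Measure.haarMeasure ⊤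
  have hprob : IsProbabilityMeasure μ := ⟨by
    have := Measure.haarMeasure_self (K₀ := (⊤ : TopologicalSpace.PositiveCompacts H))
    simpa using this⟩
  let a : H → M := fun h => ((h : G) : M)
  have ha : Continuous a := continuous_subtype_val.comp continuous_subtype_val
  have ho : ∀ h, (a h)ᵀ * a h = 1 := fun h => by
    have := (Unitary.mem_iff.1 (h : G).2).1
    rwa [star_eq] at this
  refine ⟨H, inferInstance, inferInstance, inferInstance, inferInstance, inferInstance, μ, hprob, a,
    ha, ho, ?_, ?_, ?_, ⟨1, rfl⟩⟩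
  · intro S hS h1 hmul hinv hin
    have hsub : ∀ u : G, u ∈ S₀ → (u : M) ∈ S := by
      intro u hu
      induction hu using Subgroup.closure_induction with
      | mem x hx => exact hin _ hx
      | one => exact h1
      | mul x y _ _ hx hy => exact hmul _ hx _ hy
      | inv x _ hx =>
        have e : ((x⁻¹ : G) : M) = (x : M)ᵀ := by
          rw [← star_eq]; rfl
        rw [e]
        refine hinv _ hx ?_
        have := (Unitary.mem_iff.1 x.2).1
        rwa [star_eq] at this
    intro h
    have hmem : (h : G) ∈ closure (S₀ : Set G) := h.2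
    have hcl : IsClosed {u : G | (u : M) ∈ S} := hS.preimage continuous_subtype_val
    exact (closure_minimal (fun u hu => hsub u hu) hcl) hmem
  · intro C hC f
    have hCu : C ∈ G := by
      rw [Unitary.mem_iff, star_eq]
      exact ⟨hΓ C hC, mul_eq_one_comm.1 (hΓ C hC)⟩
    let c : G := ⟨C, hCu⟩
    have hc : c ∈ H := S₀.le_topologicalClosure (Subgroup.subset_closure hC)
    let c' : H := ⟨c, hc⟩
    have e : ∀ h : H, Cᵀ * a h = a (c'⁻¹ * h) := by
      intro h
      have : ((c'⁻¹ * h : H) : G) = c⁻¹ * h := rfl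
      show Cᵀ * a h = (((c'⁻¹ * h : H) : G) : M)
      rw [this]
      have e2 : ((c⁻¹ * (h : G) : G) : M) = star C * a h := rfl
      rw [e2, star_eq]
    simp only [e]
    exact integral_mul_left_eq_self (μ := μ) (fun h => f (a h)) c'⁻¹
  · intro U hU hh
    exact hU.measure_pos μ hh

end Vale.Agent.H318
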