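import Vale.Agent.P366.R2.H318.Congr
import Vale.Agent.P366.T4.Trans92

/-! Invariant tensor fields and the closure of a group of orthogonal matrices. -/

open MeasureTheory Metric Filter Topology Set
open scoped ContDiff Matrix

noncomputable section
namespace Vale.Agent.H318
open Vale.Agent.P366.Stmt Vale.Agent.P366.T2 Vale.Agent.T4

variable {n : ℕ}

lemma act_mul (A B : Matrix (Fin n) (Fin n) ℝ) (x : E n) : act (A * B) x = act A (act B x) := by
  unfold act
  rw [← Matrix.mulVec_mulVec]

lemma act_one (x : E n) : act (1 : Matrix (Fin n) (Fin n) ℝ) x = x := by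
  unfold act
  rw [Matrix.one_mulVec]

lemma pull_mul (A B : Matrix (Fin n) (Fin n) ℝ) (T : Field n) (x : E n) :
    pull (A * B) T x = pull B (pull A T) x := by
  have h : mat (pull (A * B) T) x = mat (pull B (pull A T)) x := by
    rw [mat_pull, mat_pull, mat_pull, act_mul, Matrix.transpose_mul]
    simp only [Matrix.mul_assoc]
  exact h

lemma pull_one (T : Field n) (x : E n) : pull 1 T x = T x := by
  have h : mat (pull 1 T) x = mat T x := by
    rw [mat_pull, act_one]
    simp
  exact h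

lemma InvUnder.pull_eq {Γ : Matrix (Fin n) (Fin n) ℝ → Prop} {R : ℝ} {T : Field n}
    (hT : Vale.Agent.T4.InvUnder Γ R T) {A : Matrix (Fin n) (Fin n) ℝ} (hA : Γ A) {x : E n}
    (hx : R ≤ len x) : pull A T x = T x := by
  have h : mat (pull A T) x = mat T x := by
    rw [mat_pull]
    exact hT.mat_eq hA hx
  exact h

lemma invUnder_of_pull {Γ : Matrix (Fin n) (Fin n) ℝ → Prop} {R : ℝ} {T : Field n}
    (h : ∀ A, Γ A → ∀ x : E n, R ≤ len x → pull A T x = T x) : Vale.Agent.T4.InvUnder Γ R T :=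
  invUnder_of_mat fun A hA x hx => by
    have h1 : mat (pull A T) x = mat T x := h A hA x hx
    rwa [mat_pull] at h1

/-- the orthogonal matrices preserving the tensor `T` on `R ≤ |x|` -/
def Stab (R : ℝ) (T : Field n) : Set (Matrix (Fin n) (Fin n) ℝ) :=
  {A | Aᵀ * A = 1 ∧ ∀ x : E n, R ≤ len x → pull A T x = T x}

lemma cont_act_mat (x : E n) : Continuous fun A : Matrix (Fin n) (Fin n) ℝ => act A x := by
  have h1 : Continuous fun A : Matrix (Fin n) (Fin n) ℝ => fun i => ∑ j, A i j * x j :=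
    continuous_pi fun i => continuous_finsetSum _ fun j _ =>
      (continuous_apply_apply i j).mul continuous_const
  exact (PiLp.continuous_toLp 2 _).comp h1

lemma cont_pull_mat {T : Field n} (hT : ∀ i j, Smooth (fun x => T x i j)) (x : E n) (i j : Fin n) :
    Continuous fun A : Matrix (Fin n) (Fin n) ℝ => pull A T x i j := by
  have h1 : ∀ p q, Continuous fun A : Matrix (Fin n) (Fin n) ℝ => T (act A x) p q := fun p q =>
    (hT p q).continuous.comp (cont_act_mat x)
  have h2 : ∀ p i : Fin n, Continuous fun A : Matrix (Fin n) (Fin n) ℝ => A p i := fun p i =>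
    continuous_apply_apply p i
  show Continuous fun A : Matrix (Fin n) (Fin n) ℝ => ∑ p, A p i * ∑ q, A q j * T (act A x) p q
  exact continuous_finsetSum _ fun p _ => (h2 p i).mul
    (continuous_finsetSum _ fun q _ => (h2 q j).mul (h1 p q))

lemma isClosed_orth : IsClosed {A : Matrix (Fin n) (Fin n) ℝ | Aᵀ * A = 1} :=
  isClosed_eq (continuous_id.matrix_transpose.matrix_mul continuous_id) continuous_const

lemma isClosed_stab {R : ℝ} {T : Field n} (hT : ∀ i j, Smooth (fun x => T x i j)) :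
    IsClosed (Stab R T) := by
  have e : Stab R T = {A | Aᵀ * A = 1} ∩ ⋂ (x : E n) (_ : R ≤ len x) (i : Fin n) (j : Fin n),
      {A | pull A T x i j = T x i j} := by
    ext A
    simp only [Stab, Set.mem_ofPred_eq, mem_inter_iff, mem_iInter]
    refine and_congr_right fun _ => ⟨fun h x hx i j => by rw [h x hx], fun h x hx => ?_⟩
    funext i j
    exact h x hx i j
  rw [e]
  exact isClosed_orth.inter (isClosed_iInter fun x => isClosed_iInter fun _ =>
    isClosed_iInter fun i => isClosed_iInter fun j =>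
      isClosed_eq (cont_pull_mat hT x i j) continuous_const)

lemma one_mem_stab {R : ℝ} {T : Field n} : (1 : Matrix (Fin n) (Fin n) ℝ) ∈ Stab R T :=
  ⟨by simp, fun x _ => pull_one T x⟩

lemma orth_mul {A B : Matrix (Fin n) (Fin n) ℝ} (hA : Aᵀ * A = 1) (hB : Bᵀ * B = 1) :
    (A * B)ᵀ * (A * B) = 1 := by
  rw [Matrix.transpose_mul, Matrix.mul_assoc, ← Matrix.mul_assoc Aᵀ, hA, Matrix.one_mul, hB]

lemma orth_transpose {A : Matrix (Fin n) (Fin n) ℝ} (hA : Aᵀ * A = 1) : (Aᵀ)ᵀ * Aᵀ = 1 := by
  rw [Matrix.transpose_transpose]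
  exact mul_eq_one_comm.1 hA

lemma mul_mem_stab {R : ℝ} {T : Field n} {A B : Matrix (Fin n) (Fin n) ℝ} (hA : A ∈ Stab R T)
    (hB : B ∈ Stab R T) : A * B ∈ Stab R T := by
  refine ⟨orth_mul hA.1 hB.1, fun x hx => ?_⟩
  rw [pull_mul]
  have h1 : pull B (pull A T) x = pull B T x := by
    have : pull A T (act B x) = T (act B x) := hA.2 _ (by rw [len_act hB.1]; exact hx)
    unfold pull at this ⊢
    rw [this]
  rw [h1]
  exact hB.2 x hx

lemma transpose_mem_stab {R : ℝ} {T : Field n} {A : Matrix (Fin n) (Fin n) ℝ}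
    (hA : A ∈ Stab R T) : Aᵀ ∈ Stab R T := by
  refine ⟨orth_transpose hA.1, fun x hx => ?_⟩
  have h2 : A * Aᵀ = 1 := mul_eq_one_comm.1 hA.1
  have h1 := hA.2 (act Aᵀ x) (by rw [len_act (orth_transpose hA.1)]; exact hx)
  have h3 : pull Aᵀ (pull A T) x = pull Aᵀ T x := by
    unfold pull at h1 ⊢
    rw [h1]
  rw [← h3, ← pull_mul, h2, pull_one]

end Vale.Agent.H318
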