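import Vale.Agent.P366.R2.H318.Flow

/-! Limits at infinity. -/

open MeasureTheory Metric Filter Topology Set Asymptotics
open scoped ContDiff Matrix

noncomputable section
namespace Vale.Agent.H318
open Vale.Agent.P366.Stmt Vale.Agent.P366.T2 Vale.Agent.T4 Vale.Agent.Mom68
open Vale.Agent.P366 (sphI sphM isOpen_outside sphI_congr sphI_add sphI_const_mul integrable_sph
  norm_smul_sph sphI_const sphI_Nc_Nc sphI_continuousOn)

variable {n : ℕ}

/-- the exterior with `K = 0` -/
def zeroK (X : Exterior n) : Exterior n where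
  F := X.F
  g := X.g
  K := fun _ _ _ => 0
  dom := X.dom
  bdry := X.bdry
  smooth := fun i j => ⟨(X.smooth i j).1, contDiff_const⟩
  symm := fun x i j => ⟨(X.symm x i j).1, rfl⟩
  pos := X.pos

lemma pd_zero (i : Fin n) (x : E n) : pd i (fun _ => (0 : ℝ)) x = 0 := (HP.const i 0 x).pd

lemma bigO_zero (q : ℝ) : BigO q (fun _ : E n => (0 : ℝ)) :=
  ⟨0, 0, fun x _ => by simp⟩

lemma zeroK_AF {X : Exterior n} (h : X.IsAF) : (zeroK X).IsAF := by
  obtain ⟨q, hq, hA⟩ := h
  refine ⟨q, hq, fun i j k l => ?_⟩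
  obtain ⟨h1, h2, h3, -, -⟩ := hA i j k l
  refine ⟨h1, h2, h3, bigO_zero _, ?_⟩
  have : pd k (fun x => (zeroK X).K x i j) = fun _ => 0 := by
    funext x
    exact pd_zero k x
  rw [this]
  exact bigO_zero _

namespace Rd

variable {a p : ℝ → ℝ} {R : ℝ} {g K : Field n} (h : Rd a p R g) {x : E n} {e : Fin n → ℝ} {ε : ℝ}
include h

/-- decay of the coefficients -/
lemma coef_dec (hn : 2 ≤ n) {q : ℝ}
    (hq : ∀ i j, BigO q (fun x => g x i j - if i = j then 1 else 0)) :
    (fun r => a r - 1) =O[atTop] (fun r : ℝ => r ^ (-q)) ∧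
    (fun r => p r - 1) =O[atTop] (fun r : ℝ => r ^ (-q)) := by
  classical
  have i0 : Fin n := ⟨0, by omega⟩
  obtain ⟨i0, i1, hne⟩ : ∃ i0 i1 : Fin n, i0 ≠ i1 :=
    ⟨⟨0, by omega⟩, ⟨1, by omega⟩, by simp [Fin.ext_iff]⟩
  have hx : ∀ r : ℝ, 0 < r → len (EuclideanSpace.single i0 r : E n) = r := by
    intro r hr
    unfold len
    rw [EuclideanSpace.norm_single, Real.norm_eq_abs, abs_of_pos hr]
  have hv0 : ∀ r : ℝ, 0 < r → nx i0 (EuclideanSpace.single i0 r : E n) = 1 := by
    intro r hr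
    unfold nx
    rw [hx r hr]
    simp [hr.ne']
  have hv1 : ∀ r : ℝ, 0 < r → nx i1 (EuclideanSpace.single i0 r : E n) = 0 := by
    intro r hr
    unfold nx
    simp [hne.symm]
  constructor
  · obtain ⟨C, R', hC⟩ := hq i1 i1
    refine IsBigO.of_bound C ?_
    filter_upwards [eventually_gt_atTop (max R R')] with r hr
    have hrR : R < r := (le_max_left _ _).trans_lt hr
    have hrR' : R' < r := (le_max_right _ _).trans_lt hr
    have hr0 : 0 < r := h.hR.trans hrR
    have h1 := hC (EuclideanSpace.single i0 r) (by rw [hx r hr0]; exact hrR')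
    simp only [if_true] at h1
    rw [h.eq _ (by rw [hx r hr0]; exact hrR.le), hx r hr0] at h1
    unfold Pj at h1
    rw [hv1 r hr0] at h1
    simp only [if_true, mul_zero, sub_zero, mul_one, add_zero] at h1
    rw [Real.norm_eq_abs, Real.norm_eq_abs, abs_of_pos (Real.rpow_pos_of_pos hr0 _)]
    exact h1
  · obtain ⟨C, R', hC⟩ := hq i0 i0
    refine IsBigO.of_bound C ?_
    filter_upwards [eventually_gt_atTop (max R R')] with r hr
    have hrR : R < r := (le_max_left _ _).trans_lt hr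
    have hrR' : R' < r := (le_max_right _ _).trans_lt hr
    have hr0 : 0 < r := h.hR.trans hrR
    have h1 := hC (EuclideanSpace.single i0 r) (by rw [hx r hr0]; exact hrR')
    simp only [if_true] at h1
    rw [h.eq _ (by rw [hx r hr0]; exact hrR.le), hx r hr0] at h1
    unfold Pj at h1
    rw [hv0 r hr0] at h1
    simp only [if_true, mul_one, sub_self, mul_zero, zero_add] at h1
    rw [Real.norm_eq_abs, Real.norm_eq_abs, abs_of_pos (Real.rpow_pos_of_pos hr0 _)]
    exact h1

lemma coef_lim (hn : 2 ≤ n) {q : ℝ} (hq0 : 0 < q)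
    (hq : ∀ i j, BigO q (fun x => g x i j - if i = j then 1 else 0)) :
    Tendsto a atTop (𝓝 1) ∧ Tendsto p atTop (𝓝 1) := by
  obtain ⟨h1, h2⟩ := h.coef_dec hn hq
  have h0 : Tendsto (fun r : ℝ => r ^ (-q)) atTop (𝓝 0) := tendsto_rpow_neg_atTop hq0
  have k1 := (h1.trans_tendsto h0).add_const 1
  have k2 := (h2.trans_tendsto h0).add_const 1
  simp only [sub_add_cancel, zero_add] at k1 k2
  exact ⟨k1, k2⟩

lemma rR_lim (hn : 2 ≤ n) {q : ℝ} (hq0 : 0 < q)
    (hq : ∀ i j, BigO q (fun x => g x i j - if i = j then 1 else 0)) :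
    Tendsto (rR a) atTop atTop := by
  obtain ⟨h1, -⟩ := h.coef_lim hn hq0 hq
  have h2 : Tendsto (fun r => √(a r)) atTop (𝓝 1) := by
    have := (Real.continuous_sqrt.tendsto 1).comp h1
    rwa [Real.sqrt_one] at this
  exact tendsto_id.atTop_mul_pos one_pos h2

end Rd

/-- **limits of the mass function** -/
theorem mass_lim (hn : 3 ≤ n) {X : Exterior n} {a p : ℝ → ℝ} {R : ℝ} (h : Rd a p R X.g)
    (hpd : ∀ x, R ≤ len x → (mat X.g x).PosDef) (hAF : X.IsAF) {m : ℝ} (hm : X.IsEnergy m) :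
    Tendsto (Mf n a p) atTop (𝓝 m) ∧ Tendsto (Vf a p) atTop (𝓝 1) := by
  have hn3 : (3 : ℝ) ≤ n := by exact_mod_cast hn
  have hs : ∀ x i j, X.g x i j = X.g x j i := fun x i j => (X.symm x i j).1
  have hl := h.lapse hs hpd
  have hr := h.round hs hpd
  have hB := hr.fits (by omega : 2 ≤ n)
  have hL := hr.lamOK (by omega : 2 ≤ n)
  obtain ⟨B, hBdef⟩ : ∃ B, B = bgR (by omega : 2 ≤ n) a R hr.hR hr.sm hr.pos := ⟨_, rfl⟩
  rw [← hBdef] at hB hL
  have hBR : B.R = R := by rw [hBdef]; rfl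
  have hBH : B.H = rH n a := by rw [hBdef]; rfl
  have hBl : B.lam = fun r => ((n : ℝ) - 1) / (2 * rR a r) := by rw [hBdef]; rfl
  have hBa : B.ar = fun r => rR a r ^ (n - 1) := by rw [hBdef]; rfl
  obtain ⟨h1, h2⟩ := stEF hn (X := zeroK X) (G := bgF R X.g) (B := B) (κ := fun _ => 0)
    (by rw [hBR]; exact hl) hB.toFits0 hL (zeroK_AF hAF) (m := m) hm (fun x _ => by
      have : Vale.Agent.T4.trT (bgF R X.g) (zeroK X).K x = 0 := by
        unfold Vale.Agent.T4.trT
        simp [zeroK]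
      rw [this, mul_zero])
  obtain ⟨q, hq, hA⟩ := hAF
  have i0 : Fin n := ⟨0, by omega⟩
  have hq0 : 0 < q := by linarith
  have hqa : ∀ i j, BigO q (fun x => X.g x i j - if i = j then 1 else 0) := fun i j =>
    (hA i j i0 i0).1
  have hρ := h.rR_lim (by omega) hq0 hqa
  have hMe : ∀ᶠ r in atTop, B.rho r ^ ((n : ℝ) - 2) *
      (1 - Vav (zeroK X).g r * (B.H r ^ 2 - (0 : ℝ) ^ 2) / (4 * B.lam r ^ 2)) =
      2 * Mf n a p r := by
    filter_upwards [eventually_ge_atTop R] with r hrR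
    have hr0 : 0 < r := h.hR.trans_le hrR
    have hρ0 := h.rho_pos hrR
    have hp := h.pp r hrR
    have hn1 : (n : ℝ) - 1 ≠ 0 := by linarith
    have e1 : B.rho r = rR a r := by
      unfold Bg.rho
      rw [hBa]
      have e : rR a r ^ (n - 1) = rR a r ^ ((n : ℝ) - 1) := by
        rw [← Real.rpow_natCast]
        congr 1
        rw [Nat.cast_sub (by omega)]
        push_cast
        ring
      simp only [e]
      rw [← Real.rpow_mul hρ0.le, mul_one_div_cancel hn1, Real.rpow_one]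
    have e2 : Vav (zeroK X).g r = 1 / p r := by
      unfold Vav Vale.Agent.P366.av
      have : sphI (fun y => 1 / rad (zeroK X).g y) r = 1 / p r * Vale.Agent.P366.omega n := by
        rw [← sphI_const (R := r) (n := n)]
        refine sphI_congr hr0.le fun x hx => ?_
        have hx' : len x = r := hx
        show 1 / rad X.g x = _
        rw [h.rad_eq (by rw [hx']; exact hrR), hx']
      rw [this, mul_div_assoc, div_self (Rd.om_pos (by omega)).ne', mul_one]
    have e3 : rR a r ^ ((n : ℝ) - 2) = rR a r ^ (n - 2) := by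
      rw [← Real.rpow_natCast (rR a r) (n - 2)]
      congr 1
      rw [Nat.cast_sub (by omega)]
      push_cast
      ring
    rw [e1, e2, e3, hBH, hBl]
    unfold Mf Vf rH
    have hP : √(p r) ^ 2 = p r := Real.sq_sqrt hp.le
    have e4 : (rR a r * (1 / r + deriv a r / (2 * a r)) / √(p r)) ^ 2 =
        (rR a r * (1 / r + deriv a r / (2 * a r))) ^ 2 / p r := by
      rw [div_pow, hP]
    rw [e4]
    obtain ⟨η, hη⟩ : ∃ η, η = 1 / r + deriv a r / (2 * a r) := ⟨_, rfl⟩
    rw [← hη]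
    field_simp
    ring
  have hM2 : Tendsto (fun r => 2 * Mf n a p r) atTop (𝓝 (2 * m)) :=
    h1.congr' hMe
  have hM : Tendsto (Mf n a p) atTop (𝓝 m) := by
    have := hM2.const_mul (1 / 2)
    simp only [← mul_assoc] at this
    norm_num at this
    exact this
  refine ⟨hM, ?_⟩
  -- `V² → 1`
  have hV2 : Tendsto (fun r => 1 - 2 * Mf n a p r / rR a r ^ (n - 2)) atTop (𝓝 1) := by
    have h3 : Tendsto (fun r => rR a r ^ (n - 2)) atTop atTop :=
      (tendsto_pow_atTop (by omega)).comp hρ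
    have h4 := hM2.div_atTop h3
    have h5 := h4.const_sub 1
    rwa [sub_zero] at h5
  have hsq : Tendsto (fun r => √(1 - 2 * Mf n a p r / rR a r ^ (n - 2))) atTop (𝓝 1) := by
    have := (Real.continuous_sqrt.tendsto 1).comp hV2
    rwa [Real.sqrt_one] at this
  refine hsq.congr' ?_
  filter_upwards [h2, eventually_ge_atTop R] with r hH hrR
  have hr0 : 0 < r := h.hR.trans_le hrR
  have hρ0 := h.rho_pos hrR
  have hp : 0 < √(p r) := Real.sqrt_pos.2 (h.pp r hrR)
  have hn1 : (0 : ℝ) < (n : ℝ) - 1 := by linarith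
  have hη : 0 < 1 / r + deriv a r / (2 * a r) := by
    have h3 : 0 < B.H r := by simpa using hH
    rw [hBH] at h3
    have h4 : 0 < ((n : ℝ) - 1) * (1 / r + deriv a r / (2 * a r)) := h3
    exact (mul_pos_iff_of_pos_left hn1).1 h4
  have hV : 0 ≤ Vf a p r := by
    unfold Vf
    positivity
  have e : 1 - 2 * Mf n a p r / rR a r ^ (n - 2) = Vf a p r ^ 2 := by
    unfold Mf
    field_simp
    ring
  rw [e, Real.sqrt_sq hV]

end Vale.Agent.H318
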