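import Vale.Agent.P366.R2.H318.Lim
import Vale.Agent.P366.T5.Final5

/-! The flux converges to the momentum. -/

open MeasureTheory Metric Filter Topology Set Asymptotics
open scoped ContDiff Matrix

noncomputable section
namespace Vale.Agent.H318
open Vale.Agent.P366.Stmt Vale.Agent.P366.T2 Vale.Agent.T4 Vale.Agent.Mom68
open Vale.Agent.P366 (sphI sphM isOpen_outside sphI_congr sphI_add sphI_const_mul integrable_sph
  norm_smul_sph sphI_const sphI_Nc_Nc sphI_continuousOn sphI_sub)

variable {n : ℕ}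

lemma sphI_close' {b R B : ℝ} (hb : 0 ≤ b) (hR : b < R) {u v : E n → ℝ}
    (hu : ContinuousOn u {x | b < ‖x‖}) (hv : ContinuousOn v {x | b < ‖x‖})
    (h : ∀ x : E n, ‖x‖ = R → |u x - v x| ≤ B) :
    |sphI u R - sphI v R| ≤ B * Vale.Agent.P366.omega n := by
  rw [← sphI_sub hb hR hu hv, ← Real.norm_eq_abs]
  have := norm_integral_le_of_norm_le_const (μ := sphM n)
    (f := fun θ : sphere (0 : E n) 1 => u (R • (θ : E n)) - v (R • (θ : E n)))
    (C := B) (Eventually.of_forall fun θ => by
      rw [Real.norm_eq_abs]; exact h _ (norm_smul_sph (hb.trans hR.le) θ))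
  rw [measureReal_def] at this
  exact this

lemma nx_abs (i : Fin n) {x : E n} (hx : x ≠ 0) : |nx i x| ≤ 1 := by
  have h1 : nx i x ^ 2 ≤ 1 := by
    have h2 := sum_nx_mul hx
    have h3 : nx i x * nx i x ≤ ∑ i, nx i x * nx i x :=
      Finset.single_le_sum (f := fun i => nx i x * nx i x) (fun j _ => mul_self_nonneg _)
        (Finset.mem_univ i)
    nlinarith
  rw [abs_le]
  constructor <;> nlinarith

lemma th_abs {e : Fin n → ℝ} (he : ∑ i, e i ^ 2 = 1) {x : E n} (hx : x ≠ 0) : |th e x| ≤ 1 := by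
  have h1 : 0 ≤ ∑ i, qv e i x ^ 2 := Finset.sum_nonneg fun i _ => sq_nonneg _
  rw [qv_sq e hx, he] at h1
  rw [abs_le]
  constructor <;> nlinarith

lemma qv_abs {e : Fin n → ℝ} (he : ∑ i, e i ^ 2 = 1) {x : E n} (hx : x ≠ 0) (i : Fin n) :
    |qv e i x| ≤ 1 := by
  have h1 : qv e i x ^ 2 ≤ ∑ i, qv e i x ^ 2 :=
    Finset.single_le_sum (f := fun i => qv e i x ^ 2) (fun j _ => sq_nonneg _) (Finset.mem_univ i)
  rw [qv_sq e hx, he] at h1
  have h2 : qv e i x ^ 2 ≤ 1 := by nlinarith [sq_nonneg (th e x)]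
  rw [abs_le]
  constructor <;> nlinarith

lemma Tnq_abs {e : Fin n → ℝ} (he : ∑ i, e i ^ 2 = 1) {x : E n} (hx : x ≠ 0) {K : Field n}
    {B : ℝ} (hB : ∀ i j, |K x i j| ≤ B) : |Tnq e K x| ≤ n * (n * B) := by
  unfold Tnq row
  refine (Finset.abs_sum_le_sum_abs _ _).trans ?_
  refine (Finset.sum_le_card_nsmul _ _ (n * B) fun i _ => ?_).trans (by simp)
  rw [abs_mul]
  have h1 : |∑ j, K x i j * nx j x| ≤ n * B := by
    refine (Finset.abs_sum_le_sum_abs _ _).trans ?_
    refine (Finset.sum_le_card_nsmul _ _ B fun j _ => ?_).trans (by simp)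
    rw [abs_mul]
    exact (mul_le_mul (hB i j) (nx_abs j hx) (abs_nonneg _) ((abs_nonneg _).trans (hB i j))).trans
      (by rw [mul_one])
  calc |∑ j, K x i j * nx j x| * |qv e i x| ≤ n * B * 1 :=
        mul_le_mul h1 (qv_abs he hx i) (abs_nonneg _) ((abs_nonneg _).trans h1)
    _ = _ := mul_one _

lemma rad_abs {x : E n} (hx : x ≠ 0) {K : Field n}
    {B : ℝ} (hB : ∀ i j, |K x i j| ≤ B) : |rad K x| ≤ n * (n * B) := by
  unfold rad
  refine (Finset.abs_sum_le_sum_abs _ _).trans ?_
  refine (Finset.sum_le_card_nsmul _ _ (n * B) fun i _ => ?_).trans (by simp)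
  refine (Finset.abs_sum_le_sum_abs _ _).trans ?_
  refine (Finset.sum_le_card_nsmul _ _ B fun j _ => ?_).trans (by simp)
  rw [abs_mul, abs_mul]
  have h0 : 0 ≤ B := (abs_nonneg _).trans (hB i j)
  calc |K x i j| * |nx i x| * |nx j x| ≤ B * 1 * 1 :=
        mul_le_mul (mul_le_mul (hB i j) (nx_abs i hx) (abs_nonneg _) h0) (nx_abs j hx)
          (abs_nonneg _) (by simpa using h0)
    _ = B := by ring

/-- the Euclidean flux density -/
def fE (e : Fin n → ℝ) (K : Field n) (x : E n) : ℝ := ∑ i, e i * ∑ j, K x i j * nx j x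

lemma fE_eq {e : Fin n → ℝ} {K : Field n} (x : E n) :
    fE e K x = Tnq e K x + th e x * rad K x := by
  unfold fE Tnq rad row
  rw [Finset.mul_sum, ← Finset.sum_add_distrib]
  refine Finset.sum_congr rfl fun i _ => ?_
  rw [qv_eq]
  have : ∑ j, K x i j * nx i x * nx j x = nx i x * ∑ j, K x i j * nx j x := by
    rw [Finset.mul_sum]
    exact Finset.sum_congr rfl fun j _ => by ring
  rw [this]
  ring

/-- the function of the coefficients is differentiable -/
lemma coef_isBigO {a p : ℝ → ℝ} {q : ℝ} {φ : ℝ × ℝ → ℝ} (hφ : DifferentiableAt ℝ φ (1, 1))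
    (ha : (fun r => a r - 1) =O[atTop] (fun r : ℝ => r ^ (-q)))
    (hp : (fun r => p r - 1) =O[atTop] (fun r : ℝ => r ^ (-q)))
    (hla : Tendsto a atTop (𝓝 1)) (hlp : Tendsto p atTop (𝓝 1)) :
    (fun r => φ (a r, p r) - φ (1, 1)) =O[atTop] (fun r : ℝ => r ^ (-q)) := by
  have h1 := hφ.isBigO_sub.comp_tendsto (hla.prodMk_nhds hlp)
  refine h1.trans ?_
  have h2 : (fun r => ((a r, p r) : ℝ × ℝ) - (1, 1)) =O[atTop] (fun r : ℝ => r ^ (-q)) := by
    have : (fun r => ((a r, p r) : ℝ × ℝ) - (1, 1)) = fun r => (a r - 1, p r - 1) := rfl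
    rw [this]
    exact ha.prod_left hp
  exact h2

/-- **the flux converges to the momentum** -/
theorem mom_lim (hn : 3 ≤ n) {X : Exterior n} {a p : ℝ → ℝ} {R : ℝ} (h : Rd a p R X.g)
    (hAF : X.IsAF) {P : Fin n → ℝ} (hP : X.IsMomentum P)
    (htr : ∀ x, R ≤ len x → tr X.g X.K x = 0) {e : Fin n → ℝ} (he : ∑ i, e i ^ 2 = 1) :
    Tendsto (Uf X.g X.K e a p 1) atTop (𝓝 (∑ i, e i * P i)) := by
  have hn3 : (3 : ℝ) ≤ n := by exact_mod_cast hn
  have hKs : ∀ x i j, X.K x i j = X.K x j i := fun x i j => (X.symm x i j).2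
  have hKsm : ∀ i j, Smooth (fun x => X.K x i j) := fun i j => (X.smooth i j).2
  obtain ⟨q, hq, hA⟩ := hAF
  have i0 : Fin n := ⟨0, by omega⟩
  have hq0 : 0 < q := by linarith
  have hqa : ∀ i j, BigO q (fun x => X.g x i j - if i = j then 1 else 0) := fun i j =>
    (hA i j i0 i0).1
  obtain ⟨ha, hp⟩ := h.coef_dec (by omega) hqa
  obtain ⟨hla, hlp⟩ := h.coef_lim (by omega) hq0 hqa
  -- the sum of the fluxes
  have hS : Tendsto (fun r => ∑ i, e i * flx (fun j x => momT X.g X.K x i j) r) atTop
      (𝓝 (∑ i, e i * P i)) := tendsto_finset_sum _ fun i _ => (hP i).const_mul _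
  -- pointwise decay of `K`
  have hKd : ∃ C R', 0 ≤ C ∧ ∀ x : E n, R' < len x → ∀ i j, |X.K x i j| ≤ C * len x ^ (-(q + 1)) := by
    choose C R' hC using fun i j => (hA i j i0 i0).2.2.2.1
    obtain ⟨M, hM⟩ : ∃ M, ∀ i j, R' i j ≤ M :=
      ⟨∑ i, ∑ j, |R' i j|, fun i j => (le_abs_self _).trans
        ((Finset.single_le_sum (f := fun j => |R' i j|) (fun _ _ => abs_nonneg _)
          (Finset.mem_univ j)).trans (Finset.single_le_sum (f := fun i => ∑ j, |R' i j|)
            (fun _ _ => Finset.sum_nonneg fun _ _ => abs_nonneg _) (Finset.mem_univ i)))⟩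
    refine ⟨∑ i, ∑ j, |C i j|, max M 0, Finset.sum_nonneg fun _ _ => Finset.sum_nonneg
      fun _ _ => abs_nonneg _, fun x hx i j => ?_⟩
    have h0 : 0 < len x := (le_max_right _ _).trans_lt hx
    refine (hC i j x ((hM i j).trans_lt ((le_max_left _ _).trans_lt hx))).trans ?_
    refine mul_le_mul_of_nonneg_right ?_ (Real.rpow_nonneg h0.le _)
    exact (le_abs_self _).trans ((Finset.single_le_sum (f := fun j => |C i j|)
      (fun _ _ => abs_nonneg _) (Finset.mem_univ j)).trans
        (Finset.single_le_sum (f := fun i => ∑ j, |C i j|)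
          (fun _ _ => Finset.sum_nonneg fun _ _ => abs_nonneg _) (Finset.mem_univ i)))
  obtain ⟨C, R', hC0, hC⟩ := hKd
  -- decay of the coefficients
  have d1 : (fun r => √(a r) ^ (n - 1) / p r - 1) =O[atTop] (fun r : ℝ => r ^ (-q)) := by
    have := coef_isBigO (φ := fun z : ℝ × ℝ => √z.1 ^ (n - 1) / z.2) (by
      have h1 : ContDiffAt ℝ 1 (fun z : ℝ × ℝ => √z.1) (1, 1) :=
        contDiffAt_fst.sqrt (by norm_num)
      have h2 : ContDiffAt ℝ 1 (fun z : ℝ × ℝ => z.2) (1, 1) := contDiffAt_snd
      have h3 : ContDiffAt ℝ 1 (fun z : ℝ × ℝ => √z.1 ^ (n - 1) / z.2) (1, 1) :=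
        (h1.pow _).div h2 (by norm_num)
      exact h3.differentiableAt (by norm_num)) ha hp hla hlp
    simpa using this
  have d2 : (fun r => √(a r) ^ (n - 2) / √(p r) - 1) =O[atTop] (fun r : ℝ => r ^ (-q)) := by
    have := coef_isBigO (φ := fun z : ℝ × ℝ => √z.1 ^ (n - 2) / √z.2) (by
      have h1 : ContDiffAt ℝ 1 (fun z : ℝ × ℝ => √z.1) (1, 1) :=
        contDiffAt_fst.sqrt (by norm_num)
      have h2 : ContDiffAt ℝ 1 (fun z : ℝ × ℝ => √z.2) (1, 1) :=
        contDiffAt_snd.sqrt (by norm_num)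
      have h3 : ContDiffAt ℝ 1 (fun z : ℝ × ℝ => √z.1 ^ (n - 2) / √z.2) (1, 1) :=
        (h1.pow _).div h2 (by norm_num)
      exact h3.differentiableAt (by norm_num)) ha hp hla hlp
    simpa using this
  obtain ⟨C1, hC1⟩ := d1.bound
  obtain ⟨C2, hC2⟩ := d2.bound
  have hdiff : Tendsto (fun r => Uf X.g X.K e a p 1 r -
      ∑ i, e i * flx (fun j x => momT X.g X.K x i j) r) atTop (𝓝 0) := by
    refine squeeze_zero_norm' (a := fun r => (|C1| + |C2|) * (n * (n * C)) / ((n : ℝ) - 1) *
      r ^ (-(2 * q + 2 - n))) ?_ ?_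
    · filter_upwards [hC1, hC2, eventually_gt_atTop (max R R')] with r h1 h2 hr
      have hrR : R < r := (le_max_left _ _).trans_lt hr
      have hrR' : R' < r := (le_max_right _ _).trans_lt hr
      have hr0 : 0 < r := h.hR.trans hrR
      have hω := Rd.om_pos (n := n) (by omega)
      have hn1 : (0 : ℝ) < (n : ℝ) - 1 := by linarith
      have hrq : 0 < r ^ (-q) := Real.rpow_pos_of_pos hr0 _
      rw [Real.norm_eq_abs, Real.norm_eq_abs, abs_of_pos hrq] at h1 h2
      have cN : ContinuousOn (fun x => Dn n a p r * nW X.g X.K e a p 1 x) {x | R < ‖x‖} :=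
        fun y hy => ((h.cnW hKsm (le_of_lt hy)).continuousAt.const_mul _).continuousWithinAt
      have cF : ContinuousOn (fE e X.K) {x | R < ‖x‖} := by
        unfold fE
        refine continuousOn_finsetSum _ fun i _ => continuousOn_const.mul ?_
        refine continuousOn_finsetSum _ fun j _ => ?_
        exact (hKsm i j).continuous.continuousOn.mul
          ((nx_cont h.hR.le j))
      -- the sum of the fluxes as one integral
      have e1 : ∑ i, e i * flx (fun j x => momT X.g X.K x i j) r =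
          r ^ (n - 1) * sphI (fE e X.K) r / (((n : ℝ) - 1) * Vale.Agent.P366.omega n) := by
        have e2 : ∀ i, flx (fun j x => momT X.g X.K x i j) r =
            r ^ (n - 1) * sphI (fun x => ∑ j, X.K x i j * nx j x) r /
              (((n : ℝ) - 1) * Vale.Agent.P366.omega n) := by
          intro i
          unfold flx sphInt
          rw [sph_eq_sphI, Vale.Agent.P366.omega_eq]
          congr 2
          refine sphI_congr hr0.le fun x hx => Finset.sum_congr rfl fun j _ => ?_
          have hxl : len x = r := hx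
          have : momT X.g X.K x i j = X.K x i j := by
            unfold momT
            rw [htr x (by rw [hxl]; exact hrR.le)]
            ring
          show momT X.g X.K x i j * (x j / len x) = X.K x i j * nx j x
          rw [this]
          rfl
        simp only [e2]
        have e3 : sphI (fE e X.K) r = ∑ i, e i * sphI (fun x => ∑ j, X.K x i j * nx j x) r := by
          unfold fE
          have hc : ∀ i, ContinuousOn (fun x => e i * ∑ j, X.K x i j * nx j x)
              {x : E n | R < ‖x‖} := fun i => continuousOn_const.mul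
            (continuousOn_finsetSum _ fun j _ => (hKsm i j).continuous.continuousOn.mul
              ((nx_cont h.hR.le j)))
          rw [sphI_sum' h.hR.le hrR _ fun i _ => hc i]
          exact Finset.sum_congr rfl fun i _ => sphI_const_mul _ _
        rw [e3, Finset.mul_sum, Finset.sum_div]
        exact Finset.sum_congr rfl fun i _ => by ring
      have e4 : Uf X.g X.K e a p 1 r = r ^ (n - 1) *
          sphI (fun x => Dn n a p r * nW X.g X.K e a p 1 x) r /
            (((n : ℝ) - 1) * Vale.Agent.P366.omega n) := by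
        rw [sphI_const_mul]
        unfold Uf Fl
        ring
      rw [e1, e4, ← sub_div, ← mul_sub, Real.norm_eq_abs, abs_div, abs_mul,
        abs_of_pos (pow_pos hr0 _), abs_of_pos (mul_pos hn1 hω)]
      have hB : ∀ x : E n, ‖x‖ = r → |Dn n a p r * nW X.g X.K e a p 1 x - fE e X.K x| ≤
          (|C1| + |C2|) * r ^ (-q) * (n * (n * (C * r ^ (-(q + 1))))) := by
        intro x hx
        have hxl : len x = r := hx
        have hxR : R ≤ len x := by rw [hxl]; exact hrR.le
        have hx0 := h.ne0 hxR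
        have hKx : ∀ i j, |X.K x i j| ≤ C * r ^ (-(q + 1)) := fun i j => by
          have := hC x (by rw [hxl]; exact hrR') i j
          rwa [hxl] at this
        have b1 := Tnq_abs he hx0 hKx
        have b2 := rad_abs hx0 hKx
        have b3 := th_abs he hx0
        have ha0 := h.pa r hrR.le
        have hp0 := h.pp r hrR.le
        have hA0 : 0 < √(a r) := Real.sqrt_pos.2 ha0
        have hP0 : 0 < √(p r) := Real.sqrt_pos.2 hp0
        have hN := h.nW_eq (K := X.K) (e := e) hxR (hKs x) (htr x hxR) 1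
        rw [hxl] at hN
        have e5 : Dn n a p r * nW X.g X.K e a p 1 x - fE e X.K x =
            (√(a r) ^ (n - 1) / p r - 1) * (th e x * rad X.K x) +
            (√(a r) ^ (n - 2) / √(p r) - 1) * Tnq e X.K x := by
          rw [fE_eq]
          unfold Dn
          have e6 : √(a r) ^ (n - 1) * √(p r) * nW X.g X.K e a p 1 x =
              √(a r) ^ (n - 1) * (√(p r) * nW X.g X.K e a p 1 x) := by ring
          rw [e6, hN]
          have e7 : √(a r) ^ (n - 1) = √(a r) ^ (n - 2) * √(a r) := by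
            rw [← pow_succ]; congr 1; omega
          rw [e7]
          field_simp
          ring
        have hBpos : 0 ≤ n * (n * (C * r ^ (-(q + 1)))) := by positivity
        rw [e5]
        refine (abs_add_le _ _).trans ?_
        rw [abs_mul, abs_mul, abs_mul]
        have c1 : |√(a r) ^ (n - 1) / p r - 1| ≤ |C1| * r ^ (-q) :=
          h1.trans (mul_le_mul_of_nonneg_right (le_abs_self _) hrq.le)
        have c2 : |√(a r) ^ (n - 2) / √(p r) - 1| ≤ |C2| * r ^ (-q) :=
          h2.trans (mul_le_mul_of_nonneg_right (le_abs_self _) hrq.le)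
        have t1 : |th e x| * |rad X.K x| ≤ n * (n * (C * r ^ (-(q + 1)))) := by
          calc |th e x| * |rad X.K x| ≤ 1 * (n * (n * (C * r ^ (-(q + 1))))) :=
                mul_le_mul b3 b2 (abs_nonneg _) zero_le_one
            _ = _ := one_mul _
        have u1 := mul_le_mul c1 t1 (by positivity) (by positivity)
        have u2 := mul_le_mul c2 b1 (abs_nonneg _) (by positivity)
        calc _ ≤ _ := add_le_add u1 u2
          _ = _ := by ring
      have hcl := sphI_close' h.hR.le hrR cN cF hB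
      rw [div_le_iff₀ (mul_pos hn1 hω)]
      refine (mul_le_mul_of_nonneg_left hcl (pow_pos hr0 _).le).trans (le_of_eq ?_)
      have e8 : r ^ (n - 1) * (r ^ (-q) * r ^ (-(q + 1))) = r ^ (-(2 * q + 2 - n)) := by
        rw [← Real.rpow_natCast r (n - 1), ← Real.rpow_add hr0, ← Real.rpow_add hr0]
        congr 1
        rw [Nat.cast_sub (by omega)]
        push_cast
        ring
      rw [← e8]
      field_simp
    · have h1 : Tendsto (fun r : ℝ => r ^ (-(2 * q + 2 - n))) atTop (𝓝 0) :=
        tendsto_rpow_neg_atTop (by linarith)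
      have := h1.const_mul ((|C1| + |C2|) * (n * (n * C)) / ((n : ℝ) - 1))
      rwa [mul_zero] at this
  have := hdiff.add hS
  simp only [sub_add_cancel, zero_add] at this
  exact this

end Vale.Agent.H318
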