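import Vale.Agent.P366.R2.H318.RadG
import Vale.Agent.P366.T4.SG68
import Vale.Agent.P366.T4.StA765

/-! The mass function of a spherically symmetric metric. -/

open MeasureTheory Metric Filter Topology Set
open scoped ContDiff Matrix

noncomputable section
namespace Vale.Agent.H318
open Vale.Agent.P366.Stmt Vale.Agent.P366.T2 Vale.Agent.T4

variable {n : ℕ}

/-- `V = dρ / ds` -/
def Vf (a p : ℝ → ℝ) (r : ℝ) : ℝ := rR a r * (1 / r + deriv a r / (2 * a r)) / √(p r)

/-- the mass function -/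
def Mf (n : ℕ) (a p : ℝ → ℝ) (r : ℝ) : ℝ := rR a r ^ (n - 2) * (1 - Vf a p r ^ 2) / 2

namespace Rd

variable {a p : ℝ → ℝ} {R : ℝ} {g : Field n} (h : Rd a p R g) {x : E n}
include h

lemma rad_eq (hx : R ≤ len x) : rad g x = p (len x) := by
  have hx0 := h.ne0 hx
  unfold rad
  have h1 : ∀ i j, g x i j * nx i x * nx j x = a (len x) * nx i x * (Pj i j x * nx j x) +
      p (len x) * (nx i x * nx i x) * (nx j x * nx j x) := by
    intro i j
    rw [h.eq x hx]
    ring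
  simp only [h1, Finset.sum_add_distrib, ← Finset.mul_sum, Pj_nx hx0, sum_nx_mul hx0, mul_zero,
    zero_add, mul_one]

lemma g_nx' (hx : R ≤ len x) (i : Fin n) : ∑ j, g x i j * nx j x = rad g x * nx i x := by
  have hx0 := h.ne0 hx
  rw [h.rad_eq hx]
  have h1 : ∀ j, g x i j * nx j x = a (len x) * (Pj i j x * nx j x) +
      p (len x) * nx i x * (nx j x * nx j x) := by
    intro j
    rw [h.eq x hx]
    ring
  simp only [h1, Finset.sum_add_distrib, ← Finset.mul_sum, Pj_nx hx0, sum_nx_mul hx0]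
  ring

lemma lapse (hs : ∀ x i j, g x i j = g x j i) (hpd : ∀ x, R ≤ len x → (mat g x).PosDef) :
    Lapse (bgF R g) g R :=
  lapse_bgF h.hR h.gs hs hpd fun _ hx i => h.g_nx' hx i

lemma round (hs : ∀ x i j, g x i j = g x j i) (hpd : ∀ x, R ≤ len x → (mat g x).PosDef) :
    Round a R (bgF R g) where
  hR := h.hR
  sm := h.sa
  pos := h.pa
  Gs := (h.lapse hs hpd).Gs
  eq := fun x hx i j => by
    rw [bgF_eq h.hR hx, h.eq x hx, h.rad_eq hx]
    ring

/-- the scalar curvature -/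
theorem scal_rd (hn : 2 ≤ n) (hs : ∀ x i j, g x i j = g x j i)
    (hpd : ∀ x, R ≤ len x → (mat g x).PosDef) (hx : R < len x) :
    scal g x = ((n : ℝ) - 1) * ((n : ℝ) - 2) / (len x ^ 2 * a (len x)) -
      1 / p (len x) * (rH n a (len x) ^ 2 / ((n : ℝ) - 1) + rH n a (len x) ^ 2 +
        2 * deriv (rH n a) (len x)) +
      deriv p (len x) / p (len x) ^ 2 * rH n a (len x) := by
  have hl := h.lapse hs hpd
  have hr := h.round hs hpd
  have hx0 := h.ne0 hx.le
  have hB := hr.fits hn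
  have hp := h.pp _ hx.le
  obtain ⟨B, hBdef⟩ : ∃ B, B = bgR hn a R hr.hR hr.sm hr.pos := ⟨_, rfl⟩
  rw [← hBdef] at hB
  have hBR : B.R = R := by rw [hBdef]; rfl
  have hBH : B.H = rH n a := by rw [hBdef]; rfl
  have hxB : B.R < len x := by rw [hBR]; exact hx
  have hII : ctr (bgF R g) (IIf (bgF R g)) (IIf (bgF R g)) x = rH n a (len x) ^ 2 / ((n : ℝ) - 1) := by
    rw [hB.hII x hxB, hBdef]; rfl
  have hH1 : H1 (bgF R g) x = rH n a (len x) := by rw [H1_eq hB hxB, hBH]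
  have hdH : dN (H1 (bgF R g)) x = deriv (rH n a) (len x) := by rw [dN_H1 hB hxB, hBH]
  -- the logarithm of the lapse
  have hlf : ∀ y : E n, R < len y → HasDerivAt (fun s => Real.log (p s) / 2)
      (deriv p (len y) / p (len y) / 2) (len y) := fun y hy =>
    ((hd1 h.sp (len y)).log (h.pp _ (le_of_lt hy)).ne').div_const 2
  have hlfe : ∀ y : E n, R < len y → lf g =ᶠ[𝓝 y] fun z => Real.log (p (len z)) / 2 := by
    intro y hy
    filter_upwards [(isOpen_out R).mem_nhds hy] with z hz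
    unfold lf
    rw [h.rad_eq (le_of_lt hz)]
  have hglf : ∀ y : E n, R < len y → ∀ l, glf g l y = deriv p (len y) / p (len y) / 2 * nx l y := by
    intro y hy l
    have h1 := (HP.radial (h.ne0 (le_of_lt hy)) (hlf y hy) l).congr (hlfe y hy)
    unfold glf
    rw [h1.pd]
    unfold nx
    ring
  have hdN : dN (lf g) x = deriv p (len x) / p (len x) / 2 := by
    unfold dN
    have e : ∀ i, nx i x * pd i (lf g) x =
        deriv p (len x) / p (len x) / 2 * (nx i x * nx i x) := by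
      intro i
      have := hglf x hx i
      unfold glf at this
      rw [this]
      ring
    simp only [e, ← Finset.mul_sum, sum_nx_mul hx0, mul_one]
  have hDS : DS (bgF R g) (glf g) x = 0 := by
    unfold DS
    refine Finset.sum_eq_zero fun k _ => ?_
    have e : (fun y => ∑ l, Sm (bgF R g) k l y * glf g l y) =ᶠ[𝓝 x] fun _ => (0 : ℝ) := by
      filter_upwards [(isOpen_out R).mem_nhds hx] with y hy
      have e2 : ∀ l, Sm (bgF R g) k l y * glf g l y =
          deriv p (len y) / p (len y) / 2 * (Sm (bgF R g) k l y * nx l y) := by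
        intro l
        rw [hglf y hy]
        ring
      simp only [e2, ← Finset.mul_sum, hl.Sm_nx (le_of_lt hy), mul_zero]
    exact ((HP.const k 0 x).congr e).pd
  have hS1 : S2 (bgF R g) (Lg (bgF R g)) (glf g) x = 0 := by
    have := hl.S2_radial hx.le (u := Lg (bgF R g)) (w := glf g)
      (c := (n - 1) * deriv a (len x) / (2 * a (len x))) (fun i => hr.L_eq hx i)
    exact this
  have hS2 : S2 (bgF R g) (glf g) (glf g) x = 0 := hl.S2_radial hx.le (fun i => hglf x hx i)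
  have hn1 : (n : ℝ) - 1 ≠ 0 := by
    have : (2 : ℝ) ≤ n := by exact_mod_cast hn
    linarith
  rw [stA n _ _ R hl x hx, hr.scal_eq hn hx, hII, hH1, hdH, hdN, hDS, hS1, hS2, h.rad_eq hx.le]
  field_simp
  ring

lemma rR_hd' {r : ℝ} (hr : R ≤ r) :
    HasDerivAt (rR a) (rR a r * (1 / r + deriv a r / (2 * a r))) r :=
  rR_hd h.sa (h.hR.trans_le hr) (h.pa r hr)

lemma rho_pos {r : ℝ} (hr : R ≤ r) : 0 < rR a r := rR_pos (h.hR.trans_le hr) (h.pa r hr)

lemma sqrt_hd {r : ℝ} (hr : R ≤ r) :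
    HasDerivAt (fun s => √(p s)) (deriv p r / (2 * √(p r))) r := (hd1 h.sp r).sqrt (h.pp r hr).ne'

/-- the derivative of `V` -/
theorem V_hd (hn : 3 ≤ n) (hs : ∀ x i j, g x i j = g x j i)
    (hpd : ∀ x, R ≤ len x → (mat g x).PosDef) (hx : R < len x) :
    HasDerivAt (Vf a p) (√(p (len x)) * (((n : ℝ) - 2) * (1 - Vf a p (len x) ^ 2) /
      (2 * rR a (len x)) - rR a (len x) * (scal g x / (2 * ((n : ℝ) - 1))))) (len x) := by
  have hr0 := (h.lpos hx.le).ne'
  have ha := h.pa _ hx.le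
  have hp := h.pp _ hx.le
  have hρ := h.rho_pos hx.le
  have hn3 : (3 : ℝ) ≤ n := by exact_mod_cast hn
  have hn1 : (n : ℝ) - 1 ≠ 0 := by linarith
  have hsp : 0 < √(p (len x)) := Real.sqrt_pos.2 hp
  have hη0 := Round.rH_hd (n := n) h.sa hr0 ha.ne'
  have hη : HasDerivAt (fun s => 1 / s + deriv a s / (2 * a s))
      (deriv (rH n a) (len x) / ((n : ℝ) - 1)) (len x) := by
    have h1 := (hη0.div_const ((n : ℝ) - 1))
    rw [hη0.deriv]
    refine h1.congr_of_eventuallyEq (Eventually.of_forall fun s => ?_)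
    unfold rH
    field_simp
  have hV : HasDerivAt (Vf a p) _ (len x) :=
    ((h.rR_hd' hx.le).fun_mul hη).fun_div (h.sqrt_hd hx.le) hsp.ne'
  refine hV.congr_deriv ?_
  rw [h.scal_rd (by omega) hs hpd hx]
  have hHη : rH n a (len x) = ((n : ℝ) - 1) * (1 / len x + deriv a (len x) / (2 * a (len x))) := rfl
  rw [hHη]
  have hVd : Vf a p (len x) = rR a (len x) * (1 / len x + deriv a (len x) / (2 * a (len x))) /
    √(p (len x)) := rfl
  rw [hVd]
  obtain ⟨η, hηd⟩ : ∃ η, η = 1 / len x + deriv a (len x) / (2 * a (len x)) := ⟨_, rfl⟩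
  obtain ⟨H', hH'⟩ : ∃ H', H' = deriv (rH n a) (len x) := ⟨_, rfl⟩
  rw [← hηd, ← hH']
  have hρ2 : len x ^ 2 * a (len x) = rR a (len x) ^ 2 := (rR_sq ha).symm
  rw [hρ2]
  obtain ⟨ρ, hρd⟩ : ∃ ρ, ρ = rR a (len x) := ⟨_, rfl⟩
  rw [← hρd] at hρ ⊢
  obtain ⟨P, hP⟩ : ∃ P, P = √(p (len x)) := ⟨_, rfl⟩
  have hP2 : p (len x) = P ^ 2 := by rw [hP, Real.sq_sqrt hp.le]
  rw [hP2]
  have hPP : √(P ^ 2) = P := by rw [← hP2, ← hP]
  rw [hPP]
  rw [← hP] at hsp
  field_simp
  ring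

/-- **the derivative of the mass function** -/
theorem M_hd (hn : 3 ≤ n) (hs : ∀ x i j, g x i j = g x j i)
    (hpd : ∀ x, R ≤ len x → (mat g x).PosDef) (hx : R < len x) :
    HasDerivAt (Mf n a p) (√(p (len x)) * (rR a (len x) ^ (n - 1) * Vf a p (len x) *
      scal g x / (2 * ((n : ℝ) - 1)))) (len x) := by
  have hr0 := (h.lpos hx.le).ne'
  have ha := h.pa _ hx.le
  have hp := h.pp _ hx.le
  have hρ := h.rho_pos hx.le
  have hn3 : (3 : ℝ) ≤ n := by exact_mod_cast hn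
  have hn1 : (n : ℝ) - 1 ≠ 0 := by linarith
  have hsp : 0 < √(p (len x)) := Real.sqrt_pos.2 hp
  -- `η`
  have hη0 := Round.rH_hd (n := n) h.sa hr0 ha.ne'
  have hη : HasDerivAt (fun s => 1 / s + deriv a s / (2 * a s))
      (deriv (rH n a) (len x) / ((n : ℝ) - 1)) (len x) := by
    have h1 := (hη0.div_const ((n : ℝ) - 1))
    rw [hη0.deriv]
    refine h1.congr_of_eventuallyEq (Eventually.of_forall fun s => ?_)
    unfold rH
    field_simp
  have hV : HasDerivAt (Vf a p) _ (len x) :=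
    ((h.rR_hd' hx.le).fun_mul hη).fun_div (h.sqrt_hd hx.le) hsp.ne'
  have hM : HasDerivAt (Mf n a p) _ (len x) :=
    (((h.rR_hd' hx.le).fun_pow (n - 2)).fun_mul ((hasDerivAt_const (len x) (1 : ℝ)).fun_sub
      (hV.fun_pow 2))).div_const 2
  refine hM.congr_deriv ?_
  rw [h.scal_rd (by omega) hs hpd hx]
  have hHη : rH n a (len x) = ((n : ℝ) - 1) * (1 / len x + deriv a (len x) / (2 * a (len x))) := rfl
  rw [hHη]
  have hVd : Vf a p (len x) = rR a (len x) * (1 / len x + deriv a (len x) / (2 * a (len x))) /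
    √(p (len x)) := rfl
  rw [hVd]
  obtain ⟨η, hηd⟩ : ∃ η, η = 1 / len x + deriv a (len x) / (2 * a (len x)) := ⟨_, rfl⟩
  obtain ⟨H', hH'⟩ : ∃ H', H' = deriv (rH n a) (len x) := ⟨_, rfl⟩
  rw [← hηd, ← hH']
  have hρ2 : len x ^ 2 * a (len x) = rR a (len x) ^ 2 := (rR_sq ha).symm
  rw [hρ2]
  obtain ⟨ρ, hρd⟩ : ∃ ρ, ρ = rR a (len x) := ⟨_, rfl⟩
  rw [← hρd] at hρ ⊢
  obtain ⟨P, hP⟩ : ∃ P, P = √(p (len x)) := ⟨_, rfl⟩
  have hP2 : p (len x) = P ^ 2 := by rw [hP, Real.sq_sqrt hp.le]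
  rw [hP2]
  have hPP : √(P ^ 2) = P := by rw [← hP2, ← hP]
  rw [hPP]
  rw [← hP] at hsp
  rcases Nat.exists_eq_add_of_le hn with ⟨k, rfl⟩
  have e1 : 3 + k - 2 = k + 1 := by omega
  have e2 : 3 + k - 1 = k + 2 := by omega
  have e3 : 3 + k - 2 - 1 = k := by omega
  rw [e1, e2]
  simp only [Nat.add_sub_cancel]
  push_cast at hn1 ⊢
  have hn1' : (3 : ℝ) + k - 1 ≠ 0 := hn1
  have hk : (2 : ℝ) + k ≠ 0 := by
    intro h0
    apply hn1'
    linarith
  have e4 : (3 : ℝ) + k - 1 = 2 + k := by ring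
  rw [e4]
  field_simp
  ring

end Rd

end Vale.Agent.H318
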