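import Vale.Agent.P366.R2.H318.PtIneq

/-! The averaged inequality. -/

open MeasureTheory Metric Filter Topology Set
open scoped ContDiff Matrix

noncomputable section
namespace Vale.Agent.H318
open Vale.Agent.P366.Stmt Vale.Agent.P366.T2 Vale.Agent.T4 Vale.Agent.Mom68
open Vale.Agent.P366 (sphI sphM isOpen_outside sphI_congr sphI_add sphI_const_mul integrable_sph
  norm_smul_sph sphI_const sphI_Nc_Nc)

variable {n : ℕ}

lemma sphI_mono' {b R : ℝ} (hb : 0 ≤ b) (hR : b < R) {u v : E n → ℝ}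
    (hu : ContinuousOn u {x | b < ‖x‖}) (hv : ContinuousOn v {x | b < ‖x‖})
    (h : ∀ x : E n, ‖x‖ = R → u x ≤ v x) : sphI u R ≤ sphI v R :=
  integral_mono (integrable_sph hb hR hu) (integrable_sph hb hR hv)
    (fun θ => h _ (norm_smul_sph (hb.trans hR.le) θ))

lemma sphI_sum' {ι : Type} {b R : ℝ} (hb : 0 ≤ b) (hR : b < R) (s : Finset ι)
    {u : ι → E n → ℝ} (hu : ∀ i ∈ s, ContinuousOn (u i) {x | b < ‖x‖}) :
    sphI (fun x => ∑ i ∈ s, u i x) R = ∑ i ∈ s, sphI (u i) R :=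
  integral_finsetSum _ fun i hi => integrable_sph hb hR (hu i hi)

lemma nx_cont {b : ℝ} (hb : 0 ≤ b) (i : Fin n) : ContinuousOn (nx i) {x : E n | b < ‖x‖} := by
  intro x hx
  have hx0 : x ≠ 0 := norm_pos_iff.1 (hb.trans_lt hx)
  exact (contDiffAt_nx (m := 1) i hx0).continuousAt.continuousWithinAt

/-- the second moment -/
lemma sphI_th [Nontrivial (E n)] (hn : 2 ≤ n) {e : Fin n → ℝ} (he : ∑ i, e i ^ 2 = 1) {r : ℝ}
    (hr : 0 < r) : sphI (fun x : E n => th e x ^ 2) r = Vale.Agent.P366.omega n / n := by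
  have e1 : ∀ x : E n, th e x ^ 2 = ∑ i, ∑ j, (e i * e j) * (nx i x * nx j x) := by
    intro x
    unfold th
    rw [sq, Finset.sum_mul_sum]
    exact Finset.sum_congr rfl fun i _ => Finset.sum_congr rfl fun j _ => by ring
  have hc : ∀ i j, ContinuousOn (fun x : E n => (e i * e j) * (nx i x * nx j x))
      {x | (0 : ℝ) < ‖x‖} := fun i j =>
    continuousOn_const.mul ((nx_cont le_rfl i).mul (nx_cont le_rfl j))
  simp only [e1]
  rw [sphI_sum' le_rfl hr _ fun i _ => continuousOn_finsetSum _ fun j _ => hc i j]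
  have e2 : ∀ i, sphI (fun x : E n => ∑ j, (e i * e j) * (nx i x * nx j x)) r =
      ∑ j, (e i * e j) * ((if i = j then 1 else 0) * Vale.Agent.P366.omega n / n) := by
    intro i
    rw [sphI_sum' le_rfl hr _ fun j _ => hc i j]
    refine Finset.sum_congr rfl fun j _ => ?_
    rw [sphI_const_mul]
    congr 1
    exact sphI_Nc_Nc hn i j hr
  simp only [e2]
  have e3 : ∀ i j : Fin n, (e i * e j) * ((if i = j then 1 else 0) * Vale.Agent.P366.omega n / n) =
      if i = j then e i ^ 2 * (Vale.Agent.P366.omega n / n) else 0 := by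
    intro i j
    split_ifs with hij
    · rw [hij]; ring
    · ring
  simp only [e3, Finset.sum_ite_eq, Finset.mem_univ, if_true, ← Finset.sum_mul, he, one_mul]

/-- normalised flux -/
def An (g K : Field n) (e : Fin n → ℝ) (a p : ℝ → ℝ) (ε r : ℝ) : ℝ :=
  √(p r) * sphI (nW g K e a p ε) r / Vale.Agent.P366.omega n

/-- average of `J(X)` -/
def Ja (g K : Field n) (e : Fin n → ℝ) (a p : ℝ → ℝ) (ε r : ℝ) : ℝ :=
  sphI (JX g K e a p ε) r / Vale.Agent.P366.omega n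

namespace Rd

variable {a p : ℝ → ℝ} {R : ℝ} {g K : Field n} (h : Rd a p R g) {x : E n} {e : Fin n → ℝ} {ε : ℝ}
include h

lemma scal_const (hn : 2 ≤ n) (hs : ∀ x i j, g x i j = g x j i)
    (hpd : ∀ x, R ≤ len x → (mat g x).PosDef) {x y : E n} (hx : R < len x)
    (hxy : len y = len x) : scal g y = scal g x := by
  rw [h.scal_rd hn hs hpd hx, h.scal_rd hn hs hpd (by rw [hxy]; exact hx), hxy]

lemma nW_eq (hx : R ≤ len x) (hs : ∀ i j, K x i j = K x j i) (htr : tr g K x = 0) (ε : ℝ) :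
    √(p (len x)) * nW g K e a p ε x = th e x * rad K x / p (len x) +
      ε * (Tnq e K x / (√(p (len x)) * √(a (len x)))) := by
  have ha := h.pa _ hx
  have hp := h.pp _ hx
  unfold nW
  rw [h.nx_WX hx hs htr]
  unfold fa fb
  obtain ⟨A, hA⟩ : ∃ A, A = √(a (len x)) := ⟨_, rfl⟩
  obtain ⟨P, hP⟩ : ∃ P, P = √(p (len x)) := ⟨_, rfl⟩
  have hA0 : 0 < A := by rw [hA]; exact Real.sqrt_pos.2 ha
  have hP0 : 0 < P := by rw [hP]; exact Real.sqrt_pos.2 hp
  have hP2 : p (len x) = P ^ 2 := by rw [hP, Real.sq_sqrt hp.le]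
  rw [← hA, ← hP, hP2]
  field_simp
  ring

/-- **averaged lower bound of the scalar curvature** -/
theorem scal_low (hn : 2 ≤ n) (hs : ∀ x i j, g x i j = g x j i)
    (hpd : ∀ x, R ≤ len x → (mat g x).PosDef) (hK : ∀ i j, Smooth (fun x => K x i j))
    (hKs : ∀ x, R ≤ len x → ∀ i j, K x i j = K x j i) (htr : ∀ x, R ≤ len x → tr g K x = 0)
    (hdec : ∀ x, R < len x → covNorm g (mom g K) x ≤ mu g K x) (he : ∑ i, e i ^ 2 = 1)
    (hε : ε ^ 2 = 1) {σ : ℝ} (hσ : |σ| ≤ 1) (hx : R < len x) :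
    (n / ((n : ℝ) - 1)) * (n * ((An g K e a p 1 (len x) + An g K e a p (-1) (len x)) / 2) ^ 2 +
      2 * ((An g K e a p 1 (len x) - An g K e a p (-1) (len x)) / 2) ^ 2) +
      2 * σ * Ja g K e a p ε (len x) ≤ scal g x := by
  have : Nonempty (Fin n) := ⟨⟨0, by omega⟩⟩
  have : Nontrivial (E n) := inferInstance
  have hwp : 0 < Vale.Agent.P366.omega n := Vale.Agent.P366.omega_pos'
  have hR := h.hR
  have hn0 : (0 : ℝ) < n := by exact_mod_cast (by omega : 0 < n)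
  have hn1 : (0 : ℝ) < (n : ℝ) - 1 := by
    have : (2 : ℝ) ≤ n := by exact_mod_cast hn
    linarith
  obtain ⟨r, hr⟩ : ∃ r, r = len x := ⟨_, rfl⟩
  rw [← hr] at hx ⊢
  have hr0 : 0 < r := hR.trans hx
  obtain ⟨I1, hI1⟩ : ∃ I, I = sphI (nW g K e a p 1) r := ⟨_, rfl⟩
  obtain ⟨I2, hI2⟩ : ∃ I, I = sphI (nW g K e a p (-1)) r := ⟨_, rfl⟩
  obtain ⟨I3, hI3⟩ : ∃ I, I = sphI (JX g K e a p ε) r := ⟨_, rfl⟩
  obtain ⟨P, hP⟩ : ∃ P, P = √(p r) := ⟨_, rfl⟩
  obtain ⟨w0, hwo⟩ : ∃ w0, w0 = Vale.Agent.P366.omega n := ⟨_, rfl⟩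
  unfold An Ja
  rw [← hI1, ← hI2, ← hI3, ← hP, ← hwo]
  rw [← hwo] at hwp
  obtain ⟨Xm, hXm⟩ : ∃ X, X = (P * I1 / w0 + P * I2 / w0) / 2 := ⟨_, rfl⟩
  obtain ⟨Zm, hZm⟩ : ∃ Z, Z = (P * I1 / w0 - P * I2 / w0) / 2 := ⟨_, rfl⟩
  rw [← hXm, ← hZm]
  obtain ⟨lam, hlam⟩ : ∃ l, l = n * Xm := ⟨_, rfl⟩
  obtain ⟨kap, hkap⟩ : ∃ k, k = n * Zm / ((n : ℝ) - 1) := ⟨_, rfl⟩
  obtain ⟨c1, hc1⟩ : ∃ c, c = P * (n / ((n : ℝ) - 1) * lam + 2 * kap) := ⟨_, rfl⟩
  obtain ⟨c2, hc2⟩ : ∃ c, c = P * (n / ((n : ℝ) - 1) * lam - 2 * kap) := ⟨_, rfl⟩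
  obtain ⟨c3, hc3⟩ : ∃ c, c = -(n / ((n : ℝ) - 1) * lam ^ 2) + 2 * kap ^ 2 := ⟨_, rfl⟩
  obtain ⟨c0, hc0⟩ : ∃ c, c = -2 * kap ^ 2 := ⟨_, rfl⟩
  have hpt : ∀ y : E n, ‖y‖ = r → (c1 * nW g K e a p 1 y + (c2 * nW g K e a p (-1) y +
      (c3 * th e y ^ 2 + (c0 + 2 * σ * JX g K e a p ε y)))) ≤ scal g x := by
    intro y hy
    have hyl : len y = r := hy
    have hyR : R < len y := by rw [hyl]; exact hx
    have h1 := h.normSq_low (K := K) hn hyR.le (hpd y hyR.le) (hKs y hyR.le) (htr y hyR.le) he lam kap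
    have h2 := h.JX_le (K := K) (e := e) (ε := ε) hyR.le he hε
    have h3 := hdec y hyR
    have h4 : mu g K y = (scal g x - normSq g K y) / 2 := by
      unfold mu
      rw [htr y hyR.le, h.scal_const hn hs hpd (x := x) (by rw [← hr]; exact hx) (by rw [hyl, hr])]
      ring
    have h5 : σ * JX g K e a p ε y ≤ covNorm g (mom g K) y := by
      calc σ * JX g K e a p ε y ≤ |σ * JX g K e a p ε y| := le_abs_self _
        _ = |σ| * |JX g K e a p ε y| := abs_mul _ _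
        _ ≤ 1 * covNorm g (mom g K) y :=
            mul_le_mul hσ h2 (abs_nonneg _) zero_le_one
        _ = _ := one_mul _
    have n1 := h.nW_eq (K := K) (e := e) hyR.le (hKs y hyR.le) (htr y hyR.le) 1
    have n2 := h.nW_eq (K := K) (e := e) hyR.le (hKs y hyR.le) (htr y hyR.le) (-1)
    rw [hyl, ← hP] at n1 n2
    rw [hyl, ← hP] at h1
    have e1 : c1 * nW g K e a p 1 y + (c2 * nW g K e a p (-1) y +
        (c3 * th e y ^ 2 + (c0 + 2 * σ * JX g K e a p ε y))) =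
        (n / ((n : ℝ) - 1)) * (2 * lam * (th e y * rad K y / p r) - lam ^ 2 * th e y ^ 2) +
      2 * (2 * kap * (Tnq e K y / (P * √(a r))) - kap ^ 2 * (1 - th e y ^ 2)) +
      2 * (σ * JX g K e a p ε y) := by
      have m1 : c1 * nW g K e a p 1 y = (n / ((n : ℝ) - 1) * lam + 2 * kap) *
          (P * nW g K e a p 1 y) := by rw [hc1]; ring
      have m2 : c2 * nW g K e a p (-1) y = (n / ((n : ℝ) - 1) * lam - 2 * kap) *
          (P * nW g K e a p (-1) y) := by rw [hc2]; ring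
      rw [m1, m2, n1, n2, hc3, hc0]
      ring
    rw [e1]
    linarith
  have cW : ∀ ε', ContinuousOn (nW g K e a p ε') {x | R < ‖x‖} := fun ε' y hy =>
    (h.cnW hK (le_of_lt hy)).continuousAt.continuousWithinAt
  have cJ : ContinuousOn (JX g K e a p ε) {x | R < ‖x‖} := fun y hy =>
    (h.cJX hK (le_of_lt hy)).continuousAt.continuousWithinAt
  have cT : ContinuousOn (fun y : E n => th e y ^ 2) {x | R < ‖x‖} := fun y hy =>
    ((contDiffAt_th e (h.ne0 (le_of_lt hy))).continuousAt.pow 2).continuousWithinAt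
  have c4 : ContinuousOn (fun y : E n => c0 + 2 * σ * JX g K e a p ε y)
      {x | R < ‖x‖} := continuousOn_const.add (continuousOn_const.mul cJ)
  have c5 : ContinuousOn (fun y : E n => c3 * th e y ^ 2 +
      (c0 + 2 * σ * JX g K e a p ε y)) {x | R < ‖x‖} :=
    (continuousOn_const.mul cT).add c4
  have c6 : ContinuousOn (fun y : E n => c2 * nW g K e a p (-1) y + (c3 * th e y ^ 2 +
      (c0 + 2 * σ * JX g K e a p ε y))) {x | R < ‖x‖} :=
    (continuousOn_const.mul (cW _)).add c5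
  have c7 : ContinuousOn (fun y : E n => c1 * nW g K e a p 1 y + (c2 * nW g K e a p (-1) y +
      (c3 * th e y ^ 2 + (c0 + 2 * σ * JX g K e a p ε y)))) {x | R < ‖x‖} :=
    (continuousOn_const.mul (cW _)).add c6
  have hI := sphI_mono' hR.le hx c7 (continuousOn_const (c := scal g x)) hpt
  have d1 : ContinuousOn (fun y : E n => c1 * nW g K e a p 1 y) {x | R < ‖x‖} :=
    continuousOn_const.mul (cW _)
  have d2 : ContinuousOn (fun y : E n => c2 * nW g K e a p (-1) y) {x | R < ‖x‖} :=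
    continuousOn_const.mul (cW _)
  have d3 : ContinuousOn (fun y : E n => c3 * th e y ^ 2) {x | R < ‖x‖} :=
    continuousOn_const.mul cT
  have d4 : ContinuousOn (fun _ : E n => c0) {x | R < ‖x‖} := continuousOn_const
  have d5 : ContinuousOn (fun y : E n => 2 * σ * JX g K e a p ε y) {x | R < ‖x‖} :=
    continuousOn_const.mul cJ
  rw [sphI_add hR.le hx d1 c6, sphI_add hR.le hx d2 c5, sphI_add hR.le hx d3 c4,
    sphI_add hR.le hx d4 d5,
    sphI_const_mul, sphI_const_mul, sphI_const_mul, sphI_const_mul, sphI_const, sphI_const,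
    sphI_th hn he hr0, ← hI1, ← hI2, ← hI3, ← hwo] at hI
  have e1 : c1 * I1 + c2 * I2 = w0 * (n / ((n : ℝ) - 1) * lam * (2 * Xm) + 2 * kap * (2 * Zm)) := by
    rw [hc1, hc2, hXm, hZm]
    field_simp
    ring
  have hmain : w0 * ((n / ((n : ℝ) - 1)) * (n * Xm ^ 2 + 2 * Zm ^ 2) + 2 * σ * (I3 / w0)) ≤
      w0 * scal g x := by
    refine le_trans (le_of_eq ?_) (hI.trans (le_of_eq (by ring)))
    have e2 : c1 * I1 + (c2 * I2 + (c3 * (w0 / n) + (c0 * w0 + 2 * σ * I3))) =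
        (c1 * I1 + c2 * I2) + (c3 * (w0 / n) + (c0 * w0 + 2 * σ * I3)) := by ring
    rw [e2, e1, hc3, hc0, hlam, hkap]
    field_simp
    ring
  exact le_of_mul_le_mul_left hmain hwp

end Rd

end Vale.Agent.H318
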