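import Vale.Agent.P366.T4.Cov919
import Vale.Agent.P366.T2.Inv591

/-! Covariance of the curvature and of the momentum density under orthogonal matrices. -/

open MeasureTheory Metric Filter Topology Set
open scoped ContDiff Matrix

noncomputable section
namespace Vale.Agent.H318
open Vale.Agent.P366.Stmt Vale.Agent.P366.T2 Vale.Agent.T4

variable {n : ℕ}

/-- `Bᵀ f` -/
def R (B : Matrix (Fin n) (Fin n) ℝ) (f : Fin n → ℝ) (i : Fin n) : ℝ := ∑ p, B p i * f p

section R
variable (B : Matrix (Fin n) (Fin n) ℝ)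

lemma R_add (f g : Fin n → ℝ) (i : Fin n) : R B (fun p => f p + g p) i = R B f i + R B g i := by
  simp only [R, mul_add, Finset.sum_add_distrib]

lemma R_sub (f g : Fin n → ℝ) (i : Fin n) : R B (fun p => f p - g p) i = R B f i - R B g i := by
  simp only [R, mul_sub, Finset.sum_sub_distrib]

lemma R_cmul (c : ℝ) (f : Fin n → ℝ) (i : Fin n) : R B (fun p => c * f p) i = c * R B f i := by
  simp only [R, Finset.mul_sum]
  exact Finset.sum_congr rfl fun p _ => by ring

lemma R_mulc (c : ℝ) (f : Fin n → ℝ) (i : Fin n) : R B (fun p => f p * c) i = R B f i * c := by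
  simp only [R, Finset.sum_mul]
  exact Finset.sum_congr rfl fun p _ => by ring

lemma R_divc (c : ℝ) (f : Fin n → ℝ) (i : Fin n) : R B (fun p => f p / c) i = R B f i / c := by
  simp only [div_eq_mul_inv, R_mulc]

lemma R_sum {ι : Type} (s : Finset ι) (f : ι → Fin n → ℝ) (i : Fin n) :
    R B (fun p => ∑ a ∈ s, f a p) i = ∑ a ∈ s, R B (f a) i := by
  simp only [R, Finset.mul_sum]
  exact Finset.sum_comm

lemma R_comm (f : Fin n → Fin n → ℝ) (i j : Fin n) :
    R B (fun p => R B (fun q => f p q) j) i = R B (fun q => R B (fun p => f p q) i) j := by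
  simp only [R, Finset.mul_sum]
  rw [Finset.sum_comm]
  exact Finset.sum_congr rfl fun p _ => Finset.sum_congr rfl fun q _ => by ring

end R

variable {B : Matrix (Fin n) (Fin n) ℝ}

lemma orth_rel (hB : Bᵀ * B = 1) (p q : Fin n) : ∑ i, B p i * B q i = if p = q then 1 else 0 := by
  have h0 : B * Bᵀ = 1 := mul_eq_one_comm.1 hB
  have h := congrFun (congrFun h0 p) q
  rw [Matrix.mul_apply, Matrix.one_apply] at h
  exact h

lemma R_tr (hB : Bᵀ * B = 1) (F : Fin n → Fin n → ℝ) :
    ∑ k, R B (fun p => R B (fun q => F p q) k) k = ∑ p, F p p := by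
  simp only [R, Finset.mul_sum]
  rw [Finset.sum_comm]
  refine Finset.sum_congr rfl fun p _ => ?_
  rw [Finset.sum_comm]
  have e : ∀ q, ∑ k, B p k * (B q k * F p q) = (if p = q then 1 else 0) * F p q := by
    intro q
    rw [← orth_rel hB p q, Finset.sum_mul]
    exact Finset.sum_congr rfl fun k _ => by ring
  simp only [e, ite_mul, one_mul, zero_mul, Finset.sum_ite_eq, Finset.mem_univ, if_true]

lemma R_dot (hB : Bᵀ * B = 1) (f h : Fin n → ℝ) : ∑ k, R B f k * R B h k = ∑ p, f p * h p := by
  rw [← R_tr hB (fun p q => f p * h q)]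
  refine Finset.sum_congr rfl fun k _ => ?_
  simp only [R_cmul, R_mulc]

/-- the pull-back of a 2-tensor by a matrix -/
def R2 (B : Matrix (Fin n) (Fin n) ℝ) (T : Fin n → Fin n → ℝ) (i j : Fin n) : ℝ :=
  R B (fun p => R B (T p) j) i

lemma R2_mat (M : Matrix (Fin n) (Fin n) ℝ) (i j : Fin n) : R2 B M i j = (Bᵀ * M * B) i j := by
  simp only [R2, R, Matrix.mul_apply, Matrix.transpose_apply, Finset.sum_mul, Finset.mul_sum]
  rw [Finset.sum_comm]
  exact Finset.sum_congr rfl fun p _ => Finset.sum_congr rfl fun q _ => by ring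

/-- the pull-back of a tensor field by a matrix -/
def pull (B : Matrix (Fin n) (Fin n) ℝ) (T : Field n) : Field n := fun x => R2 B (T (act B x))

lemma mat_pull (T : Field n) (x : E n) : mat (pull B T) x = Bᵀ * mat T (act B x) * B := by
  ext i j
  exact R2_mat _ i j

lemma up_pull (hB : Bᵀ * B = 1) (g : Field n) (i j : Fin n) (x : E n) :
    up (pull B g) i j x = R2 B (fun p q => up g p q (act B x)) i j := by
  have h1 : B⁻¹ = Bᵀ := Matrix.inv_eq_left_inv hB
  have h2 : (Bᵀ)⁻¹ = B := Matrix.inv_eq_left_inv (mul_eq_one_comm.1 hB)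
  show (mat (pull B g) x)⁻¹ i j = _
  rw [mat_pull, Matrix.mul_inv_rev, Matrix.mul_inv_rev, h1, h2, ← Matrix.mul_assoc, ← R2_mat]
  rfl

lemma act_apply (B : Matrix (Fin n) (Fin n) ℝ) (x : E n) (k : Fin n) :
    act B x k = ∑ j, B k j * x j := rfl

lemma HP_actc (k i : Fin n) (x : E n) : HP i (fun y => act B y k) (B k i) x := by
  have h := HP.sum (k := i) (x := x) Finset.univ (f := fun j y => B k j * y j)
    (d := fun j => B k j * (if j = i then 1 else 0)) (fun j _ => (HP.coord i j x).const_mul _)
  have e : ∑ j, B k j * (if j = i then (1 : ℝ) else 0) = B k i := by simp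
  rw [e] at h
  exact h

lemma smooth_act (B : Matrix (Fin n) (Fin n) ℝ) : ContDiff ℝ ∞ (act B) := by
  rw [contDiff_euclidean]
  intro k
  simp only [act_apply]
  fun_prop

lemma HP_act {f : E n → ℝ} {x : E n} (hf : DifferentiableAt ℝ f (act B x)) (k : Fin n) :
    HP k (fun y => f (act B y)) (R B (fun l => pd l f (act B x)) k) x := by
  have hd : ∀ l, DifferentiableAt ℝ (fun y => act B y l) x := fun l => by
    have := (smooth_act B).differentiable (by simp) x
    rw [differentiableAt_piLp] at this
    exact this l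
  have h := C919.HP_comp (χ := act B) hf hd k
  refine (congrArg (fun d => HP k (fun y => f (act B y)) d x) ?_).mp h
  simp only [R, (HP_actc _ _ _).pd]
  exact Finset.sum_congr rfl fun l _ => by ring

lemma HP_R {f : Fin n → E n → ℝ} {d : Fin n → ℝ} {k i : Fin n} {x : E n}
    (h : ∀ p, HP k (f p) (d p) x) : HP k (fun y => R B (fun p => f p y) i) (R B d i) x := by
  unfold R
  exact HP.sum Finset.univ fun p _ => (h p).const_mul _

/-- derivative of a pulled back component -/
lemma HP_pull {T : Field n} {x : E n} (hT : ∀ p q, DifferentiableAt ℝ (fun y => T y p q) (act B x))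
    (k i j : Fin n) : HP k (fun y => pull B T y i j)
      (R B (fun p => R B (fun q => R B (fun l => pd l (fun y => T y p q) (act B x)) k) j) i) x :=
  HP_R fun p => HP_R fun q => HP_act (hT p q) k

/-- a 3-tensor -/
def R3 (B : Matrix (Fin n) (Fin n) ℝ) (T : Fin n → Fin n → Fin n → ℝ) (i j k : Fin n) : ℝ :=
  R B (fun p => R B (fun q => R B (fun r => T p q r) k) j) i

lemma pd_pull {T : Field n} {x : E n} (hT : ∀ p q, DifferentiableAt ℝ (fun y => T y p q) (act B x))
    (k i j : Fin n) : pd k (fun y => pull B T y i j) x =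
      R3 B (fun p q l => pd l (fun y => T y p q) (act B x)) i j k := (HP_pull hT k i j).pd

end Vale.Agent.H318
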