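import Vale.Agent.P366.R2.H318.Nat1
import Vale.Agent.P366.T4.A4c
import Vale.Agent.P366.Bdl.B1

/-! Covariance of the Christoffel symbols, the momentum density and the scalar curvature. -/

open MeasureTheory Metric Filter Topology Set
open scoped ContDiff Matrix

noncomputable section
namespace Vale.Agent.H318
open Vale.Agent.P366.Stmt Vale.Agent.P366.T2 Vale.Agent.T4

variable {n : ℕ} {B : Matrix (Fin n) (Fin n) ℝ}

lemma R_congr {f g : Fin n → ℝ} (h : ∀ p, f p = g p) (i : Fin n) : R B f i = R B g i := by
  rw [funext h]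

/-- contraction of a 2-tensor with a vector -/
lemma ctr1 (hB : Bᵀ * B = 1) (U : Fin n → Fin n → ℝ) (S : Fin n → ℝ) (k : Fin n) :
    ∑ l, R2 B U k l * R B S l = R B (fun p => ∑ l, U p l * S l) k := by
  rw [R_congr (fun p => (R_dot hB (U p) S).symm) k, R_sum]
  refine Finset.sum_congr rfl fun l _ => ?_
  rw [R_mulc]
  rfl

lemma contDiffAt_up {g : Field n} (hg : ∀ i j, Smooth (fun x => g x i j)) {x : E n}
    (hd : (mat g x).det ≠ 0) (i j : Fin n) : ContDiffAt ℝ ∞ (up g i j) x :=
  Vale.Agent.P366.Bridge.contDiffAt_inv_entry (A := mat g) (fun i j => (hg i j).contDiffAt) hd i j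

lemma contDiffAt_chr {g : Field n} (hg : ∀ i j, Smooth (fun x => g x i j)) {x : E n}
    (hd : (mat g x).det ≠ 0) (k i j : Fin n) : ContDiffAt ℝ ∞ (chr g k i j) x := by
  unfold chr
  exact ContDiffAt.div_const (ContDiffAt.sum fun l _ => (contDiffAt_up hg hd k l).mul
    (((contDiffAt_pd (hg j l).contDiffAt i).add (contDiffAt_pd (hg i l).contDiffAt j)).sub
      (contDiffAt_pd (hg i j).contDiffAt l))) _

lemma chr_pull (hB : Bᵀ * B = 1) {g : Field n} (hg : ∀ i j, Smooth (fun x => g x i j))
    (k i j : Fin n) (x : E n) :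
    chr (pull B g) k i j x = R3 B (fun p q r => chr g p q r (act B x)) k i j := by
  have hT : ∀ p q, DifferentiableAt ℝ (fun y => g y p q) (act B x) := fun p q =>
    (hg p q).differentiable (by norm_num) _
  set D : Fin n → Fin n → Fin n → ℝ := fun p q l => pd l (fun y => g y p q) (act B x) with hD
  set U : Fin n → Fin n → ℝ := fun p q => up g p q (act B x) with hU
  have e1 : ∀ a b c : Fin n, R3 B D a b c = R B (fun q => R B (fun p => R B (fun r => D p q r) c) a) b :=
    fun a b c => R_comm B _ _ _
  -- the three derivatives with the summation index first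
  have d1 : ∀ l, R3 B D j l i = R B (fun l' => R B (fun q => R B (fun r => D r l' q) j) i) l := by
    intro l
    rw [e1]
    exact R_congr (fun l' => R_comm B _ _ _) l
  have d2 : ∀ l, R3 B D i l j = R B (fun l' => R B (fun q => R B (fun r => D q l' r) j) i) l := by
    intro l
    rw [e1]
  have d3 : ∀ l, R3 B D i j l = R B (fun l' => R B (fun q => R B (fun r => D q r l') j) i) l := by
    intro l
    have h1 : R3 B D i j l = R B (fun p => R B (fun l' => R B (fun q => D p q l') j) l) i :=
      R_congr (fun p => R_comm B _ _ _) i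
    rw [h1]
    exact R_comm B _ _ _
  have hsum : ∀ l, pd i (fun y => pull B g y j l) x + pd j (fun y => pull B g y i l) x -
      pd l (fun y => pull B g y i j) x =
      R B (fun l' => R B (fun q => R B (fun r => D r l' q + D q l' r - D q r l') j) i) l := by
    intro l
    rw [pd_pull hT, pd_pull hT, pd_pull hT, d1, d2, d3]
    simp only [R_add, R_sub]
  unfold chr
  simp only [hsum, up_pull hB]
  rw [ctr1 hB U]
  unfold R3
  rw [← R_divc]
  refine R_congr (fun p => ?_) k
  show _ = R B (fun q => R B (fun r => (∑ l, U p l * (D r l q + D q l r - D q r l)) / 2) j) i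
  simp only [R_divc, R_sum, R_cmul]

end Vale.Agent.H318
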