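import Vale.Agent.P366.R2.H318.Flx
import Vale.Agent.P366.R2.H318.Nat2

/-! The differential equation of the fluxes. -/

open MeasureTheory Metric Filter Topology Set
open scoped ContDiff Matrix

noncomputable section
namespace Vale.Agent.H318
open Vale.Agent.P366.Stmt Vale.Agent.P366.T2 Vale.Agent.T4 Vale.Agent.Mom68
open Vale.Agent.P366 (sphI sphM flux dvg flux_hasDerivAt isOpen_outside sphI_congr)

variable {n : ℕ}

/-- tangential coefficient of the frame -/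
def fa (a : ℝ → ℝ) (ε : ℝ) (r : ℝ) : ℝ := ε / √(a r)

/-- radial coefficient of the frame -/
def fb (p : ℝ → ℝ) (r : ℝ) : ℝ := 1 / √(p r)

lemma hd_inv_sqrt {f : ℝ → ℝ} (hf : ContDiff ℝ ∞ f) {r : ℝ} (h0 : 0 < f r) (c : ℝ) :
    HasDerivAt (fun s => c / √(f s)) (-(c * deriv f r / (2 * f r * √(f r)))) r := by
  have hs : √(f r) ≠ 0 := (Real.sqrt_pos.2 h0).ne'
  have h1 := (hasDerivAt_const r c).div ((hd1 hf r).sqrt h0.ne') hs
  refine h1.congr_deriv ?_
  have h2 : √(f r) ^ 2 = f r := Real.sq_sqrt h0.le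
  rw [h2]
  field_simp
  ring

/-- the coefficient in the differential equation -/
def cf (a p : ℝ → ℝ) (ε r : ℝ) : ℝ := ε * √(p r) / (r * √(a r)) - (1 / r + deriv a r / (2 * a r))

/-- volume density -/
def Dn (n : ℕ) (a p : ℝ → ℝ) (r : ℝ) : ℝ := √(a r) ^ (n - 1) * √(p r)

/-- radial component of `W` -/
def nW (g K : Field n) (e : Fin n → ℝ) (a p : ℝ → ℝ) (ε : ℝ) (x : E n) : ℝ :=
  ∑ k, nx k x * WX g K (Xv e (fa a ε) (fb p)) k x

/-- `J(X)` -/
def JX (g K : Field n) (e : Fin n → ℝ) (a p : ℝ → ℝ) (ε : ℝ) (x : E n) : ℝ :=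
  ∑ j, Xv e (fa a ε) (fb p) j x * mom g K j x

/-- the flux -/
def Fl (g K : Field n) (e : Fin n → ℝ) (a p : ℝ → ℝ) (ε : ℝ) (r : ℝ) : ℝ :=
  r ^ (n - 1) * Dn n a p r * sphI (nW g K e a p ε) r

namespace Rd

variable {a p : ℝ → ℝ} {R : ℝ} {g K : Field n} (h : Rd a p R g) {x : E n} {e : Fin n → ℝ} {ε : ℝ}
include h

lemma half_lie (hx : R < len x) (hs : ∀ i j, K x i j = K x j i) (htr : tr g K x = 0)
    (hε : ε ^ 2 = 1) : (1 / 2) * ∑ k, ∑ m, Pu g K k m x * Lie g (Xv e (fa a ε) (fb p)) k m x =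
      cf a p ε (len x) * nW g K e a p ε x := by
  have hr := (h.lpos hx.le).ne'
  have ha := h.pa _ hx.le
  have hp := h.pp _ hx.le
  have hsa : 0 < √(a (len x)) := Real.sqrt_pos.2 ha
  have hsp : 0 < √(p (len x)) := Real.sqrt_pos.2 hp
  have hda : HasDerivAt (fa a ε) _ (len x) := hd_inv_sqrt h.sa ha ε
  have hdb : HasDerivAt (fb p) _ (len x) := hd_inv_sqrt h.sp hp 1
  have e1 : ∀ k m, Pu g K k m x * Lie g (Xv e (fa a ε) (fb p)) k m x =
      Pu g K k m x * (((fb p (len x) * deriv p (len x) + 2 * p (len x) *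
        (-(1 * deriv p (len x) / (2 * p (len x) * √(p (len x)))))) * th e x) *
          (nx k x * nx m x) +
      (a (len x) * (-(ε * deriv a (len x) / (2 * a (len x) * √(a (len x))))) -
        a (len x) * fa a ε (len x) / len x + p (len x) * fb p (len x) / len x) *
        (nx k x * qv e m x + qv e k x * nx m x) +
      ((fb p (len x) * deriv a (len x) +
        2 * a (len x) * (fb p (len x) - fa a ε (len x)) / len x) * th e x) * Pj k m x) := by
    intro k m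
    rw [h.lie_eq hx hda hdb k m]
  simp only [e1]
  rw [h.Pu_lie hx.le hs htr]
  unfold nW
  rw [h.nx_WX hx.le hs htr]
  unfold cf fa fb
  obtain ⟨A, hA⟩ : ∃ A, A = √(a (len x)) := ⟨_, rfl⟩
  obtain ⟨P, hP⟩ : ∃ P, P = √(p (len x)) := ⟨_, rfl⟩
  have hA2 : a (len x) = A ^ 2 := by rw [hA, Real.sq_sqrt ha.le]
  have hP2 : p (len x) = P ^ 2 := by rw [hP, Real.sq_sqrt hp.le]
  rw [← hA, ← hP, hA2, hP2]
  rw [← hA] at hsa
  rw [← hP] at hsp
  have hA0 := hsa.ne'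
  have hP0 := hsp.ne'
  field_simp
  have h3 : ε ^ 2 = 1 := hε
  ring_nf
  linear_combination (-2 * A * P ^ 4 * Tnq e K x) * h3

lemma Dn_hd (hn : 1 ≤ n) {r : ℝ} (hr : R ≤ r) : HasDerivAt (Dn n a p)
    (Dn n a p r * (((n : ℝ) - 1) * deriv a r / (2 * a r) + deriv p r / (2 * p r))) r := by
  have ha := h.pa r hr
  have hp := h.pp r hr
  have hsa : √(a r) ≠ 0 := (Real.sqrt_pos.2 ha).ne'
  have hsp : √(p r) ≠ 0 := (Real.sqrt_pos.2 hp).ne'
  have h1 := (((hd1 h.sa r).sqrt ha.ne').pow (n - 1)).mul ((hd1 h.sp r).sqrt hp.ne')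
  refine h1.congr_deriv ?_
  unfold Dn
  rcases Nat.exists_eq_add_of_le' hn with ⟨k, rfl⟩
  rcases k with _ | k
  · simp
    field_simp
    rw [Real.sq_sqrt hp.le]
  · have ha2 : a r = √(a r) ^ 2 := (Real.sq_sqrt ha.le).symm
    have hp2 : p r = √(p r) ^ 2 := (Real.sq_sqrt hp.le).symm
    obtain ⟨A, hA⟩ : ∃ A, A = √(a r) := ⟨_, rfl⟩
    obtain ⟨P, hP⟩ : ∃ P, P = √(p r) := ⟨_, rfl⟩
    rw [← hA] at hsa ha2 ⊢
    rw [← hP] at hsp hp2 ⊢
    rw [ha2, hp2]
    simp only [Pi.pow_apply, Nat.add_sub_cancel]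
    push_cast
    rw [← hA]
    field_simp
    ring

end Rd

end Vale.Agent.H318
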