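import Mathlib

/-! Smoothness of parametric integrals over a compact space. -/

open MeasureTheory Set Filter Function
open scoped Topology ContDiff

noncomputable section
namespace Vale.Agent.H318

section
variable {H : Type} [TopologicalSpace H] [CompactSpace H] [MeasurableSpace H] [BorelSpace H]
  [SecondCountableTopology H] (μ : Measure H) [IsFiniteMeasure μ]
  {V : Type} [NormedAddCommGroup V] [NormedSpace ℝ V] [FiniteDimensional ℝ V]

lemma integrable_of_cont {F : Type} [NormedAddCommGroup F] {f : H → F} (hf : Continuous f) :
    Integrable f μ :=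
  hf.integrable_of_hasCompactSupport (HasCompactSupport.of_compactSpace f)

/-- the derivative of a parametric integral -/
lemma hasFDerivAt_param {F : Type} [NormedAddCommGroup F] [NormedSpace ℝ F]
    {f : V → H → F} {f' : V → H → V →L[ℝ] F} (hf : Continuous (uncurry f))
    (hf' : Continuous (uncurry f')) (hd : ∀ x a, HasFDerivAt (fun y => f y a) (f' x a) x) (x : V) :
    HasFDerivAt (fun y => ∫ a, f y a ∂μ) (∫ a, f' x a ∂μ) x := by
  haveI : ProperSpace V := FiniteDimensional.proper_real V
  have hK : IsCompact (Metric.closedBall x 1 ×ˢ (univ : Set H)) :=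
    (isCompact_closedBall x 1).prod isCompact_univ
  obtain ⟨C, hC⟩ := hK.exists_bound_of_continuousOn hf'.continuousOn
  refine hasFDerivAt_integral_of_dominated_of_fderiv_le (μ := μ) (s := Metric.closedBall x 1)
    (bound := fun _ => C) (Metric.closedBall_mem_nhds x one_pos) ?_ ?_ ?_ ?_ ?_ ?_
  · exact Eventually.of_forall fun y =>
      (integrable_of_cont μ (hf.comp (Continuous.prodMk_right y))).aestronglyMeasurable
  · exact integrable_of_cont μ (hf.comp (Continuous.prodMk_right x))
  · exact (integrable_of_cont μ (hf'.comp (Continuous.prodMk_right x))).aestronglyMeasurable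
  · exact Eventually.of_forall fun a y hy => hC (y, a) ⟨hy, mem_univ a⟩
  · exact integrable_const C
  · exact Eventually.of_forall fun a y _ => hd y a

lemma continuous_param {F : Type} [NormedAddCommGroup F] [NormedSpace ℝ F]
    {f : V → H → F} (hf : Continuous (uncurry f)) : Continuous fun y => ∫ a, f y a ∂μ := by
  haveI : ProperSpace V := FiniteDimensional.proper_real V
  have h := continuous_parametric_integral_of_continuous (μ := μ) (f := f) hf isCompact_univ
  simpa using h

/-- The integral of `c(a) (f (L(a) x))` is smooth in `x`. -/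
theorem contDiff_param {H : Type} [TopologicalSpace H] [CompactSpace H] [MeasurableSpace H]
    [BorelSpace H] [SecondCountableTopology H] (μ : Measure H) [IsFiniteMeasure μ]
    {V W : Type} [NormedAddCommGroup V] [NormedSpace ℝ V] [FiniteDimensional ℝ V]
    [NormedAddCommGroup W] [NormedSpace ℝ W] {L : H → V →L[ℝ] W} (hL : Continuous L) :
    ∀ (k : ℕ) {F G : Type} [NormedAddCommGroup F] [NormedSpace ℝ F] [NormedAddCommGroup G]
      [NormedSpace ℝ G] {c : H → F →L[ℝ] G} {f : W → F}, Continuous c → ContDiff ℝ ∞ f →
      ContDiff ℝ k fun x => ∫ a, c a (f (L a x)) ∂μ := by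
  intro k
  induction k with
  | zero =>
    intro F G _ _ _ _ c f hc hf
    rw [Nat.cast_zero, contDiff_zero]
    refine continuous_param μ (f := fun x a => c a (f (L a x))) ?_
    have h1 : Continuous fun p : V × H => L p.2 p.1 :=
      (hL.comp continuous_snd).clm_apply continuous_fst
    exact (hc.comp continuous_snd).clm_apply (hf.continuous.comp h1)
  | succ k ih =>
    intro F G _ _ _ _ c f hc hf
    have h1 : Continuous fun p : V × H => L p.2 p.1 :=
      (hL.comp continuous_snd).clm_apply continuous_fst
    have hf' : ContDiff ℝ ∞ (fderiv ℝ f) := hf.fderiv_right (by norm_cast)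
    -- the derivative
    let c' : H → (W →L[ℝ] F) →L[ℝ] (V →L[ℝ] G) := fun a =>
      (ContinuousLinearMap.compL ℝ V F G (c a)) ∘L
        ((ContinuousLinearMap.compL ℝ V W F).flip (L a))
    have hc' : Continuous c' := by
      have e1 : Continuous fun a => ContinuousLinearMap.compL ℝ V F G (c a) :=
        (ContinuousLinearMap.compL ℝ V F G).continuous.comp hc
      have e2 : Continuous fun a => (ContinuousLinearMap.compL ℝ V W F).flip (L a) :=
        ((ContinuousLinearMap.compL ℝ V W F).flip).continuous.comp hL
      exact e1.clm_comp e2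
    have hd : ∀ x a, HasFDerivAt (fun y => c a (f (L a y))) (c' a (fderiv ℝ f (L a x))) x := by
      intro x a
      have e1 : HasFDerivAt f (fderiv ℝ f (L a x)) (L a x) :=
        (hf.differentiable (by simp) _).hasFDerivAt
      exact (c a).hasFDerivAt.comp x (e1.comp x (L a).hasFDerivAt)
    have key := fun x => hasFDerivAt_param μ (f := fun x a => c a (f (L a x)))
      (f' := fun x a => c' a (fderiv ℝ f (L a x)))
      ((hc.comp continuous_snd).clm_apply (hf.continuous.comp h1))
      ((hc'.comp continuous_snd).clm_apply (hf'.continuous.comp h1)) hd x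
    rw [show ((k + 1 : ℕ) : WithTop ℕ∞) = (k : WithTop ℕ∞) + 1 by norm_cast]
    rw [contDiff_succ_iff_hasFDerivAt]
    · exact ⟨_, ih hc' hf', key⟩
end

end Vale.Agent.H318
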