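import Vale.Agent.P366.R2.H318.Sym
import Vale.Agent.P366.R2.H318.Cont

/-! The inequality for data with a symmetric metric. -/

open MeasureTheory Metric Filter Topology Set
open scoped ContDiff ENNReal Matrix

noncomputable section
namespace Vale.Agent.H318
open Vale.Agent.P366.Stmt Vale.Agent.P366.T2 Vale.Agent.T4

variable {n : ℕ} {H : Type} [TopologicalSpace H] [CompactSpace H] [MeasurableSpace H]
  [BorelSpace H] [SecondCountableTopology H] {μ : Measure H} [IsProbabilityMeasure μ]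
  {b : H → Matrix (Fin n) (Fin n) ℝ} {Γ : Matrix (Fin n) (Fin n) ℝ → Prop}

/-- the mean curvature of the centred spheres -/
def hh (g : Field n) (x : E n) : ℝ :=
  trS g (hess g len) len x / covNorm g (fun j => pd j len) x

lemma theta_hh (g K : Field n) (x : E n) : thetaPlus g K len x = hh g x + trS g K len x := rfl

lemma trS_zero (g : Field n) (x : E n) : trS g (fun _ _ _ => 0) len x = 0 := by
  unfold trS tr
  simp

lemma hh_st {R₀ : ℝ} {g : Field n} {B : Matrix (Fin n) (Fin n) ℝ} (hB : B ∈ Stab R₀ g) {x : E n}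
    (hx : R₀ ≤ len x) (hR : 0 < R₀) (hg : ∀ i j, Smooth (fun x => g x i j)) :
    hh g (act B x) = hh g x := by
  have h1 := theta_st hB hx hR hg (fun _ _ _ => 0)
  have h2 : pull B (fun _ _ _ => 0 : Field n) = fun _ _ _ => 0 := by
    funext x i j
    unfold pull R2 R
    simp
  rw [h2, theta_hh, theta_hh, trS_zero, trS_zero, add_zero, add_zero] at h1
  exact h1.symm

lemma sphInt_one_pos (hn : 2 ≤ n) {R : ℝ} (hR : 0 < R) :
    0 < sphInt R (fun _ : E n => (1 : ℝ)) := by
  have hω : 0 < omega n := by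
    have : Nonempty (Fin n) := ⟨⟨0, by omega⟩⟩
    have : Nontrivial (E n) := inferInstance
    rw [Vale.Agent.P366.omega_eq]
    exact Vale.Agent.P366.omega_pos'
  have h1 : sphInt R (fun _ : E n => (1 : ℝ)) = R ^ (n - 1) * omega n := by
    unfold omega sphInt sph
    simp
  rw [h1]
  positivity

namespace Good

variable (G : Good Γ μ b)
include G

/-- the null expansion of the averaged data -/
lemma theta_avg (hn : 3 ≤ n) {g K : Field n} {R : ℝ} (hM : MovesBase Γ)
    (hΓ : ∀ A, Γ A → Aᵀ * A = 1) (hg : ∀ i j, Smooth (fun x => g x i j))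
    (hK : ∀ i j, Smooth (fun x => K x i j)) (hi : InvUnder Γ R g)
    (hpd : ∀ x, R ≤ len x → (mat g x).PosDef) (hR : 0 < R) {r : ℝ} (hr : R ≤ r) {x x₀ : E n}
    (hx : len x = r) (hx₀ : len x₀ = r) :
    thetaPlus g (avg μ b K) len x =
      thetaPlus g K len x₀ + (mean r (trS g K len) - trS g K len x₀) := by
  unfold mean
  have hr0 : 0 < r := hR.trans_le hr
  have hxR : R ≤ len x := by rw [hx]; exact hr
  have hx₀R : R ≤ len x₀ := by rw [hx₀]; exact hr
  have hst : ∀ h, b h ∈ Stab R g := G.stab hg hΓ hi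
  have h1 := G.Av_theta' hΓ hg hK hi hpd hR hxR
  have hconst : ∀ y : E n, R ≤ len y → Mn μ b (hh g) y = hh g y := by
    intro y hy
    unfold Mn
    simp only [hh_st (hst _) hy hR hg]
    rw [integral_const]
    simp
  have e0 : hh g x = hh g x₀ := by
    rw [← hconst x hxR, ← hconst x₀ hx₀R]
    exact G.Mn_len hM _ (hx.trans hx₀.symm)
  have h2 : Av μ (fun h => trS g K len (act (b h) x)) (thetaPlus g (avg μ b K) len x - hh g x) := by
    have h3 := h1.sub (Av.const (μ := μ) (hh g x))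
    have e : (fun h => trS g K len (act (b h) x)) =
        fun h => thetaPlus g K len (act (b h) x) - hh g x := by
      funext h
      rw [theta_hh, hh_st (hst h) hxR hR hg]
      ring
    rw [e]
    exact h3
  have hc : ContinuousOn (trS g K len) {y : E n | len y = r} := by
    intro y hy
    have hyR : R ≤ len y := by rw [show len y = r from hy]; exact hr
    exact (contDiffAt_trS hg hK (ne_zero_of_len hR hyR) (hpd y hyR)).continuousAt.continuousWithinAt
  have h4 := G.sphInt_Mn hM hr0.le hc hx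
  have h5 : Mn μ b (trS g K len) x = thetaPlus g (avg μ b K) len x - hh g x := h2.eq.symm
  have hp := sphInt_one_pos (n := n) (by omega) hr0
  rw [h5] at h4
  rw [h4, theta_hh g K x₀, ← e0]
  field_simp
  ring

end Good

/-- **The inequality for a symmetric metric** -/
theorem part1 (hn : 3 ≤ n) {X : Exterior n} (hAF : X.IsAF) (hDEC : X.DEC) (hT : X.Trapped) {m : ℝ}
    (hm : X.IsEnergy m) {R : ℝ} (hR : IsGreatest {r | ∃ x, X.F x = 0 ∧ len x = r} R)
    (hΓ : TransGroup n Γ) (hg : InvUnder Γ R X.g) (G : Good Γ μ b) (ht : Touch X R)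
    (hV : ∀ x, R ≤ len x → Mn μ b (sig X.g X.K) x ≤ sig X.g (avg μ b X.K) x) :
    X.Amin ≠ ⊤ ∧ 0 < m ∧ (X.Amin.toReal / omega n) ^ (((n : ℝ) - 2) / (n - 1)) / 2 ≤ m := by
  have hout := Vale.Agent.C92.outside_nonneg (by omega) X hR
  have hR0 : 0 < R :=
    (Vale.Agent.P366.Bridge.toRaw X).R1_pos (by omega) (Vale.Agent.P366.Bridge.raw_R1 X hR)
  have hgs : ∀ i j, Smooth (fun x => X.g x i j) := fun i j => (X.smooth i j).1
  have hKs : ∀ i j, Smooth (fun x => X.K x i j) := fun i j => (X.smooth i j).2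
  have hpd : ∀ x, R ≤ len x → (mat X.g x).PosDef := fun x hx => X.pos x (hout x hx)
  obtain ⟨x₀, hx0, hx0R, hle⟩ := ht
  have hθ : ∀ x : E n, len x = R → thetaPlus X.g (avg μ b X.K) len x ≤ 0 := by
    intro x hx
    rw [G.theta_avg hn (hΓ.moves hn) hΓ.orth hgs hKs hg hpd hR0 le_rfl hx hx0R]
    have h1 := Vale.Agent.C92.theta_compare (g := X.g) (K := X.K) X.dom.1 hR0 hx0R
      (hpd x₀ hx0R.ge) (X.dom.2.1 x₀ hx0) (fun y hy => by rw [hx0]; exact hout y hy)
    have h2 := h1.trans (hT x₀ hx0)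
    linarith
  obtain ⟨h1, h2, h3, -⟩ := sym_cohom hn hAF hDEC hm hR hΓ hg G hV le_rfl hθ
  exact ⟨h1, h2, h3⟩

end Vale.Agent.H318
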