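import Vale.Agent.P366.R2.H318.Reg
import Vale.Agent.P366.R2.H318.Mass
import Vale.Agent.P366.R2.H318.AvNorm

/-! The pointwise inequality for the norm of `K`. -/

open MeasureTheory Metric Filter Topology Set
open scoped ContDiff Matrix

noncomputable section
namespace Vale.Agent.H318
open Vale.Agent.P366.Stmt Vale.Agent.P366.T2 Vale.Agent.T4 Vale.Agent.Mom68

variable {n : ℕ}

/-- the pairing of two tensors -/
def pr (g K L : Field n) (x : E n) : ℝ :=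
  ∑ i, ∑ j, ∑ k, ∑ l, up g i k x * up g j l x * K x i j * L x k l

lemma pr_comm {g K L : Field n} {x : E n} (hu : ∀ i j, up g i j x = up g j i x) :
    pr g K L x = pr g L K x := by
  unfold pr
  have sw : ∀ F : Fin n → Fin n → Fin n → Fin n → ℝ,
      ∑ i, ∑ j, ∑ k, ∑ l, F i j k l = ∑ k, ∑ l, ∑ i, ∑ j, F i j k l := by
    intro F
    calc ∑ i, ∑ j, ∑ k, ∑ l, F i j k l = ∑ i, ∑ k, ∑ j, ∑ l, F i j k l :=
          Finset.sum_congr rfl fun i _ => Finset.sum_comm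
      _ = ∑ k, ∑ i, ∑ j, ∑ l, F i j k l := Finset.sum_comm
      _ = ∑ k, ∑ i, ∑ l, ∑ j, F i j k l :=
          Finset.sum_congr rfl fun k _ => Finset.sum_congr rfl fun i _ => Finset.sum_comm
      _ = ∑ k, ∑ l, ∑ i, ∑ j, F i j k l := Finset.sum_congr rfl fun k _ => Finset.sum_comm
  rw [sw]
  refine Finset.sum_congr rfl fun i _ => Finset.sum_congr rfl fun j _ =>
    Finset.sum_congr rfl fun k _ => Finset.sum_congr rfl fun l _ => ?_
  rw [hu k i, hu l j]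
  ring

/-- polarisation -/
lemma normSq_polar {g K : Field n} {x : E n} (hpd : (mat g x).PosDef)
    (hu : ∀ i j, up g i j x = up g j i x) (L : Field n) :
    2 * pr g K L x - pr g L L x ≤ normSq g K x := by
  have h1 := normSq_nonneg' hpd (fun x i j => K x i j - L x i j)
  have h2 : normSq g (fun x i j => K x i j - L x i j) x =
      normSq g K x - pr g K L x - pr g L K x + pr g L L x := by
    unfold normSq pr
    simp only [← Finset.sum_sub_distrib, ← Finset.sum_add_distrib]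
    refine Finset.sum_congr rfl fun i _ => Finset.sum_congr rfl fun j _ =>
      Finset.sum_congr rfl fun k _ => Finset.sum_congr rfl fun l _ => ?_
    ring
  rw [h2, pr_comm (K := L) hu] at h1
  linarith

lemma pr_Pu {g K L : Field n} {x : E n} (hu : ∀ i j, up g i j x = up g j i x)
    (htr : tr g K x = 0) : pr g K L x = ∑ k, ∑ m, Pu g K k m x * L x k m := by
  have hm : ∀ i l, momT g K x i l = K x i l := fun i l => by
    unfold momT
    rw [htr]; ring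
  unfold pr Pu
  have sw : ∀ F : Fin n → Fin n → Fin n → Fin n → ℝ,
      ∑ i, ∑ j, ∑ k, ∑ l, F i j k l = ∑ k, ∑ l, ∑ i, ∑ j, F i j k l := by
    intro F
    calc ∑ i, ∑ j, ∑ k, ∑ l, F i j k l = ∑ i, ∑ k, ∑ j, ∑ l, F i j k l :=
          Finset.sum_congr rfl fun i _ => Finset.sum_comm
      _ = ∑ k, ∑ i, ∑ j, ∑ l, F i j k l := Finset.sum_comm
      _ = ∑ k, ∑ i, ∑ l, ∑ j, F i j k l :=
          Finset.sum_congr rfl fun k _ => Finset.sum_congr rfl fun i _ => Finset.sum_comm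
      _ = ∑ k, ∑ l, ∑ i, ∑ j, F i j k l := Finset.sum_congr rfl fun k _ => Finset.sum_comm
  rw [sw]
  refine Finset.sum_congr rfl fun k _ => Finset.sum_congr rfl fun m _ => ?_
  rw [Finset.sum_mul]
  refine Finset.sum_congr rfl fun i _ => ?_
  rw [Finset.mul_sum, Finset.sum_mul]
  refine Finset.sum_congr rfl fun j _ => ?_
  rw [hm, hu i k]
  ring

/-- the comparison tensor -/
def Lf (e : Fin n → ℝ) (c1 c2 c3 : ℝ) : Field n := fun x i j =>
  c1 * (nx i x * nx j x) + c2 * (nx i x * qv e j x + qv e i x * nx j x) + c3 * Pj i j x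

section

variable {e : Fin n → ℝ} {c1 c2 c3 : ℝ} {x : E n} (hx : x ≠ 0)
include hx

lemma row_Lf (i : Fin n) : row (Lf e c1 c2 c3) i x = c1 * nx i x + c2 * qv e i x := by
  unfold row Lf
  have h1 : ∀ j, (c1 * (nx i x * nx j x) + c2 * (nx i x * qv e j x + qv e i x * nx j x) +
      c3 * Pj i j x) * nx j x = c1 * nx i x * (nx j x * nx j x) +
      c2 * nx i x * (nx j x * qv e j x) + c2 * qv e i x * (nx j x * nx j x) +
      c3 * (Pj i j x * nx j x) := by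
    intro j; ring
  simp only [h1, Finset.sum_add_distrib, ← Finset.mul_sum, sum_nx_mul hx, nx_qv e hx, Pj_nx hx]
  ring

lemma rad_Lf : rad (Lf e c1 c2 c3) x = c1 := by
  have h0 : rad (Lf e c1 c2 c3) x = ∑ i, nx i x * row (Lf e c1 c2 c3) i x := by
    unfold rad row
    refine Finset.sum_congr rfl fun i _ => ?_
    rw [Finset.mul_sum]
    exact Finset.sum_congr rfl fun j _ => by ring
  rw [h0]
  simp only [row_Lf hx]
  have h1 : ∀ i, nx i x * (c1 * nx i x + c2 * qv e i x) = c1 * (nx i x * nx i x) +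
      c2 * (nx i x * qv e i x) := by
    intro i; ring
  simp only [h1, Finset.sum_add_distrib, ← Finset.mul_sum, sum_nx_mul hx, nx_qv e hx]
  ring

lemma Tnq_Lf : Tnq e (Lf e c1 c2 c3) x = c2 * (∑ i, e i ^ 2 - th e x ^ 2) := by
  unfold Tnq
  simp only [row_Lf hx]
  have h1 : ∀ i, (c1 * nx i x + c2 * qv e i x) * qv e i x = c1 * (nx i x * qv e i x) +
      c2 * qv e i x ^ 2 := by
    intro i; ring
  simp only [h1, Finset.sum_add_distrib, ← Finset.mul_sum, nx_qv e hx, qv_sq e hx]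
  ring

lemma TP_Lf : TP (Lf e c1 c2 c3) x = c3 * ((n : ℝ) - 1) := by
  unfold TP Lf
  have hP : ∑ i, ∑ l, Pj i l x * Pj i l x = (n : ℝ) - 1 := by
    have h1 : ∀ i, ∑ l, Pj i l x * Pj i l x = Pj i i x := by
      intro i
      rw [← Pj_Pj hx i i]
      exact Finset.sum_congr rfl fun l _ => by rw [Pj_symm i l]
    simp only [h1]
    unfold Pj
    simp only [if_true, Finset.sum_sub_distrib, sum_nx_mul hx]
    simp
  have h1 : ∀ i l, (c1 * (nx i x * nx l x) + c2 * (nx i x * qv e l x + qv e i x * nx l x) +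
      c3 * Pj i l x) * Pj i l x = (c1 * nx i x + c2 * qv e i x) * (Pj i l x * nx l x) +
      c2 * qv e l x * (nx i x * Pj i l x) + c3 * (Pj i l x * Pj i l x) := by
    intro i l; ring
  simp only [h1, Finset.sum_add_distrib, ← Finset.mul_sum, Pj_nx hx, hP]
  rw [Finset.sum_comm]
  simp only [← Finset.mul_sum, nx_Pj hx]
  simp

end

namespace Rd

variable {a p : ℝ → ℝ} {R : ℝ} {g K : Field n} (h : Rd a p R g) {x : E n} {e : Fin n → ℝ} {ε : ℝ}
include h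

/-- **lower bound for the norm of `K`** -/
theorem normSq_low (hn : 2 ≤ n) (hx : R ≤ len x) (hpd : (mat g x).PosDef)
    (hs : ∀ i j, K x i j = K x j i) (htr : tr g K x = 0) (he : ∑ i, e i ^ 2 = 1) (lam kap : ℝ) :
    (n / ((n : ℝ) - 1)) * (2 * lam * (th e x * rad K x / p (len x)) - lam ^ 2 * th e x ^ 2) +
      2 * (2 * kap * (Tnq e K x / (√(p (len x)) * √(a (len x)))) -
        kap ^ 2 * (1 - th e x ^ 2)) ≤ normSq g K x := by
  have hx0 := h.ne0 hx
  have ha := h.pa _ hx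
  have hp := h.pp _ hx
  have hu := h.up_symm' hx
  have hn1 : (n : ℝ) - 1 ≠ 0 := by
    have : (2 : ℝ) ≤ n := by exact_mod_cast hn
    linarith
  obtain ⟨A, hA⟩ : ∃ A, A = √(a (len x)) := ⟨_, rfl⟩
  obtain ⟨P, hP⟩ : ∃ P, P = √(p (len x)) := ⟨_, rfl⟩
  have hA0 : 0 < A := by rw [hA]; exact Real.sqrt_pos.2 ha
  have hP0 : 0 < P := by rw [hP]; exact Real.sqrt_pos.2 hp
  have hA2 : a (len x) = A ^ 2 := by rw [hA, Real.sq_sqrt ha.le]
  have hP2 : p (len x) = P ^ 2 := by rw [hP, Real.sq_sqrt hp.le]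
  obtain ⟨c1, hc1⟩ : ∃ c1, c1 = lam * th e x * P ^ 2 := ⟨_, rfl⟩
  obtain ⟨c2, hc2⟩ : ∃ c2, c2 = kap * P * A := ⟨_, rfl⟩
  obtain ⟨c3, hc3⟩ : ∃ c3, c3 = -(A ^ 2 * c1 / (((n : ℝ) - 1) * P ^ 2)) := ⟨_, rfl⟩
  have h1 := normSq_polar (K := K) hpd hu (Lf e c1 c2 c3)
  have hLtr : tr g (Lf e c1 c2 c3) x = 0 := by
    rw [h.tr_eq hx, TP_Lf hx0, rad_Lf hx0, hc3, hA2, hP2]
    field_simp
    ring
  have hLs : ∀ i j, Lf e c1 c2 c3 x i j = Lf e c1 c2 c3 x j i := by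
    intro i j
    unfold Lf
    rw [Pj_symm i j]
    ring
  rw [pr_Pu hu htr, pr_Pu hu hLtr] at h1
  have e1 : ∑ k, ∑ m, Pu g K k m x * Lf e c1 c2 c3 x k m = _ := h.Pu_lie hx hs htr c1 c2 c3
  have e2 : ∑ k, ∑ m, Pu g (Lf e c1 c2 c3) k m x * Lf e c1 c2 c3 x k m = _ :=
    h.Pu_lie hx hLs hLtr c1 c2 c3
  rw [e1, e2, rad_Lf hx0, Tnq_Lf hx0, he] at h1
  refine le_trans (le_of_eq ?_) h1
  rw [← hA, ← hP, hA2, hP2, hc3, hc1, hc2]
  field_simp
  ring

omit h in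
lemma sum_sub_sq {w : Fin n → ℝ} (hx : x ≠ 0) (s t : ℝ) :
    ∑ i, ((w i - (∑ j, nx j x * w j) * nx i x) * s - t * qv e i x) ^ 2 =
      (∑ i, w i ^ 2 - (∑ j, nx j x * w j) ^ 2) * s ^ 2 -
        2 * s * t * (∑ i, qv e i x * w i) + t ^ 2 * (∑ i, e i ^ 2 - th e x ^ 2) := by
  obtain ⟨W, hW⟩ : ∃ W, W = ∑ j, nx j x * w j := ⟨_, rfl⟩
  rw [← hW]
  have h1 : ∀ i, ((w i - W * nx i x) * s - t * qv e i x) ^ 2 =
      s ^ 2 * w i ^ 2 - 2 * W * s ^ 2 * (nx i x * w i) + W ^ 2 * s ^ 2 * (nx i x * nx i x) -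
      2 * s * t * (qv e i x * w i) + 2 * s * t * W * (nx i x * qv e i x) +
      t ^ 2 * qv e i x ^ 2 := by
    intro i; ring
  simp only [h1, Finset.sum_add_distrib, Finset.sum_sub_distrib, ← Finset.mul_sum, sum_nx_mul hx,
    nx_qv e hx, qv_sq e hx, ← hW]
  ring

/-- the frame has length one -/
theorem JX_le (hx : R ≤ len x) (he : ∑ i, e i ^ 2 = 1) (hε : ε ^ 2 = 1) :
    |JX g K e a p ε x| ≤ covNorm g (mom g K) x := by
  have hx0 := h.ne0 hx
  have ha := h.pa _ hx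
  have hp := h.pp _ hx
  obtain ⟨A, hA⟩ : ∃ A, A = √(a (len x)) := ⟨_, rfl⟩
  obtain ⟨P, hP⟩ : ∃ P, P = √(p (len x)) := ⟨_, rfl⟩
  have hA0 : 0 < A := by rw [hA]; exact Real.sqrt_pos.2 ha
  have hP0 : 0 < P := by rw [hP]; exact Real.sqrt_pos.2 hp
  have hA2 : a (len x) = A ^ 2 := by rw [hA, Real.sq_sqrt ha.le]
  have hP2 : p (len x) = P ^ 2 := by rw [hP, Real.sq_sqrt hp.le]
  obtain ⟨w, hw⟩ : ∃ w : Fin n → ℝ, w = fun j => mom g K j x := ⟨_, rfl⟩
  obtain ⟨W, hW⟩ : ∃ W, W = ∑ j, nx j x * w j := ⟨_, rfl⟩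
  obtain ⟨Q, hQ⟩ : ∃ Q, Q = ∑ j, qv e j x * w j := ⟨_, rfl⟩
  have hJ : JX g K e a p ε x = ε / A * Q + 1 / P * th e x * W := by
    unfold JX Xv fa fb
    rw [← hA, ← hP, hQ, hW, Finset.mul_sum, Finset.mul_sum, ← Finset.sum_add_distrib]
    refine Finset.sum_congr rfl fun j _ => ?_
    rw [hw]
    ring
  unfold covNorm
  refine Real.abs_le_sqrt ?_
  have hcov : ∑ i, ∑ j, up g i j x * mom g K i x * mom g K j x =
      1 / A ^ 2 * (∑ i, w i ^ 2 - W ^ 2) + 1 / P ^ 2 * W ^ 2 := by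
    have e1 : ∀ i j, up g i j x * mom g K i x * mom g K j x =
        1 / A ^ 2 * ((if i = j then 1 else 0) * w i * w j) +
        (1 / P ^ 2 - 1 / A ^ 2) * ((nx i x * w i) * (nx j x * w j)) := by
      intro i j
      rw [h.up_eq hx, hA2, hP2, hw]
      unfold Pj
      ring
    simp only [e1, Finset.sum_add_distrib, ← Finset.mul_sum, ← Finset.sum_mul, ← hW]
    have e2 : ∑ i, ∑ j, ((if i = j then (1 : ℝ) else 0) * w i * w j) = ∑ i, w i ^ 2 := by
      refine Finset.sum_congr rfl fun i _ => ?_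
      simp only [ite_mul, one_mul, zero_mul, Finset.sum_ite_eq, Finset.mem_univ, if_true]
      ring
    rw [e2]
    ring
  rw [hcov]
  obtain ⟨s, hs⟩ : ∃ s, s = JX g K e a p ε x := ⟨_, rfl⟩
  have h1 : 0 ≤ ∑ i, ((w i - (∑ j, nx j x * w j) * nx i x) * (1 / A) - (s * ε) * qv e i x) ^ 2 :=
    Finset.sum_nonneg fun i _ => sq_nonneg _
  rw [sum_sub_sq hx0, he, ← hW, ← hQ] at h1
  have h2 : 0 ≤ (W / P - s * th e x) ^ 2 := sq_nonneg _
  rw [← hs]
  rw [← hs] at hJ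
  have h3 : (s * ε) ^ 2 = s ^ 2 := by rw [mul_pow, hε, mul_one]
  rw [h3] at h1
  have h4 : s * (ε / A * Q + 1 / P * th e x * W) = s ^ 2 := by rw [← hJ]; ring
  have h5 : (W / P - s * th e x) ^ 2 = 1 / P ^ 2 * W ^ 2 - 2 * (s * (1 / P * th e x * W)) +
      s ^ 2 * th e x ^ 2 := by
    field_simp
    ring
  rw [h5] at h2
  have h6 : 2 * (1 / A) * (s * ε) * Q = 2 * (s * (ε / A * Q)) := by ring
  rw [h6] at h1
  have h7 : s * (ε / A * Q) + s * (1 / P * th e x * W) = s ^ 2 := by rw [← h4]; ring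
  have h8 : (1 / A) ^ 2 = 1 / A ^ 2 := by rw [div_pow, one_pow]
  rw [h8] at h1
  nlinarith

end Rd

end Vale.Agent.H318
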