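import Vale.Agent.P366.T4.Trans92
import Vale.Agent.P366.T4.Area92
import Vale.Agent.P366.T5.W1

/-! Spherically symmetric metrics `g = a(r) (δ - n n) + p(r) n n`. -/

open MeasureTheory Metric Filter Topology Set
open scoped ContDiff Matrix

noncomputable section
namespace Vale.Agent.H318
open Vale.Agent.P366.Stmt Vale.Agent.P366.T2 Vale.Agent.T4

variable {n : ℕ}

/-- `g = a(r) (δ - n n) + p(r) n n` -/
structure Rd (a p : ℝ → ℝ) (R : ℝ) (g : Field n) : Prop where
  hR : 0 < R
  sa : ContDiff ℝ ∞ a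
  sp : ContDiff ℝ ∞ p
  pa : ∀ r, R ≤ r → 0 < a r
  pp : ∀ r, R ≤ r → 0 < p r
  gs : ∀ i j, Smooth (fun x => g x i j)
  eq : ∀ x, R ≤ len x → ∀ i j, g x i j = a (len x) * Pj i j x + p (len x) * (nx i x * nx j x)

/-- invariant metrics -/
theorem rd_of_inv (hn : 3 ≤ n) {Γ : Matrix (Fin n) (Fin n) ℝ → Prop}
    (hΓ : Vale.Agent.G2.PairTrans Γ) {R : ℝ} (hR : 0 < R) {g : Field n}
    (hg : InvUnder Γ R g) (gs : ∀ i j, Smooth (fun x => g x i j))
    (hs : ∀ x i j, g x i j = g x j i) (hpd : ∀ x, R ≤ len x → (mat g x).PosDef) :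
    ∃ a p, Rd a p R g := by
  classical
  set e : Fin n → ℝ := _root_.Pi.single ⟨0, by omega⟩ 1 with he_def
  set f : Fin n → ℝ := _root_.Pi.single ⟨1, by omega⟩ 1 with hf_def
  have he : e ⬝ᵥ e = 1 := by simp [he_def]
  have hf : f ⬝ᵥ f = 1 := by simp [hf_def]
  have hef : e ⬝ᵥ f = 0 := by simp [he_def, hf_def]
  have hf0 : f ≠ 0 := by
    intro h0
    rw [h0, dotProduct_zero] at hf
    exact zero_ne_one hf
  have he0 : e ≠ 0 := by
    intro h0
    rw [h0, dotProduct_zero] at he
    exact zero_ne_one he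
  have hlen : ∀ r, R ≤ r → R ≤ len (pt e r) := by
    intro r hr
    rw [len_pt he, abs_of_pos (hR.trans_le hr)]; exact hr
  refine ⟨G2.aC g e f, G2.pC g e, hR, Quat.form_smooth gs e _ _, Quat.form_smooth gs e _ _,
    fun r hr => ?_, fun r hr => ?_, gs, fun x hx i j => ?_⟩
  · have h1 := (hpd _ (hlen r hr)).dotProduct_mulVec_pos hf0
    have h2 : 0 < f ⬝ᵥ (mat g (pt e r) *ᵥ f) := by simpa using h1
    exact h2
  · have h1 := (hpd _ (hlen r hr)).dotProduct_mulVec_pos he0
    have h2 : 0 < e ⬝ᵥ (mat g (pt e r) *ᵥ e) := by simpa using h1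
    exact h2
  · rw [G2.radial_form hΓ hR hg (fun x _ => hs x) he hf hef hx i j]
    unfold Pj nx
    have := (hR.trans_le hx).ne'
    field_simp

namespace Rd

variable {a p : ℝ → ℝ} {R : ℝ} {g : Field n} (h : Rd a p R g) {x : E n}
include h

lemma ne0 (hx : R ≤ len x) : x ≠ 0 := ne_zero_of_len h.hR hx

lemma lpos (hx : R ≤ len x) : 0 < len x := h.hR.trans_le hx

lemma nhd (hx : R < len x) : ∀ᶠ y in 𝓝 x, R ≤ len y := by
  filter_upwards [(isOpen_out R).mem_nhds hx] with y hy
  exact le_of_lt hy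

lemma symm (hx : R ≤ len x) (i j : Fin n) : g x i j = g x j i := by
  rw [h.eq x hx, h.eq x hx, Pj_symm]
  ring

lemma mul_inv (hx : R ≤ len x) : mat g x * Matrix.of (fun i j => 1 / a (len x) * Pj i j x +
    1 / p (len x) * (nx i x * nx j x)) = 1 := by
  have hx0 := h.ne0 hx
  have ha := (h.pa _ hx).ne'
  have hp := (h.pp _ hx).ne'
  ext i k
  rw [Matrix.mul_apply, Matrix.one_apply]
  have h1 : ∀ j, mat g x i j * Matrix.of (fun i j => 1 / a (len x) * Pj i j x +
      1 / p (len x) * (nx i x * nx j x)) j k = Pj i j x * Pj j k x +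
      a (len x) / p (len x) * nx k x * (Pj i j x * nx j x) +
      p (len x) / a (len x) * nx i x * (nx j x * Pj j k x) +
      nx i x * nx k x * (nx j x * nx j x) := by
    intro j
    rw [Matrix.of_apply, show mat g x i j = g x i j from rfl, h.eq x hx]
    field_simp
    ring
  simp only [h1, Finset.sum_add_distrib, ← Finset.mul_sum, Pj_Pj hx0, Pj_nx hx0, nx_Pj hx0,
    sum_nx_mul hx0]
  unfold Pj
  ring

lemma up_eq (hx : R ≤ len x) (i j : Fin n) :
    up g i j x = 1 / a (len x) * Pj i j x + 1 / p (len x) * (nx i x * nx j x) := by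
  unfold up
  rw [Matrix.inv_eq_right_inv (h.mul_inv hx)]
  rfl

lemma det_ne (hx : R ≤ len x) : (mat g x).det ≠ 0 := by
  have h1 := congrArg Matrix.det (h.mul_inv hx)
  rw [Matrix.det_mul, Matrix.det_one] at h1
  exact left_ne_zero_of_mul_eq_one h1

lemma g_HP (hx : R < len x) (m i j : Fin n) : HP m (fun y => g y i j)
    (deriv a (len x) * (nx m x * Pj i j x) + deriv p (len x) * (nx m x * (nx i x * nx j x)) +
      (p (len x) - a (len x)) / len x * (Pj i m x * nx j x + nx i x * Pj j m x)) x := by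
  have hx0 := h.ne0 hx.le
  have hr := (h.lpos hx.le).ne'
  have h1 := ((HP.radial hx0 (hd1 h.sa (len x)) m).mul (Pj_HP hx0 m i j)).add
    ((HP.radial hx0 (hd1 h.sp (len x)) m).mul ((HP_nx hx0 m i).mul (HP_nx hx0 m j)))
  have h2 : (fun y => g y i j) =ᶠ[𝓝 x] fun y => a (len y) * Pj i j y +
      p (len y) * (nx i y * nx j y) := by
    filter_upwards [h.nhd hx] with y hy
    exact h.eq y hy i j
  have h3 := h1.congr h2
  refine (congrArg (fun d => HP m (fun y => g y i j) d x) ?_).mp h3
  unfold Pj nx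
  field_simp
  ring

lemma L_eq (hx : R < len x) (m : Fin n) :
    Lg g m x = (((n : ℝ) - 1) * deriv a (len x) / (2 * a (len x)) +
      deriv p (len x) / (2 * p (len x))) * nx m x := by
  have hx0 := h.ne0 hx.le
  have ha := (h.pa _ hx.le).ne'
  have hp := (h.pp _ hx.le).ne'
  unfold Lg
  have h1 : ∀ i j, up g i j x * pd m (fun y => g y i j) x =
      deriv a (len x) * nx m x / a (len x) * (Pj i j x * Pj j i x) +
      (deriv p (len x) * nx m x / a (len x) * nx i x + (p (len x) - a (len x)) / len x /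
        a (len x) * Pj i m x) * (Pj i j x * nx j x) +
      (p (len x) - a (len x)) / len x / a (len x) * nx i x * (Pj i j x * Pj j m x) +
      deriv a (len x) * nx m x * nx i x / p (len x) * (Pj i j x * nx j x) +
      (deriv p (len x) / p (len x) * nx m x * (nx i x * nx i x) +
        (p (len x) - a (len x)) / len x / p (len x) * (nx i x * Pj i m x)) *
        (nx j x * nx j x) +
      (p (len x) - a (len x)) / len x / p (len x) * (nx i x * nx i x) *
        (nx j x * Pj j m x) := by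
    intro i j
    rw [h.up_eq hx.le, (h.g_HP hx m i j).pd, Pj_symm j i]
    ring
  simp only [h1, Finset.sum_add_distrib, ← Finset.mul_sum, Pj_nx hx0, Pj_Pj hx0, sum_nx_mul hx0,
    Pj_tr hx0, nx_Pj hx0, mul_zero, mul_one, add_zero]
  have h2 : ∑ i, (p (len x) - a (len x)) / len x / a (len x) * nx i x * Pj i m x = 0 := by
    have e : ∀ i, (p (len x) - a (len x)) / len x / a (len x) * nx i x * Pj i m x =
        (p (len x) - a (len x)) / len x / a (len x) * (nx i x * Pj i m x) := fun i => by ring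
    simp only [e, ← Finset.mul_sum, nx_Pj hx0, mul_zero]
  rw [h2]
  field_simp
  ring

end Rd

end Vale.Agent.H318
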