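import Vale.Agent.P366.R2.H318.Ode
import Vale.Agent.P366.R2.H318.Congr

/-! Regularity of the fluxes. -/

open MeasureTheory Metric Filter Topology Set
open scoped ContDiff Matrix

noncomputable section
namespace Vale.Agent.H318
open Vale.Agent.P366.Stmt Vale.Agent.P366.T2 Vale.Agent.T4 Vale.Agent.Mom68
open Vale.Agent.P366 (sphI sphM flux dvg flux_hasDerivAt isOpen_outside sphI_congr sphI_add
  sphI_const_mul)

variable {n : ℕ}

lemma contDiffAt_mom' {g K : Field n} (hg : ∀ i j, Smooth (fun x => g x i j))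
    (hK : ∀ i j, Smooth (fun x => K x i j)) {x : E n} (hd : (mat g x).det ≠ 0) (j : Fin n) :
    ContDiffAt ℝ ∞ (mom g K j) x := by
  unfold mom
  exact ContDiffAt.sum fun i _ => ContDiffAt.sum fun k _ => (contDiffAt_up hg hd i k).mul
    ((contDiffAt_pd (contDiffAt_momT hg hK hd i j) k).sub (ContDiffAt.sum fun l _ =>
      ((contDiffAt_chr hg hd l k i).mul (contDiffAt_momT hg hK hd l j)).add
        ((contDiffAt_chr hg hd l k j).mul (contDiffAt_momT hg hK hd i l))))

lemma contDiffAt_Pj (i j : Fin n) {x : E n} (hx : x ≠ 0) : ContDiffAt ℝ ∞ (Pj i j) x := by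
  unfold Pj
  exact contDiffAt_const.sub ((contDiffAt_nx i hx).mul (contDiffAt_nx j hx))

lemma contDiffAt_th (e : Fin n → ℝ) {x : E n} (hx : x ≠ 0) : ContDiffAt ℝ ∞ (th e) x := by
  unfold th
  exact ContDiffAt.sum fun l _ => contDiffAt_const.mul (contDiffAt_nx l hx)

lemma contDiffAt_qv (e : Fin n → ℝ) (i : Fin n) {x : E n} (hx : x ≠ 0) :
    ContDiffAt ℝ ∞ (qv e i) x := by
  unfold qv
  exact ContDiffAt.sum fun l _ => (contDiffAt_Pj i l hx).mul contDiffAt_const

lemma contDiffAt_Xv {al be : ℝ → ℝ} (e : Fin n → ℝ) (i : Fin n) {x : E n} (hx : x ≠ 0)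
    (ha : ContDiffAt ℝ ∞ al (len x)) (hb : ContDiffAt ℝ ∞ be (len x)) :
    ContDiffAt ℝ ∞ (Xv e al be i) x := by
  unfold Xv
  have hl : ContDiffAt ℝ ∞ (len : E n → ℝ) x := contDiffAt_len hx
  exact ((ha.comp x hl).mul (contDiffAt_qv e i hx)).add
    ((hb.comp x hl).mul ((contDiffAt_th e hx).mul (contDiffAt_nx i hx)))

namespace Rd

variable {a p : ℝ → ℝ} {R : ℝ} {g K : Field n} (h : Rd a p R g) {x : E n} {e : Fin n → ℝ} {ε : ℝ}
include h

lemma cfa {r : ℝ} (hr : R ≤ r) : ContDiffAt ℝ ∞ (fa a ε) r :=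
  contDiffAt_const.div (h.sa.contDiffAt.sqrt (h.pa r hr).ne') (Real.sqrt_pos.2 (h.pa r hr)).ne'

lemma cfb {r : ℝ} (hr : R ≤ r) : ContDiffAt ℝ ∞ (fb p) r :=
  contDiffAt_const.div (h.sp.contDiffAt.sqrt (h.pp r hr).ne') (Real.sqrt_pos.2 (h.pp r hr)).ne'

lemma cDn {r : ℝ} (hr : R ≤ r) : ContDiffAt ℝ ∞ (Dn n a p) r :=
  ((h.sa.contDiffAt.sqrt (h.pa r hr).ne').pow _).mul (h.sp.contDiffAt.sqrt (h.pp r hr).ne')

lemma cX (hx : R ≤ len x) (i : Fin n) : ContDiffAt ℝ ∞ (Xv e (fa a ε) (fb p) i) x :=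
  contDiffAt_Xv e i (h.ne0 hx) (h.cfa hx) (h.cfb hx)

variable (hK : ∀ i j, Smooth (fun x => K x i j))
include hK

lemma cWX (hx : R ≤ len x) (k : Fin n) :
    ContDiffAt ℝ ∞ (WX g K (Xv e (fa a ε) (fb p)) k) x := by
  unfold WX
  exact ContDiffAt.sum fun i _ => (contDiffAt_up h.gs (h.det_ne hx) k i).mul
    (ContDiffAt.sum fun j _ => (contDiffAt_momT h.gs hK (h.det_ne hx) i j).mul (h.cX hx j))

lemma cnW (hx : R ≤ len x) : ContDiffAt ℝ ∞ (nW g K e a p ε) x := by
  unfold nW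
  exact ContDiffAt.sum fun k _ => (contDiffAt_nx k (h.ne0 hx)).mul (h.cWX hK hx k)

lemma cJX (hx : R ≤ len x) : ContDiffAt ℝ ∞ (JX g K e a p ε) x := by
  unfold JX
  exact ContDiffAt.sum fun k _ => (h.cX hx k).mul (contDiffAt_mom' h.gs hK (h.det_ne hx) k)

/-- **the differential equation of the fluxes** -/
theorem Fl_hd (hn : 2 ≤ n) (hs : ∀ x, R ≤ len x → ∀ i j, K x i j = K x j i)
    (htr : ∀ x, R ≤ len x → tr g K x = 0) (hε : ε ^ 2 = 1) {r : ℝ} (hr : R < r) :
    HasDerivAt (Fl g K e a p ε) (r ^ (n - 1) * Dn n a p r * sphI (JX g K e a p ε) r +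
      cf a p ε r * Fl g K e a p ε r) r := by
  have : Nonempty (Fin n) := ⟨⟨0, by omega⟩⟩
  have : Nontrivial (E n) := inferInstance
  have hR := h.hR
  have hr0 : 0 < r := hR.trans hr
  obtain ⟨W, hW⟩ : ∃ W : Fin n → E n → ℝ,
      W = fun k x => Dn n a p (len x) * WX g K (Xv e (fa a ε) (fb p)) k x := ⟨_, rfl⟩
  have hWs : ∀ k x, R ≤ len x → ContDiffAt ℝ ∞ (W k) x := by
    intro k x hx
    rw [hW]
    exact ((h.cDn hx).comp x (contDiffAt_len (h.ne0 hx))).mul (h.cWX hK hx k)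
  have hW1 : ∀ k, ContDiffOn ℝ 1 (W k) {x | R < ‖x‖} := fun k x hx =>
    ((hWs k x (le_of_lt hx)).of_le (by norm_cast)).contDiffWithinAt
  have h1 := flux_hasDerivAt hR.le hW1 hr
  have h2 : flux W =ᶠ[𝓝 r] Fl g K e a p ε := by
    filter_upwards [lt_mem_nhds hr] with s hs'
    have hs0 : 0 < s := hR.trans hs'
    unfold flux Fl
    have e0 : sphI (fun x => ∑ i, W i x * (x i / ‖x‖)) s = Dn n a p s * sphI (nW g K e a p ε) s := by
      rw [← sphI_const_mul]
      refine sphI_congr hs0.le fun x hx => ?_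
      rw [hW]
      unfold nW
      rw [Finset.mul_sum]
      refine Finset.sum_congr rfl fun k _ => ?_
      have hl : len x = s := hx
      have hn' : nx k x = x k / ‖x‖ := rfl
      rw [hn']
      show Dn n a p (len x) * WX g K (Xv e (fa a ε) (fb p)) k x * (x k / ‖x‖) = _
      rw [hl]
      ring
    rw [e0]
    ring
  have h3 := h1.congr_of_eventuallyEq h2.symm
  refine h3.congr_deriv ?_
  have h4 : sphI (dvg W) r = sphI (fun x => Dn n a p r * (JX g K e a p ε x +
      cf a p ε r * nW g K e a p ε x)) r := by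
    refine sphI_congr hr0.le fun x hx => ?_
    have hl : len x = r := hx
    have hxR : R < len x := by rw [hl]; exact hr
    have hx0 := h.ne0 hxR.le
    have hpd : ∀ k, Vale.Agent.P366.pd k (W k) x = pd k (W k) x := fun k =>
      (Vale.Agent.P366.Bridge.pd_eq ((hWs k x hxR.le).differentiableAt (by norm_num)) k).symm
    unfold dvg
    simp only [hpd]
    have hWk : ∀ k, HP k (W k) (Dn n a p (len x) * (((n : ℝ) - 1) * deriv a (len x) /
        (2 * a (len x)) + deriv p (len x) / (2 * p (len x))) / len x * x k *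
          WX g K (Xv e (fa a ε) (fb p)) k x +
        Dn n a p (len x) * pd k (WX g K (Xv e (fa a ε) (fb p)) k) x) x := by
      intro k
      rw [hW]
      exact (HP.radial hx0 (h.Dn_hd (by omega) hxR.le) k).mul
        (HP.of_diff ((h.cWX hK hxR.le k).differentiableAt (by norm_num)))
    simp only [(hWk _).pd]
    have hmom := mom_X (isOpen_out R) h.gs hK (fun y hy i j => h.symm (le_of_lt hy) i j)
      (fun y hy i j => hs y (le_of_lt hy) i j) (fun y hy => h.det_ne (le_of_lt hy)) (x := x)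
      (X := Xv e (fa a ε) (fb p)) hxR
      (fun j => (h.cX hxR.le j).differentiableAt (by norm_num))
    rw [h.half_lie hxR (hs x hxR.le) (htr x hxR.le) hε] at hmom
    have hJ : JX g K e a p ε x + cf a p ε (len x) * nW g K e a p ε x =
        ∑ k, pd k (WX g K (Xv e (fa a ε) (fb p)) k) x +
        ∑ k, Lg g k x * WX g K (Xv e (fa a ε) (fb p)) k x := by
      unfold JX
      linarith
    rw [← hl, hJ, ← Finset.sum_add_distrib, Finset.mul_sum]
    refine Finset.sum_congr rfl fun k _ => ?_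
    rw [h.L_eq hxR]
    unfold nx
    ring
  have hcJ : ContinuousOn (JX g K e a p ε) {x | R < ‖x‖} := fun x hx =>
    (h.cJX hK (le_of_lt hx)).continuousAt.continuousWithinAt
  have hcW : ContinuousOn (fun x => cf a p ε r * nW g K e a p ε x) {x | R < ‖x‖} := fun x hx =>
    ((h.cnW hK (le_of_lt hx)).continuousAt.const_mul _).continuousWithinAt
  rw [h4, sphI_const_mul, sphI_add hR.le hr hcJ hcW, sphI_const_mul]
  unfold Fl
  ring

end Rd

end Vale.Agent.H318
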