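import Vale.Agent.P366.R2.H318.RadG

/-! The conformal Killing frames of a spherically symmetric metric. -/

open MeasureTheory Metric Filter Topology Set
open scoped ContDiff Matrix

noncomputable section
namespace Vale.Agent.H318
open Vale.Agent.P366.Stmt Vale.Agent.P366.T2 Vale.Agent.T4 Vale.Agent.Mom68

variable {n : ℕ}

/-- `⟨e, x⟩ / |x|` -/
def th (e : Fin n → ℝ) (x : E n) : ℝ := ∑ l, e l * nx l x

/-- the part of `e` tangential to the sphere -/
def qv (e : Fin n → ℝ) (i : Fin n) (x : E n) : ℝ := ∑ l, Pj i l x * e l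

section

variable (e : Fin n → ℝ) {x : E n} (hx : x ≠ 0)
include hx

lemma Pj_qv (i : Fin n) : ∑ j, Pj i j x * qv e j x = qv e i x := by
  unfold qv
  simp only [Finset.mul_sum]
  rw [Finset.sum_comm]
  refine Finset.sum_congr rfl fun l _ => ?_
  rw [← Pj_Pj hx i l, Finset.sum_mul]
  exact Finset.sum_congr rfl fun j _ => by ring

lemma nx_qv : ∑ j, nx j x * qv e j x = 0 := by
  unfold qv
  simp only [Finset.mul_sum]
  rw [Finset.sum_comm]
  refine Finset.sum_eq_zero fun l _ => ?_
  have : ∑ j, nx j x * (Pj j l x * e l) = (∑ j, nx j x * Pj j l x) * e l := by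
    rw [Finset.sum_mul]
    exact Finset.sum_congr rfl fun j _ => by ring
  rw [this, nx_Pj hx, zero_mul]

omit hx in
lemma qv_eq (i : Fin n) : qv e i x = e i - th e x * nx i x := by
  unfold qv th Pj
  have h1 : ∀ l, ((if i = l then (1 : ℝ) else 0) - nx i x * nx l x) * e l =
      (if i = l then e l else 0) - nx i x * (e l * nx l x) := by
    intro l
    split_ifs <;> ring
  simp only [h1, Finset.sum_sub_distrib, ← Finset.mul_sum]
  simp
  ring

lemma qv_sq : ∑ i, qv e i x ^ 2 = ∑ i, e i ^ 2 - th e x ^ 2 := by
  have h1 : ∀ i, qv e i x ^ 2 = e i ^ 2 - 2 * th e x * (e i * nx i x) +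
      th e x ^ 2 * (nx i x * nx i x) := by
    intro i
    rw [qv_eq]
    ring
  simp only [h1, Finset.sum_add_distrib, Finset.sum_sub_distrib, ← Finset.mul_sum,
    sum_nx_mul hx]
  unfold th
  ring

lemma th_HP (m : Fin n) : HP m (th e) (qv e m x / len x) x := by
  have h1 : HP m (th e) (∑ l, e l * (((if l = m then 1 else 0) - nx l x * nx m x) / len x)) x :=
    HP.sum _ fun l _ => (HP_nx hx m l).const_mul _
  refine (congrArg (fun d => HP m (th e) d x) ?_).mp h1
  unfold qv Pj
  rw [Finset.sum_div]
  refine Finset.sum_congr rfl fun l _ => ?_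
  simp only [eq_comm (a := l) (b := m)]
  ring

lemma qv_HP (m k : Fin n) : HP m (qv e k)
    (-(1 / len x) * (Pj k m x * th e x + nx k x * qv e m x)) x := by
  have h1 : HP m (qv e k) (∑ l, -(1 / len x) * (Pj k m x * nx l x + nx k x * Pj l m x) * e l) x :=
    HP.sum _ fun l _ => by
      have := (Pj_HP hx m k l).mul (HP.const m (e l) x)
      simp only [mul_zero, add_zero] at this
      exact this
  refine (congrArg (fun d => HP m (qv e k) d x) ?_).mp h1
  unfold qv th
  have h2 : ∀ l, -(1 / len x) * (Pj k m x * nx l x + nx k x * Pj l m x) * e l =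
      -(1 / len x) * Pj k m x * (e l * nx l x) + -(1 / len x) * nx k x * (Pj m l x * e l) := by
    intro l
    rw [Pj_symm l m]
    ring
  simp only [h2, Finset.sum_add_distrib, ← Finset.mul_sum]
  ring

end

/-- the vector field `α(r) q + β(r) θ n` -/
def Xv (e : Fin n → ℝ) (al be : ℝ → ℝ) (k : Fin n) (x : E n) : ℝ :=
  al (len x) * qv e k x + be (len x) * (th e x * nx k x)

section

variable {e : Fin n → ℝ} {al be : ℝ → ℝ} {x : E n} (hx : x ≠ 0)
include hx

lemma Xv_nx : ∑ j, Xv e al be j x * nx j x = be (len x) * th e x := by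
  unfold Xv
  have h1 : ∀ j, (al (len x) * qv e j x + be (len x) * (th e x * nx j x)) * nx j x =
      al (len x) * (nx j x * qv e j x) + be (len x) * th e x * (nx j x * nx j x) := by
    intro j; ring
  simp only [h1, Finset.sum_add_distrib, ← Finset.mul_sum, nx_qv e hx, sum_nx_mul hx]
  ring

lemma Xv_Pj (k : Fin n) : ∑ j, Xv e al be j x * Pj k j x = al (len x) * qv e k x := by
  unfold Xv
  have h1 : ∀ j, (al (len x) * qv e j x + be (len x) * (th e x * nx j x)) * Pj k j x =
      al (len x) * (Pj k j x * qv e j x) + be (len x) * th e x * (Pj k j x * nx j x) := by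
    intro j; ring
  simp only [h1, Finset.sum_add_distrib, ← Finset.mul_sum, Pj_qv e hx, Pj_nx hx]
  ring

lemma Xv_HP {al' be' : ℝ} (ha : HasDerivAt al al' (len x)) (hb : HasDerivAt be be' (len x))
    (m k : Fin n) : HP m (Xv e al be k)
    (al' * (nx m x * qv e k x) - al (len x) / len x * (Pj k m x * th e x + nx k x * qv e m x) +
      be' * (nx m x * (th e x * nx k x)) +
      be (len x) / len x * (qv e m x * nx k x + th e x * Pj k m x)) x := by
  have h1 := ((HP.radial hx ha m).mul (qv_HP e hx m k)).add
    ((HP.radial hx hb m).mul ((th_HP e hx m).mul (HP_nx hx m k)))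
  refine (congrArg (fun d => HP m (Xv e al be k) d x) ?_).mp h1
  unfold Pj nx
  ring

end

namespace Rd

variable {a p : ℝ → ℝ} {R : ℝ} {g : Field n} (h : Rd a p R g) {x : E n} {e : Fin n → ℝ}
  {al be : ℝ → ℝ} {al' be' : ℝ}
include h

/-- contraction of the metric with the derivative of the field -/
lemma g_dX (hx : R < len x) (ha : HasDerivAt al al' (len x)) (hb : HasDerivAt be be' (len x))
    (k m : Fin n) : ∑ j, g x j m * pd k (Xv e al be j) x =
      a (len x) * al' * (nx k x * qv e m x) +
      a (len x) * (be (len x) - al (len x)) / len x * (th e x * Pj m k x) -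
      p (len x) * al (len x) / len x * (qv e k x * nx m x) +
      p (len x) * be' * (nx k x * (th e x * nx m x)) +
      p (len x) * be (len x) / len x * (qv e k x * nx m x) := by
  have hx0 := h.ne0 hx.le
  have h1 : ∀ j, g x j m * pd k (Xv e al be j) x =
      a (len x) * al' * nx k x * (Pj m j x * qv e j x) +
      a (len x) * (be (len x) - al (len x)) / len x * th e x * (Pj m j x * Pj j k x) +
      (a (len x) * be' * nx k x * th e x +
        a (len x) * (be (len x) - al (len x)) / len x * qv e k x) * (Pj m j x * nx j x) +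
      p (len x) * nx m x * al' * nx k x * (nx j x * qv e j x) +
      p (len x) * nx m x * (be (len x) - al (len x)) / len x * th e x * (nx j x * Pj j k x) +
      (p (len x) * nx m x * be' * nx k x * th e x +
        p (len x) * nx m x * (be (len x) - al (len x)) / len x * qv e k x) *
        (nx j x * nx j x) := by
    intro j
    rw [h.eq x hx.le, (Xv_HP hx0 ha hb k j).pd, Pj_symm j m]
    ring
  simp only [h1, Finset.sum_add_distrib, ← Finset.mul_sum, Pj_qv e hx0, Pj_Pj hx0, Pj_nx hx0,
    nx_qv e hx0, nx_Pj hx0, sum_nx_mul hx0]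
  ring

/-- the Lie derivative of the metric -/
lemma lie_eq (hx : R < len x) (ha : HasDerivAt al al' (len x)) (hb : HasDerivAt be be' (len x))
    (k m : Fin n) : Lie g (Xv e al be) k m x =
      (be (len x) * deriv p (len x) + 2 * p (len x) * be') * th e x * (nx k x * nx m x) +
      (a (len x) * al' - a (len x) * al (len x) / len x + p (len x) * be (len x) / len x) *
        (nx k x * qv e m x + qv e k x * nx m x) +
      (be (len x) * deriv a (len x) + 2 * a (len x) * (be (len x) - al (len x)) / len x) *
        th e x * Pj k m x := by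
  have hx0 := h.ne0 hx.le
  unfold Lie
  have h1 : ∀ j, Xv e al be j x * pd j (fun y => g y k m) x =
      (deriv a (len x) * Pj k m x + deriv p (len x) * (nx k x * nx m x)) *
        (Xv e al be j x * nx j x) +
      (p (len x) - a (len x)) / len x * nx m x * (Xv e al be j x * Pj k j x) +
      (p (len x) - a (len x)) / len x * nx k x * (Xv e al be j x * Pj m j x) := by
    intro j
    rw [(h.g_HP hx j k m).pd]
    ring
  have h2 : ∀ j, g x k j * pd m (Xv e al be j) x = g x j k * pd m (Xv e al be j) x := fun j => by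
    rw [h.symm hx.le]
  simp only [Finset.sum_add_distrib, h2, h.g_dX hx ha hb]
  simp only [h1, Finset.sum_add_distrib, ← Finset.mul_sum, Xv_nx hx0, Xv_Pj hx0]
  rw [Pj_symm m k]
  ring

end Rd

end Vale.Agent.H318
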